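import Vale.Agent.P089.Spec2

/-! The left regular representation and fields of monomial representations. -/

namespace Vale.Agent.P089.An

open MeasureTheory Classical Filter Topology
open scoped InnerProductSpace

variable {G : Type} [Group G]

/-- left translation, linear version -/
noncomputable def lamL (g : G) : L2 G →ₗ[ℂ] L2 G where
  toFun ξ := ⟨fun h => ξ (g⁻¹ * h), (memℓp_gen_iff (by norm_num)).2
    ((Equiv.mulLeft g⁻¹).summable_iff.2 ((memℓp_gen_iff (by norm_num)).1 (lp.memℓp ξ)))⟩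
  map_add' _ _ := rfl
  map_smul' _ _ := rfl

theorem norm_lamL (g : G) (ξ : L2 G) : ‖lamL g ξ‖ = ‖ξ‖ := by
  rw [lp.norm_eq_tsum_rpow (by norm_num), lp.norm_eq_tsum_rpow (by norm_num)]
  congr 1
  exact (Equiv.mulLeft g⁻¹).tsum_eq fun h => ‖ξ h‖ ^ (2 : ENNReal).toReal

/-- the left regular representation -/
noncomputable def lam : G →* (L2 G →L[ℂ] L2 G) where
  toFun g := (lamL g).mkContinuous 1 fun ξ => by simp [norm_lamL]
  map_one' := by
    ext ξ h
    exact congrArg ξ (by simp)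
  map_mul' g g' := by
    ext ξ h
    exact congrArg ξ (by simp [mul_assoc])

theorem lam_apply (g : G) (ξ : L2 G) (h : G) : lam g ξ h = ξ (g⁻¹ * h) := rfl

theorem star_lam (g : G) : star (lam g) = lam g⁻¹ := by
  symm
  rw [ContinuousLinearMap.star_eq_adjoint, ContinuousLinearMap.eq_adjoint_iff]
  intro ξ η
  rw [lp.inner_eq_tsum, lp.inner_eq_tsum, ← (Equiv.mulLeft g).tsum_eq fun h => ⟪ξ h, lam g η h⟫_ℂ]
  simp [lam_apply]

/-- the regular representation of the real group algebra -/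
noncomputable def LL : MonoidAlgebra ℝ G →ₐ[ℝ] (L2 G →L[ℂ] L2 G) := MonoidAlgebra.lift ℝ _ G lam

/-- the Dirac mass at the unit -/
noncomputable def dl : L2 G := lp.single 2 (1 : G) (1 : ℂ)

theorem LL_single (g : G) (c : ℝ) : LL (MonoidAlgebra.single g c) = c • lam g :=
  MonoidAlgebra.lift_single _ _ _

theorem LL_dl (z : MonoidAlgebra ℝ G) (γ : G) : LL z dl γ = z.coeff γ := by
  induction z using MonoidAlgebra.induction_linear with
  | zero => simp
  | add x y hx hy => simp [hx, hy]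
  | single g c =>
    rw [LL_single]
    change c • (dl : L2 G) (g⁻¹ * γ) = _
    by_cases h : γ = g
    · simp [h, dl]
    · have : g⁻¹ * γ ≠ 1 := fun e => h (by rw [inv_mul_eq_one] at e; exact e.symm)
      simp [dl, lp.single_apply, Pi.single_apply, this, h]

theorem LL_mem (z : MonoidAlgebra ℝ G) : LL z ∈ Submodule.span ℂ (leftReg G) := by
  induction z using MonoidAlgebra.induction_linear with
  | zero => simp
  | add x y hx hy => rw [map_add]; exact add_mem hx hy
  | single g c =>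
    rw [LL_single]
    exact Submodule.smul_of_tower_mem _ _ (Submodule.subset_span ⟨g, lam_apply g⟩)

theorem trace_LL (z : MonoidAlgebra ℝ G) : canTrace G (LL z) = z.coeff 1 := by
  rw [← LL_dl]
  simp [canTrace, lp.inner_single_left, dl]

/-- squared norm -/
noncomputable def nn (x : MonoidAlgebra ℝ G) : ℝ := ∑ γ ∈ x.coeff.support, x.coeff γ ^ 2

omit [Group G] in
theorem nn_eq (x : MonoidAlgebra ℝ G) {S : Finset G} (h : x.coeff.support ⊆ S) :
    nn x = ∑ γ ∈ S, x.coeff γ ^ 2 :=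
  Finset.sum_subset h fun γ _ hγ => by simp [Finsupp.notMem_support_iff.1 hγ]

theorem normsq (x y : MonoidAlgebra ℝ G) :
    ‖LL x dl + Complex.I • LL y dl‖ ^ 2 = nn x + nn y := by
  have h1 := lp.hasSum_norm (p := 2) (by norm_num) (LL x dl + Complex.I • LL y dl)
  have h2 : ∀ γ, ‖(LL x dl + Complex.I • LL y dl) γ‖ ^ (2 : ENNReal).toReal =
      x.coeff γ ^ 2 + y.coeff γ ^ 2 := by
    intro γ
    simp only [lp.coeFn_add, lp.coeFn_smul, Pi.add_apply, Pi.smul_apply, LL_dl, smul_eq_mul,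
      ENNReal.toReal_ofNat, Real.rpow_ofNat]
    rw [mul_comm, ← Complex.normSq_eq_norm_sq, Complex.normSq_add_mul_I]
  simp only [h2] at h1
  have h3 := h1.unique (hasSum_sum_of_ne_finset_zero (s := x.coeff.support ∪ y.coeff.support)
    fun γ hγ => by
      rw [Finset.mem_union, not_or, Finsupp.notMem_support_iff, Finsupp.notMem_support_iff] at hγ
      simp [hγ.1, hγ.2])
  rw [nn_eq x Finset.subset_union_left, nn_eq y Finset.subset_union_right,
    ← Finset.sum_add_distrib, ← h3]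
  simp

theorem norm_LL_le (z : MonoidAlgebra ℝ G) {c : ℝ} (hc : 0 ≤ c)
    (h : ∀ x, nn (z * x) ≤ c ^ 2 * nn x) : ‖LL z‖ ≤ c := by
  refine ContinuousLinearMap.opNorm_le_bound _ hc fun η => ?_
  have hcl : IsClosed {η : L2 G | ‖LL z η‖ ≤ c * ‖η‖} :=
    isClosed_le (by fun_prop) (by fun_prop)
  refine hcl.mem_of_tendsto (lp.hasSum_single (by norm_num) η) (Eventually.of_forall fun S => ?_)
  have : ∃ x y, ∑ γ ∈ S, lp.single 2 γ (η γ) = LL x dl + Complex.I • LL y dl := by
    refine ⟨∑ γ ∈ S, .single γ (η γ).re, ∑ γ ∈ S, .single γ (η γ).im, ?_⟩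
    rw [map_sum, map_sum, ContinuousLinearMap.sum_apply, ContinuousLinearMap.sum_apply,
      Finset.smul_sum, ← Finset.sum_add_distrib]
    refine Finset.sum_congr rfl fun γ _ => ?_
    ext g
    simp only [lp.coeFn_add, lp.coeFn_smul, Pi.add_apply, Pi.smul_apply, LL_dl, smul_eq_mul]
    by_cases e : g = γ
    · simp [e, mul_comm Complex.I]
    · simp [lp.single_apply, Pi.single_apply, e]
  obtain ⟨x, y, e⟩ := this
  rw [e, Set.mem_setOf_eq]
  refine (pow_le_pow_iff_left₀ (norm_nonneg _) (by positivity) two_ne_zero).1 ?_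
  have e2 : LL z (LL x dl + Complex.I • LL y dl) =
      LL (z * x) dl + Complex.I • LL (z * y) dl := by simp
  rw [e2, mul_pow, normsq, normsq]
  linarith [h x, h y]

/-- a field of monomial representations which disintegrates the regular representation -/
structure Fld {Ω H : Type} [MeasurableSpace Ω] (μ : Measure Ω) (x0 : H)
    (π : Ω → G →* Module.End ℝ (H → ℝ)) (hd : G → H) (ch : G → Ω → ℝ) : Prop where
  app : ∀ ω γ x, π ω γ (fun y => if y = x0 then 1 else 0) x = if x = hd γ then ch γ ω else 0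
  int : ∀ γ γ', Integrable (fun ω => ch γ ω * ch γ' ω) μ
  orth : ∀ γ γ', hd γ = hd γ' → ∫ ω, ch γ ω * ch γ' ω ∂μ = if γ = γ' then 1 else 0
  one : hd 1 = x0
  one' : ∀ ω, ch 1 ω = 1

/-- the extension to the group algebra -/
noncomputable def PP {H : Type} (π : G →* Module.End ℝ (H → ℝ)) :
    MonoidAlgebra ℝ G →ₐ[ℝ] Module.End ℝ (H → ℝ) := MonoidAlgebra.lift ℝ _ G π

variable {Ω H : Type} [MeasurableSpace Ω] {μ : Measure Ω} {x0 : H}
  {π : Ω → G →* Module.End ℝ (H → ℝ)} {hd : G → H} {ch : G → Ω → ℝ}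

theorem Fld.pp (h : Fld μ x0 π hd ch) (ω : Ω) (x : MonoidAlgebra ℝ G) (g : H) :
    PP (π ω) x (fun y => if y = x0 then 1 else 0) g =
      ∑ γ ∈ x.coeff.support, x.coeff γ * if g = hd γ then ch γ ω else 0 := by
  simp only [PP, MonoidAlgebra.lift_apply, Finsupp.sum, LinearMap.sum_apply, Finset.sum_apply,
    LinearMap.smul_apply, Pi.smul_apply, smul_eq_mul, h.app]

theorem Fld.sqr (h : Fld μ x0 π hd ch) (x : MonoidAlgebra ℝ G) :
    Integrable (fun ω => ∑ g ∈ x.coeff.support.image hd,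
      PP (π ω) x (fun y => if y = x0 then 1 else 0) g ^ 2) μ ∧
    ∫ ω, ∑ g ∈ x.coeff.support.image hd,
      PP (π ω) x (fun y => if y = x0 then 1 else 0) g ^ 2 ∂μ = nn x := by
  have e : ∀ ω, ∑ g ∈ x.coeff.support.image hd,
      PP (π ω) x (fun y => if y = x0 then 1 else 0) g ^ 2 =
      ∑ γ ∈ x.coeff.support, ∑ γ' ∈ x.coeff.support, (if hd γ = hd γ' then
        x.coeff γ * x.coeff γ' else 0) * (ch γ ω * ch γ' ω) := by
    intro ω
    simp only [h.pp, pow_two, Finset.sum_mul_sum]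
    rw [Finset.sum_comm]
    refine Finset.sum_congr rfl fun γ hγ => ?_
    rw [Finset.sum_comm]
    refine Finset.sum_congr rfl fun γ' _ => ?_
    rw [Finset.sum_eq_single_of_mem (hd γ) (Finset.mem_image_of_mem _ hγ)]
    · rw [if_pos rfl]
      split_ifs <;> ring
    · intro g _ hg
      simp [hg]
  simp only [e]
  have i : ∀ γ γ' (c : ℝ), Integrable (fun ω => c * (ch γ ω * ch γ' ω)) μ :=
    fun γ γ' c => (h.int γ γ').const_mul c
  refine ⟨integrable_finsetSum _ fun γ _ => integrable_finsetSum _ fun γ' _ => i _ _ _, ?_⟩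
  rw [integral_finsetSum _ fun γ _ => integrable_finsetSum _ fun γ' _ => i _ _ _]
  refine Finset.sum_congr rfl fun γ hγ => ?_
  rw [integral_finsetSum _ fun γ' _ => i _ _ _, Finset.sum_eq_single_of_mem γ hγ]
  · rw [integral_const_mul, h.orth _ _ rfl]
    simp [pow_two]
  · intro γ' _ hne
    rw [integral_const_mul]
    split_ifs with e
    · rw [h.orth _ _ e, if_neg hne.symm, mul_zero]
    · rw [zero_mul]

theorem Fld.norm_le (h : Fld μ x0 π hd ch) (z : MonoidAlgebra ℝ G) {c : ℝ} (hc : 0 ≤ c)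
    (hz : ∀ ω (U W : Finset H) (f : H → ℝ), (∀ x ∉ U, f x = 0) →
      ∑ x ∈ W, PP (π ω) z f x ^ 2 ≤ c ^ 2 * ∑ x ∈ U, f x ^ 2) : ‖LL z‖ ≤ c := by
  refine norm_LL_le z hc fun x => ?_
  rw [← (h.sqr x).2, ← (h.sqr (z * x)).2, ← integral_const_mul]
  refine integral_mono (h.sqr _).1 ((h.sqr _).1.const_mul _) fun ω => ?_
  simp only [map_mul, Module.End.mul_apply]
  refine hz ω _ _ _ fun g hg => ?_
  rw [h.pp]
  refine Finset.sum_eq_zero fun γ hγ => ?_
  rw [if_neg, mul_zero]
  rintro rfl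
  exact hg (Finset.mem_image_of_mem _ hγ)

theorem Fld.trace (h : Fld μ x0 π hd ch) (x : MonoidAlgebra ℝ G) :
    Integrable (fun ω => PP (π ω) x (fun y => if y = x0 then 1 else 0) x0) μ ∧
    ∫ ω, PP (π ω) x (fun y => if y = x0 then 1 else 0) x0 ∂μ = x.coeff 1 := by
  have e : ∀ ω, PP (π ω) x (fun y => if y = x0 then 1 else 0) x0 =
      ∑ γ ∈ x.coeff.support, (if hd γ = hd 1 then x.coeff γ else 0) * (ch γ ω * ch 1 ω) := by
    intro ω
    rw [h.pp, h.one, h.one']
    refine Finset.sum_congr rfl fun γ _ => ?_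
    by_cases e : x0 = hd γ
    · simp [e]
    · simp [e, Ne.symm e]
  simp only [e]
  have i : ∀ γ γ' (c : ℝ), Integrable (fun ω => c * (ch γ ω * ch γ' ω)) μ :=
    fun γ γ' c => (h.int γ γ').const_mul c
  refine ⟨integrable_finsetSum _ fun γ _ => i _ _ _, ?_⟩
  rw [integral_finsetSum _ fun γ _ => i _ _ _, Finset.sum_eq_single 1]
  · rw [integral_const_mul, h.orth _ _ rfl]
    simp
  · intro γ _ hne
    rw [integral_const_mul]
    split_ifs with e
    · rw [h.orth _ _ e, if_neg hne, mul_zero]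
    · rw [zero_mul]
  · intro h1
    simp [Finsupp.notMem_support_iff.1 h1]

/-- The limit of the powers is a projection. -/
theorem proj_of_powers (b : MonoidAlgebra ℝ G) (hb : star (LL b) = LL b) {β T : ℝ} (h0 : 0 ≤ β)
    (h1 : β < 1) (hc : ∀ j, ‖LL (b ^ (j + 1) - b ^ j)‖ ≤ 2 * β ^ j)
    (ht : ∀ j, |(b ^ j).coeff 1 - T| ≤ β ^ j) :
    ∃ p ∈ cstarRed G, IsStarProjection p ∧ canTrace G p = (T : ℂ) := by
  have hcs : CauchySeq fun j => LL b ^ j := cauchySeq_of_le_geometric β 2 h1 fun j => by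
    rw [dist_comm, dist_eq_norm, ← map_pow, ← map_pow, ← map_sub]
    exact hc j
  obtain ⟨p, hp⟩ := cauchySeq_tendsto_of_complete hcs
  refine ⟨p, mem_closure_of_tendsto hp (Eventually.of_forall fun j => ?_), ⟨?_, ?_⟩, ?_⟩
  · rw [← map_pow]
    exact LL_mem _
  · have h2 : Tendsto (fun j => LL b ^ (j + j)) atTop (𝓝 p) :=
      hp.comp (tendsto_atTop_mono (fun j => Nat.le_add_right j j) tendsto_id)
    simp only [pow_add] at h2
    exact tendsto_nhds_unique (hp.mul hp) h2
  · have h2 := hp.star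
    simp only [star_pow, hb] at h2
    exact tendsto_nhds_unique h2 hp
  · have hcont : Continuous (canTrace G) := by
      unfold canTrace
      fun_prop
    have h2 := (hcont.tendsto p).comp hp
    have h3 : Tendsto (fun j => (b ^ j).coeff 1) atTop (𝓝 T) := by
      rw [tendsto_iff_norm_sub_tendsto_zero]
      exact squeeze_zero (fun _ => norm_nonneg _) ht (tendsto_pow_atTop_nhds_zero_of_lt_one h0 h1)
    refine tendsto_nhds_unique h2 ?_
    refine ((Complex.continuous_ofReal.tendsto T).comp h3).congr fun j => ?_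
    simp only [Function.comp, ← map_pow, trace_LL]

end Vale.Agent.P089.An
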