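import Vale.Agent.P089.A1

/-! The group attached to a linear subshift. -/

namespace Vale.Agent.P089.An

open MeasureTheory Classical Filter Topology

/-- the sign character -/
noncomputable def sg (x : ZMod 2) : ℝ := if x = 0 then 1 else -1

theorem z2 (x : ZMod 2) : x = 0 ∨ x = 1 := by revert x; decide

theorem sg_add (x y : ZMod 2) : sg (x + y) = sg x * sg y := by
  have : (1 + 1 : ZMod 2) = 0 := by decide
  rcases z2 x with rfl | rfl <;> rcases z2 y with rfl | rfl <;> simp [sg, this]

theorem sg_sq (x : ZMod 2) : sg x * sg x = 1 := by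
  rcases z2 x with rfl | rfl <;> simp [sg]

variable {H Λ : Type} [Group H]

theorem sh_sh (x y : H) (ω : Cfg H Λ) : sh x (sh y ω) = sh (x * y) ω := by
  funext p
  simp [sh, mul_assoc]

theorem sh_one (ω : Cfg H Λ) : sh 1 ω = ω := by
  funext p
  simp [sh]

/-- characters -/
noncomputable def chi (l : List (H × Λ)) (ω : Cfg H Λ) : ℝ := (l.map fun p => sg (ω p)).prod

omit [Group H] in
theorem chi_append (l l' : List (H × Λ)) (ω : Cfg H Λ) : chi (l ++ l') ω = chi l ω * chi l' ω := by
  simp [chi]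

theorem chi_map (l : List (H × Λ)) (h : H) (ω : Cfg H Λ) :
    chi (l.map fun p => (p.1 * h, p.2)) ω = chi l (sh h ω) := by
  simp only [chi, List.map_map]
  rfl

omit [Group H] in
theorem chi_add (l : List (H × Λ)) (ω ω' : Cfg H Λ) : chi l (ω + ω') = chi l ω * chi l ω' := by
  induction l with
  | nil => simp [chi]
  | cons p l ih =>
    simp only [chi, List.map_cons, List.prod_cons, Pi.add_apply, sg_add] at ih ⊢
    rw [ih]
    ring

omit [Group H] in
theorem chi_sq (l : List (H × Λ)) (ω : Cfg H Λ) : chi l ω * chi l ω = 1 := by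
  induction l with
  | nil => simp [chi]
  | cons p l ih =>
    simp only [chi, List.map_cons, List.prod_cons] at ih ⊢
    rw [mul_mul_mul_comm, ih, sg_sq, one_mul]

omit [Group H] in
theorem chi_cont (l : List (H × Λ)) : Continuous (chi l) :=
  continuous_list_prod l fun p _ =>
    (continuous_of_discreteTopology (f := sg)).comp (continuous_apply p)

omit [Group H] in
theorem local_mem (F : Finset (H × Λ)) : ∀ t : Cfg H Λ → ℝ,
    (∀ ω ω', (∀ p ∈ F, ω p = ω' p) → t ω = t ω') → t ∈ Submodule.span ℝ (Set.range chi) := by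
  have hm : ∀ p : H × Λ, ∀ t ∈ Submodule.span ℝ (Set.range (chi (H := H) (Λ := Λ))),
      chi [p] * t ∈ Submodule.span ℝ (Set.range (chi (H := H) (Λ := Λ))) := by
    intro p t ht
    induction ht using Submodule.span_induction with
    | mem x h =>
      obtain ⟨l, rfl⟩ := h
      exact Submodule.subset_span ⟨[p] ++ l, funext fun ω => chi_append _ _ _⟩
    | zero => simp
    | add x y _ _ hx hy => rw [mul_add]; exact add_mem hx hy
    | smul c x _ hx => rw [mul_smul_comm]; exact Submodule.smul_mem _ _ hx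
  induction F using Finset.induction_on with
  | empty =>
    intro t ht
    have : t = t 0 • chi [] := funext fun ω => by simp [chi, ht ω 0]
    rw [this]
    exact Submodule.smul_mem _ _ (Submodule.subset_span ⟨_, rfl⟩)
  | insert p F _ ih =>
    intro t ht
    have h : ∀ c, (fun ω => t (Function.update ω p c)) ∈ Submodule.span ℝ (Set.range chi) :=
      fun c => ih _ fun ω ω' h => ht _ _ fun q hq => by
        by_cases e : q = p
        · simp [e]
        · simp [e, h q ((Finset.mem_insert.1 hq).resolve_left e)]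
    have : t = (1 / 2 : ℝ) • ((fun ω => t (Function.update ω p 0)) +
        chi [p] * (fun ω => t (Function.update ω p 0)) + (fun ω => t (Function.update ω p 1)) -
        chi [p] * (fun ω => t (Function.update ω p 1))) := by
      funext ω
      rcases z2 (ω p) with e | e
      · have : Function.update ω p 0 = ω := by rw [← e, Function.update_eq_self]
        simp [chi, sg, e, this]
        ring
      · have : Function.update ω p 1 = ω := by rw [← e, Function.update_eq_self]
        simp [chi, sg, e, this]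
        ring
    rw [this]
    exact Submodule.smul_mem _ _ (sub_mem (add_mem (add_mem (h 0) (hm p _ (h 0))) (h 1))
      (hm p _ (h 1)))

variable (Ω : AddSubgroup (Cfg H Λ))

/-- fields of monomial operators -/
noncomputable def op (l : List (H × Λ)) (h : H) (ω : Ω) : Module.End ℝ (H → ℝ) where
  toFun f g := chi l (sh g ω) * f (h⁻¹ * g)
  map_add' f f' := funext fun g => by simp [mul_add]
  map_smul' c f := funext fun g => by simp [mul_left_comm]

theorem op_apply (l : List (H × Λ)) (h : H) (ω : Ω) (f : H → ℝ) (g : H) :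
    op Ω l h ω f g = chi l (sh g ω) * f (h⁻¹ * g) := rfl

theorem op_mul (l l' : List (H × Λ)) (h h' : H) :
    op Ω l h * op Ω l' h' = op Ω (l ++ l'.map fun p => (p.1 * h⁻¹, p.2)) (h * h') := by
  funext ω
  ext1 f
  funext g
  simp [op_apply, chi_append, chi_map, sh_sh, mul_assoc]

theorem op_one (l : List (H × Λ)) : op Ω (l ++ l) 1 = 1 := by
  funext ω
  ext1 f
  funext g
  simp [op_apply, chi_append, chi_sq]

/-- the monoid of these fields -/
def SS : Submonoid (Ω → Module.End ℝ (H → ℝ)) where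
  carrier := {u | ∃ l h, u = op Ω l h}
  mul_mem' := by
    rintro _ _ ⟨l, h, rfl⟩ ⟨l', h', rfl⟩
    exact ⟨_, _, op_mul Ω l l' h h'⟩
  one_mem' := ⟨_, _, (op_one Ω []).symm⟩

theorem ex_inv (x : SS Ω) : ∃ y, y * x = 1 := by
  obtain ⟨_, l, h, rfl⟩ := x
  refine ⟨⟨_, l.map fun p => (p.1 * h, p.2), h⁻¹, rfl⟩, Subtype.ext ?_⟩
  simp only [Submonoid.coe_mul, op_mul, inv_inv, inv_mul_cancel, op_one]
  rfl

/-- the group -/
def GG : Type := SS Ω

noncomputable instance : Group (GG Ω) :=
  { (inferInstance : Monoid (SS Ω)) with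
    inv := fun x => (ex_inv Ω x).choose
    inv_mul_cancel := fun x => (ex_inv Ω x).choose_spec }

/-- elements of the group -/
noncomputable def el (l : List (H × Λ)) (h : H) : GG Ω := ⟨op Ω l h, l, h, rfl⟩

theorem el_surj (γ : GG Ω) : ∃ q : List (H × Λ) × H, el Ω q.1 q.2 = γ := by
  obtain ⟨_, l, h, rfl⟩ := γ
  exact ⟨(l, h), rfl⟩

theorem gg_countable [Countable H] [Countable Λ] : Countable (GG Ω) :=
  Function.Surjective.countable (f := fun q : List (H × Λ) × H => el Ω q.1 q.2) (el_surj Ω)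

theorem el_mul (l l' : List (H × Λ)) (h h' : H) :
    el Ω l h * el Ω l' h' = el Ω (l ++ l'.map fun p => (p.1 * h⁻¹, p.2)) (h * h') :=
  Subtype.ext (op_mul Ω l l' h h')

theorem gg_fg [Group.FG H] [Finite Λ] : Group.FG (GG Ω) := by
  obtain ⟨S, hS, hf⟩ := Group.fg_iff.1 (inferInstance : Group.FG H)
  let tr : H →* GG Ω := MonoidHom.mk' (el Ω []) fun h h' => (el_mul Ω [] [] h h').symm
  refine Group.fg_iff.2 ⟨tr '' S ∪ Set.range fun a => el Ω [(1, a)] 1, ?_,
    (hf.image _).union (Set.finite_range _)⟩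
  set K := Subgroup.closure (tr '' S ∪ Set.range fun a => el Ω [(1, a)] 1)
  have h1 : ∀ h, el Ω [] h ∈ K := fun h => by
    have : tr h ∈ (Subgroup.closure S).map tr := ⟨h, by simp [hS], rfl⟩
    rw [MonoidHom.map_closure] at this
    exact Subgroup.closure_mono Set.subset_union_left this
  have h2 : ∀ p, el Ω [p] 1 ∈ K := fun p => by
    have := mul_mem (mul_mem (h1 p.1⁻¹) (Subgroup.subset_closure (Or.inr ⟨p.2, rfl⟩))) (h1 p.1)
    simpa [el_mul] using this
  rw [eq_top_iff]
  intro γ _
  obtain ⟨⟨l, h⟩, rfl⟩ := el_surj Ω γ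
  induction l with
  | nil => exact h1 h
  | cons p l ih => simpa [el_mul] using mul_mem (h2 p) (ih trivial)

/-- evaluation -/
def pi (ω : Ω) : GG Ω →* Module.End ℝ (H → ℝ) where
  toFun γ := γ.1 ω
  map_one' := rfl
  map_mul' _ _ := rfl

theorem pi_el (ω : Ω) (l : List (H × Λ)) (h : H) : pi Ω ω (el Ω l h) = op Ω l h ω := rfl

theorem el_inv (l : List (H × Λ)) : (el Ω l 1)⁻¹ = el Ω l 1 :=
  inv_eq_of_mul_eq_one_right (Subtype.ext (by
    change op Ω l 1 * op Ω l 1 = 1
    simp [op_mul, op_one]))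

theorem el_inv' (h : H) : (el Ω [] h⁻¹)⁻¹ = el Ω [] h :=
  inv_eq_of_mul_eq_one_right (Subtype.ext (by
    change op Ω [] h⁻¹ * op Ω [] h = 1
    simpa [op_mul] using op_one Ω []))

theorem fld [MeasurableSpace Ω] [BorelSpace Ω] [CompactSpace Ω] (μ : Measure Ω)
    [IsProbabilityMeasure μ] [μ.IsAddLeftInvariant] (hinv : ∀ g, ∀ ω ∈ Ω, sh g ω ∈ Ω) :
    ∃ hd ch, Fld μ 1 (pi Ω) hd ch := by
  choose q hq using el_surj Ω
  have app : ∀ ω γ x, pi Ω ω γ (fun y => if y = 1 then 1 else 0) x =
      if x = (q γ).2 then chi (q γ).1 (sh (q γ).2 ω) else 0 := by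
    intro ω γ x
    conv_lhs => rw [← hq γ, pi_el, op_apply]
    by_cases e : x = (q γ).2
    · simp [e]
    · simp [e, inv_mul_eq_one, Ne.symm e]
  have h1 : ∀ ω : Ω, (if 1 = (q 1).2 then chi (q 1).1 (sh (q 1).2 ω) else 0) = 1 := fun ω => by
    rw [← app]
    simp
  have h2 : (q 1).2 = 1 := by
    by_contra e
    simpa [Ne.symm e] using h1 0
  have cont : ∀ γ, Continuous fun ω : Ω => chi (q γ).1 (sh (q γ).2 ω) := fun γ => by
    simp only [← chi_map]
    exact (chi_cont _).comp continuous_subtype_val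
  refine ⟨fun γ => (q γ).2, fun γ ω => chi (q γ).1 (sh (q γ).2 ω), app, fun γ γ' =>
    ((cont γ).mul (cont γ')).integrable_of_hasCompactSupport (HasCompactSupport.of_compactSpace _),
    fun γ γ' e => ?_, h2, fun ω => by simpa [h2] using h1 ω⟩
  split_ifs with hγ
  · simp [hγ, chi_sq]
  simp only [← e, ← chi_append]
  set l := (q γ).1 ++ (q γ').1 with hl
  have : ∃ ω : Ω, chi l (sh (q γ).2 ω) ≠ 1 := by
    by_contra c
    push Not at c
    apply hγ
    rw [← hq γ, ← hq γ', ← e]
    refine Subtype.ext (funext fun ω => LinearMap.ext fun f => funext fun g => ?_)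
    change chi _ _ * _ = chi _ _ * _
    congr 1
    have := c ⟨_, hinv ((q γ).2⁻¹ * g) _ ω.2⟩
    simp only [sh_sh, mul_inv_cancel_left, hl, chi_append] at this
    rw [← one_mul (chi (q γ').1 _), ← chi_sq (q γ).1 (sh g ω), mul_assoc, this, mul_one]
  obtain ⟨ω0, h0⟩ := this
  have h3 := integral_add_left_eq_self (μ := μ) (fun ω : Ω => chi l (sh (q γ).2 ω)) ω0
  have h4 : ∀ ω : Ω, chi l (sh (q γ).2 ((ω0 + ω : Ω) : Cfg H Λ)) =
      chi l (sh (q γ).2 ω0) * chi l (sh (q γ).2 ω) := fun ω => chi_add _ _ _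
  simp only [h4, integral_const_mul] at h3
  by_contra c
  exact h0 ((mul_eq_right₀ c).1 h3)

end Vale.Agent.P089.An
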