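import Vale.Agent.P089.A2

/-! From the field of operators to the projection. -/

namespace Vale.Agent.P089

open MeasureTheory Classical Filter Topology

namespace An

variable {H Λ : Type} [Group H] (Ω : AddSubgroup (Cfg H Λ))

theorem rep_mem {t : Cfg H Λ → ℝ} (ht : t ∈ Submodule.span ℝ (Set.range chi)) :
    ∃ m : MonoidAlgebra ℝ (GG Ω), star (LL m) = LL m ∧
      ∀ ω f g, PP (pi Ω ω) m f g = t (sh g ω) * f g := by
  induction ht using Submodule.span_induction with
  | mem x h =>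
    obtain ⟨l, rfl⟩ := h
    refine ⟨.single (el Ω l 1) 1, by simp [LL_single, star_lam, el_inv], fun ω f g => ?_⟩
    simp [PP, pi_el, op_apply]
  | zero => exact ⟨0, by simp, by simp⟩
  | add x y _ _ hx hy =>
    obtain ⟨m, h1, h2⟩ := hx
    obtain ⟨m', h3, h4⟩ := hy
    exact ⟨m + m', by simp [h1, h3], fun ω f g => by simp [h2, h4, add_mul]⟩
  | smul c x _ hx =>
    obtain ⟨m, h1, h2⟩ := hx
    refine ⟨c • m, ?_, fun ω f g => by simp [h2, mul_assoc]⟩
    have : ∀ T : L2 (GG Ω) →L[ℂ] L2 (GG Ω), c • T = (c : ℂ) • T := fun T => by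
      ext1 ξ
      exact (Complex.coe_smul c (T ξ)).symm
    rw [map_smul, this, star_smul, h1]
    simp

theorem meas_fib [MeasurableSpace Ω] [BorelSpace Ω] (μ : Measure Ω)
    [IsProbabilityMeasure μ] [μ.IsAddLeftInvariant] {B : Type} [Finite B] (φ : B → H × Λ)
    (C : Submodule (ZMod 2) (B → ZMod 2)) (hC : ∀ c, c ∈ C ↔ ∃ ω ∈ Ω, ω ∘ φ = c) :
    (∀ c, MeasurableSet {ω : Ω | ω.1 ∘ φ = c}) ∧
      ∀ c ∈ C, μ.real {ω : Ω | ω.1 ∘ φ = c} = 1 / Nat.card C := by
  have hm : ∀ c, MeasurableSet {ω : Ω | ω.1 ∘ φ = c} := fun c =>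
    (isClosed_eq (continuous_pi fun b => (continuous_apply (φ b)).comp continuous_subtype_val)
      continuous_const).measurableSet
  have he : ∀ c ∈ C, μ {ω : Ω | ω.1 ∘ φ = c} = μ {ω : Ω | ω.1 ∘ φ = 0} := by
    intro c hc
    obtain ⟨ω0, h0, rfl⟩ := (hC c).1 hc
    rw [← measure_preimage_add μ ⟨ω0, h0⟩]
    congr 1
    ext ω
    simp [Pi.add_comp]
  refine ⟨hm, fun c hc => ?_⟩
  have := Fintype.ofFinite C
  let f : Ω → C := fun ω => ⟨ω.1 ∘ φ, (hC _).2 ⟨_, ω.2, rfl⟩⟩
  have hf : ∀ y : C, f ⁻¹' {y} = {ω : Ω | ω.1 ∘ φ = y} := fun y => by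
    ext ω
    simp [f, Subtype.ext_iff]
  have h1 := sum_measure_preimage_singleton (μ := μ) Finset.univ (f := f) fun y _ => by
    rw [hf]
    exact hm _
  simp only [hf, fun y : C => he y y.2, Finset.sum_const, Finset.coe_univ, Set.preimage_univ,
    measure_univ, Finset.card_univ, nsmul_eq_mul] at h1
  have h2 := congrArg ENNReal.toReal h1
  rw [ENNReal.toReal_mul, ENNReal.toReal_natCast, ENNReal.toReal_one] at h2
  rw [Measure.real, he c hc, Nat.card_eq_fintype_card, eq_div_iff (by positivity), mul_comm, h2]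

end An

open An in
theorem ana : AnaStmt := by
  intro H Λ I J _ _ _ _ _ _ Ω s t r F β B _ φ C π x hcl hinv hloc hr hs ht h0 h1 hcon hC hπ hdis
    hd1 hd0
  have : CompactSpace Ω := isCompact_iff_compactSpace.1 hcl.isCompact
  borelize (Ω : Type)
  let μ : Measure Ω := Measure.addHaarMeasure ⊤
  have : IsProbabilityMeasure μ := ⟨Measure.addHaarMeasure_self (K₀ := ⊤)⟩
  obtain ⟨hd, ch, fl⟩ := fld Ω μ hinv
  choose m m1 m2 using fun i => rep_mem Ω (local_mem F (t i) (hloc i))
  let b : MonoidAlgebra ℝ (GG Ω) := ∑ i, m i * .single (el Ω [] (s i)⁻¹) 1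
  let b' : MonoidAlgebra ℝ (GG Ω) := ∑ i, .single (el Ω [] (s i)) 1 * m i
  have tr : ∀ ω h f g, PP (pi Ω ω) (.single (el Ω [] h) 1) f g = f (h⁻¹ * g) := by
    intro ω h f g
    simp [PP, pi_el, op_apply, chi]
  have hb : ∀ ω : Ω, ⇑(PP (pi Ω ω) b) = Bop s t ω := by
    intro ω
    funext f g
    simp only [b, map_sum, map_mul, LinearMap.sum_apply, Finset.sum_apply, Module.End.mul_apply,
      m2, tr, inv_inv, Bop]
  have hb' : ∀ ω : Ω, ⇑(PP (pi Ω ω) b') = Bop s t ω := by
    intro ω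
    funext f g
    simp only [b', map_sum, map_mul, LinearMap.sum_apply, Finset.sum_apply, Module.End.mul_apply,
      m2, tr, Bop]
    rw [← Equiv.sum_comp (Function.Involutive.toPerm r hr)]
    refine Finset.sum_congr rfl fun i _ => ?_
    change t (r i) (sh ((s (r i))⁻¹ * g) ω) * f ((s (r i))⁻¹ * g) = _
    rw [hs, inv_inv, ← sh_sh, ht]
  have hsa : star (LL b) = LL b := by
    have e1 : star (LL b) = LL b' := by
      simp only [b, b', map_sum, map_mul, star_sum, star_mul, m1, LL_single, one_smul, star_lam,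
        el_inv']
    have e2 := fl.norm_le (b' - b) le_rfl fun ω U W f _ => by
      simp [map_sub, hb, hb']
    rw [norm_le_zero_iff, map_sub, sub_eq_zero] at e2
    rw [e1, e2]
  have hpow : ∀ (ω : Ω) j f, PP (pi Ω ω) (b ^ j) f = (Bop s t ω)^[j] f := fun ω j f => by
    rw [map_pow, Module.End.pow_apply, hb]
  let D : J → Set Ω := fun j => {ω | ω.1 ∘ φ j = π j}
  have hD := fun j => meas_fib Ω μ (φ j) (C j) (hC j)
  let e : Ω → ℝ := fun ω => if h : ∃ j, ω ∈ D j then x h.choose else 0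
  have e1 : ∀ j, ∀ ω ∈ D j, e ω = x j := by
    intro j ω hω
    have h : ∃ j, ω ∈ D j := ⟨j, hω⟩
    simp only [e, dif_pos h]
    rw [hdis _ ω.2 _ _ h.choose_spec hω]
  have e0 : ∀ ω, ω ∉ ⋃ j, D j → e ω = 0 := fun ω hω => dif_neg (by simpa using hω)
  have hde : ∀ ω : Ω, Diag β (Bop s t ω) 1 (e ω) := by
    intro ω
    by_cases h : ∃ j, ω ∈ D j
    · obtain ⟨j, h⟩ := h
      rw [e1 j ω h]
      exact hd1 _ ω.2 j h
    · rw [e0 ω (by simpa using h)]
      exact hd0 _ ω.2 fun j c => h ⟨j, c⟩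
  let a : ℕ → Ω → ℝ := fun j ω => PP (pi Ω ω) (b ^ j) (fun y => if y = 1 then 1 else 0) 1
  have ha : ∀ j ω, ‖a j ω - e ω‖ ≤ β ^ j := fun j ω => by
    simp only [a, hpow]
    exact hde ω j
  have hae : AEStronglyMeasurable e μ :=
    aestronglyMeasurable_of_tendsto_ae atTop (fun j => (fl.trace (b ^ j)).1.1)
      (Eventually.of_forall fun ω => by
        rw [tendsto_iff_norm_sub_tendsto_zero]
        exact squeeze_zero (fun _ => norm_nonneg _) (fun j => ha j ω)
          (tendsto_pow_atTop_nhds_zero_of_lt_one h0 h1))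
  have hie : Integrable e μ := by
    have : Integrable (fun ω => a 0 ω - e ω) μ :=
      Integrable.of_bound ((fl.trace (b ^ 0)).1.1.sub hae) _ (Eventually.of_forall (ha 0))
    exact ((fl.trace (b ^ 0)).1.sub this).congr (Eventually.of_forall fun ω => sub_sub_cancel _ _)
  refine ⟨∫ ω, e ω ∂μ, ?_, GG Ω, inferInstance, gg_countable Ω, gg_fg Ω,
    proj_of_powers b hsa h0 h1 (fun j => ?_) fun j => ?_⟩
  · have := hasSum_integral_iUnion (μ := μ) (f := e) (s := D) (fun j => (hD j).1 _)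
      (fun j j' hne => Set.disjoint_left.2 fun ω h h' => hne (hdis _ ω.2 _ _ h h'))
      hie.integrableOn
    rw [setIntegral_eq_integral_of_forall_compl_eq_zero e0] at this
    refine this.congr_fun fun j => ?_
    rw [setIntegral_congr_fun ((hD j).1 _) (g := fun _ => x j) (e1 j), setIntegral_const,
      (hD j).2 _ (hπ j), smul_eq_mul]
    ring
  · refine fl.norm_le _ (by positivity) fun ω U W f hf => ?_
    simp only [map_sub, LinearMap.sub_apply, Pi.sub_apply, hpow]
    exact hcon _ ω.2 U W f j hf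
  · rw [← (fl.trace (b ^ j)).2, ← integral_sub (fl.trace (b ^ j)).1 hie]
    have := norm_integral_le_of_norm_le_const (μ := μ) (Eventually.of_forall (ha j))
    rwa [probReal_univ, mul_one] at this

end Vale.Agent.P089
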