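import Vale.Agent.P089.Spec2

/-! Basic facts on the finite data. -/

namespace Vale.Agent.P089

open Vale.Agent.P194 Classical

theorem ncard_pairs {α β : Type} [Finite β] (U : Finset α) (R : α → β → Prop) :
    {p : α × β | p.1 ∈ U ∧ R p.1 p.2}.ncard = ∑ x ∈ U, {s | R x s}.ncard := by
  have := Fintype.ofFinite β
  have h : {p : α × β | p.1 ∈ U ∧ R p.1 p.2} =
      ↑(U.biUnion fun x => (Finset.univ.filter (R x)).image (Prod.mk x)) := by
    ext ⟨x, s⟩
    simp only [Set.mem_setOf_eq, Finset.coe_biUnion, Set.mem_iUnion, Finset.mem_coe,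
      Finset.mem_image, Finset.mem_filter, Finset.mem_univ, true_and, Prod.mk.injEq]
    constructor
    · rintro ⟨h1, h2⟩
      exact ⟨x, h1, s, h2, rfl, rfl⟩
    · rintro ⟨y, h1, t, h2, rfl, rfl⟩
      exact ⟨h1, h2⟩
  rw [h, Set.ncard_coe_finset, Finset.card_biUnion]
  · refine Finset.sum_congr rfl fun x _ => ?_
    rw [Finset.card_image_of_injective _ (Prod.mk_right_injective x), ← Set.ncard_coe_finset]
    congr 1
    ext s
    simp
  · intro x _ y _ hxy
    simp only [Function.onFun, Finset.disjoint_left, Finset.mem_image]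
    rintro _ ⟨s, -, rfl⟩ ⟨t, -, e⟩
    exact hxy (congrArg Prod.fst e).symm

namespace Dat

variable (F : Dat)

/-- each graph is connected -/
theorem conn (n : ℕ) (u v : Fin (F.N n)) : ∃ w, Path (F.Γ n) u w v := by
  have big : ∀ u : Fin (F.N n), 3 * F.N n <
      4 * (Finset.univ.filter fun y => ∃ w, Path (F.Γ n) u w y).card := by
    intro u
    set U := Finset.univ.filter fun y => ∃ w, Path (F.Γ n) u w y with hU
    by_contra h
    have h1 := (F.xg n).exp U (by omega)
    rw [ncard_pairs U fun x s => ∃ y ∈ U, F.Γ n x (s, true) y] at h1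
    have h2 : ∑ x ∈ U, {s | ∃ y ∈ U, F.Γ n x (s, true) y}.ncard = ∑ x ∈ U, F.m := by
      refine Finset.sum_congr rfl fun x hx => ?_
      rw [← (F.xg n).out x]
      congr 1
      ext s
      obtain ⟨w, hw⟩ := (Finset.mem_filter.1 hx).2
      exact ⟨fun ⟨y, _, h⟩ => ⟨y, h⟩, fun ⟨y, h⟩ =>
        ⟨y, Finset.mem_filter.2 ⟨Finset.mem_univ _, _, hw.append (Path.single h)⟩, h⟩⟩
    rw [h2, Finset.sum_const, smul_eq_mul] at h1
    have h3 : 0 < U.card :=
      Finset.card_pos.2 ⟨u, Finset.mem_filter.2 ⟨Finset.mem_univ _, _, Path.nil _⟩⟩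
    have := F.hm
    nlinarith
  by_contra h
  have hd : Disjoint (Finset.univ.filter fun y => ∃ w, Path (F.Γ n) u w y)
      (Finset.univ.filter fun y => ∃ w, Path (F.Γ n) v w y) := by
    rw [Finset.disjoint_left]
    intro y h1 h2
    obtain ⟨w, hw⟩ := (Finset.mem_filter.1 h1).2
    obtain ⟨w', hw'⟩ := (Finset.mem_filter.1 h2).2
    exact h ⟨_, hw.append (hw'.inv (F.xg n).symm)⟩
  have h1 := Finset.card_le_univ ((Finset.univ.filter fun y => ∃ w, Path (F.Γ n) u w y) ∪
      (Finset.univ.filter fun y => ∃ w, Path (F.Γ n) v w y))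
  rw [Finset.card_union_of_disjoint hd, Fintype.card_fin] at h1
  have := big u
  have := big v
  omega

/-- short reduced paths are determined by their end points -/
theorem uniq {n : ℕ} {x y : Fin (F.N n)} {w w' : List (Ltr F.k)} (hw : Red flp w)
    (hw' : Red flp w') (h : Path (F.Γ n) x w y) (h' : Path (F.Γ n) x w' y)
    (hl : w.length + w'.length < 100 * F.P n) : w = w' :=
  (F.xg n).girth.eq_of_paths flp_flp (F.xg n).symm (F.xg n).det hw hw' h h' hl

/-- reduced paths of every length start at every vertex -/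
theorem long (n L : ℕ) (v : Fin (F.N n)) :
    ∃ w u, Red flp w ∧ w.length = L ∧ Path (F.Γ n) v w u ∧ ∀ a ∈ w, a.2 = true := by
  induction L generalizing v with
  | zero => exact ⟨[], v, red_nil, rfl, Path.nil _, by simp⟩
  | succ L ih =>
    have h : {s : Fin F.k | ∃ u, F.Γ n v (s, true) u}.Nonempty :=
      Set.nonempty_of_ncard_ne_zero (by rw [(F.xg n).out]; have := F.hm; omega)
    obtain ⟨s, u, hs⟩ := h
    obtain ⟨w, y, h1, h2, h3, h4⟩ := ih u
    refine ⟨(s, true) :: w, y, red_cons_iff.2 ⟨fun b hb e => ?_, h1⟩, by simp [h2],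
      Path.cons hs h3, ?_⟩
    · have := h4 b (List.mem_of_mem_head? hb)
      simp [e, flp] at this
    · intro a ha
      rcases List.mem_cons.1 ha with rfl | ha
      · rfl
      · exact h4 a ha

variable {F} {H : Type} [Group H] {gl : Ltr F.k → H}

theorem Cp.path {n : ℕ} {φ : Fin (F.N n) → H} (h : F.Cp gl n φ) {u u' : Fin (F.N n)}
    {w : List (Ltr F.k)} (p : Path (F.Γ n) u w u') : φ u' = ev gl w * φ u := by
  induction p with
  | nil x => simp [ev]
  | cons h1 _ ih => rw [ih, h _ _ _ h1, ev, mul_assoc]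

theorem Cp.ext {n : ℕ} {φ φ' : Fin (F.N n) → H} (h : F.Cp gl n φ) (h' : F.Cp gl n φ')
    {v : Fin (F.N n)} (e : φ v = φ' v) : φ = φ' := by
  funext u
  obtain ⟨w, hw⟩ := F.conn n v u
  rw [h.path hw, h'.path hw, e]

theorem Cp.mul {n : ℕ} {φ : Fin (F.N n) → H} (h : F.Cp gl n φ) (g : H) :
    F.Cp gl n fun u => φ u * g := fun u a u' e => by simp only [h u a u' e, mul_assoc]

theorem Opn.symm (hi : ∀ a, gl (flp a) = (gl a)⁻¹) {ω : Cfg H (Ltr F.k)} {g : H} {a : Ltr F.k}
    (h : F.Opn gl ω g a) : F.Opn gl ω (gl a * g) (flp a) := by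
  unfold Opn
  rw [hi, inv_mul_cancel_left, flp_flp]
  exact ⟨h.2.1, h.1, h.2.2.2, h.2.2.1⟩

end Dat

end Vale.Agent.P089
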