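import Vale.Agent.P089.Spec

/-! Random binary codes: large distance on `D`, free on the small sets `T j`. -/

namespace Vale.Agent.P089

namespace Cd

open Finset

/-- fibres of a surjective additive map have equal size -/
theorem fib {G H : Type} [AddCommGroup G] [Fintype G] [AddCommGroup H] [Fintype H] [DecidableEq H]
    (φ : G →+ H) (hφ : Function.Surjective φ) (S : Finset H) :
    (univ.filter fun g => φ g ∈ S).card * Fintype.card H = S.card * Fintype.card G := by
  have h1 : ∀ x : H, (univ.filter fun g => φ g = x).card = (univ.filter fun g => φ g = 0).card :=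
    fun x => AddMonoidHom.card_fiber_eq_of_mem_range φ (hφ x) (hφ 0)
  have h2 : ∀ S : Finset H, (univ.filter fun g => φ g ∈ S).card =
      S.card * (univ.filter fun g => φ g = 0).card := by
    intro S
    rw [card_eq_sum_card_fiberwise (f := fun g => φ g) (s := univ.filter fun g => φ g ∈ S) (t := S)
      (fun g hg => mem_coe.2 (mem_filter.1 (mem_coe.1 hg)).2)]
    rw [← smul_eq_mul, ← sum_const]
    refine sum_congr rfl fun x hx => ?_
    rw [← h1 x]
    congr 1
    ext g
    simp only [mem_filter, mem_univ, true_and]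
    exact ⟨fun h => h.2, fun h => ⟨h ▸ hx, h⟩⟩
  have h3 := h2 univ
  simp only [mem_univ, filter_true, card_univ] at h3
  rw [h2 S, h3]
  ring

/-- few words have small weight on `D` -/
theorem low {B : Type} [Fintype B] [DecidableEq B] (D : Finset B) :
    ((univ.filter fun c : B → ZMod 2 => 3 * (D.filter fun b => c b ≠ 0).card ≤ D.card).card : ℝ)
      ≤ (189 / 200 : ℝ) ^ D.card * 2 ^ Fintype.card B := by
  let w : B → ZMod 2 → ℝ := fun b x => if b ∈ D then (if x ≠ 0 then 16 / 25 else 5 / 4) else 1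
  have hw : ∀ b x, 0 ≤ w b x := by
    intro b x
    simp only [w]
    split_ifs <;> norm_num
  have hs : ∑ c : B → ZMod 2, ∏ b, w b (c b) = ∏ b, ∑ x, w b x := by
    rw [prod_univ_sum, Fintype.piFinset_univ]
  have hx : ∀ b, ∑ x, w b x = (if b ∈ D then (189 / 200 : ℝ) else 1) * 2 := by
    intro b
    have : (univ : Finset (ZMod 2)) = {0, 1} := by decide
    rw [this, sum_pair (by decide)]
    simp only [w]
    split_ifs with h1 h2 h3 h4
    · exact absurd rfl h2
    · exact absurd rfl h2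
    · norm_num
    · exact absurd (by decide) h4
    · norm_num
  have ht : ∏ b, ∑ x, w b x = (189 / 200 : ℝ) ^ D.card * 2 ^ Fintype.card B := by
    simp only [hx]
    rw [prod_mul_distrib, prod_const, card_univ, prod_ite_mem, univ_inter, prod_const]
  rw [← ht, ← hs, card_eq_sum_ones, Nat.cast_sum, sum_filter]
  refine sum_le_sum fun c _ => ?_
  split_ifs with h
  · have e1 : ∏ b, w b (c b) = ∏ b ∈ D, (if c b ≠ 0 then (16 / 25 : ℝ) else 5 / 4) := by
      simp only [w]
      rw [prod_ite_mem, univ_inter]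
    rw [e1, prod_ite, prod_const, prod_const]
    have e2 := card_filter_add_card_filter_not (s := D) (fun b => c b ≠ 0)
    generalize (D.filter fun b => c b ≠ 0).card = p at *
    generalize (D.filter fun b => ¬ c b ≠ 0).card = q at *
    have e3 : (5 / 4 : ℝ) ^ (2 * p) ≤ (5 / 4) ^ q :=
      pow_le_pow_right₀ (by norm_num) (by omega)
    have e4 : (16 / 25 : ℝ) ^ p * (5 / 4) ^ (2 * p) = 1 := by
      rw [pow_mul, ← mul_pow]; norm_num
    have e5 : (0 : ℝ) ≤ (16 / 25) ^ p := by positivity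
    push_cast
    calc (1 : ℝ) = _ := e4.symm
      _ ≤ _ := mul_le_mul_of_nonneg_left e3 e5
  · exact prod_nonneg fun b _ => hw _ _

theorem two (x : ZMod 2) : x = 0 ∨ x = 1 := by
  revert x; decide

/-- linear combination map -/
def comb {B : Type} {M : ℕ} (a : Fin M → ZMod 2) : (Fin M → B → ZMod 2) →+ (B → ZMod 2) where
  toFun v := ∑ i, a i • v i
  map_zero' := by simp
  map_add' v v' := by simp [smul_add, sum_add_distrib]

theorem comb_surj {B : Type} {M : ℕ} (a : Fin M → ZMod 2) (ha : a ≠ 0) :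
    Function.Surjective (comb (B := B) a) := by
  obtain ⟨i, hi⟩ := Function.ne_iff.1 ha
  have h1 : a i = 1 := (two _).resolve_left hi
  intro c
  refine ⟨Pi.single i c, ?_⟩
  change ∑ j, a j • (Pi.single i c : Fin M → B → ZMod 2) j = c
  rw [sum_eq_single i]
  · simp [h1]
  · intro j _ hj
    simp [hj]
  · simp

/-- pairing with a vector supported on `T` -/
def pair {B : Type} {M : ℕ} (T : Finset B) (y : T → ZMod 2) :
    (Fin M → B → ZMod 2) →+ (Fin M → ZMod 2) where
  toFun v := fun i => ∑ b : T, v i b * y b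
  map_zero' := by ext i; simp
  map_add' v v' := by ext i; simp [add_mul, sum_add_distrib]

theorem pair_surj {B : Type} [DecidableEq B] {M : ℕ} (T : Finset B) (y : T → ZMod 2) (hy : y ≠ 0) :
    Function.Surjective (pair (M := M) T y) := by
  obtain ⟨b, hb⟩ := Function.ne_iff.1 hy
  have h1 : y b = 1 := (two _).resolve_left hb
  intro c
  refine ⟨fun i => Pi.single b.1 (c i), ?_⟩
  ext i
  change ∑ b' : T, (Pi.single b.1 (c i) : B → ZMod 2) b' * y b' = c i
  rw [sum_eq_single b]
  · simp [h1]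
  · intro j _ hj
    have : j.1 ≠ b.1 := fun h => hj (Subtype.ext h)
    simp [this]
  · simp

theorem onto {B : Type} [DecidableEq B] {M : ℕ} (T : Finset B) (v : Fin M → B → ZMod 2)
    (h : ∀ y : T → ZMod 2, y ≠ 0 → pair T y v ≠ 0) (f : B → ZMod 2) :
    ∃ a : Fin M → ZMod 2, ∀ b ∈ T, comb a v b = f b := by
  let p : Submodule (ZMod 2) (T → ZMod 2) :=
    Submodule.span (ZMod 2) (Set.range fun i => fun b : T => v i b)
  have hp : p = ⊤ := by
    by_contra hne
    obtain ⟨l, hl, hle⟩ := p.exists_le_ker_of_lt_top (lt_top_iff_ne_top.2 hne)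
    refine h (fun b => l (fun j => if b = j then 1 else 0)) ?_ ?_
    · intro h0
      apply hl
      refine LinearMap.ext fun x => ?_
      rw [LinearMap.pi_apply_eq_sum_univ]
      refine sum_eq_zero fun b _ => ?_
      have := congrFun h0 b
      simp only [Pi.zero_apply] at this
      rw [this, smul_zero]
    · ext i
      have h1 : (fun b : T => v i b) ∈ p := Submodule.subset_span ⟨i, rfl⟩
      have h2 := hle h1
      rw [LinearMap.mem_ker, LinearMap.pi_apply_eq_sum_univ] at h2
      exact h2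
  have hf : (fun b : T => f b) ∈ p := hp ▸ Submodule.mem_top
  obtain ⟨a, ha⟩ := (Submodule.mem_span_range_iff_exists_fun (ZMod 2)).1 hf
  refine ⟨a, fun b hb => ?_⟩
  have := congrFun ha ⟨b, hb⟩
  simp only [Finset.sum_apply, Pi.smul_apply] at this
  change (∑ i, a i • v i) b = f b
  simp only [Finset.sum_apply, Pi.smul_apply]
  exact this

theorem num (t n : ℕ) (h : 100 * (t + 1) ≤ n) :
    (2 : ℝ) ^ (2 * t + 2) * 2 * (189 / 200 : ℝ) ^ n ≤ 1 / 2 := by
  have h1 : (189 / 200 : ℝ) ^ n ≤ (189 / 200) ^ (100 * (t + 1)) :=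
    pow_le_pow_of_le_one (by norm_num) (by norm_num) h
  have h2 : (189 / 200 : ℝ) ^ 100 ≤ 1 / 16 := by
    have h3 : (189 / 200 : ℝ) ^ 25 ≤ 1 / 2 := by norm_num
    calc (189 / 200 : ℝ) ^ 100 = ((189 / 200) ^ 25) ^ 4 := by rw [← pow_mul]
      _ ≤ (1 / 2) ^ 4 := pow_le_pow_left₀ (by positivity) h3 4
      _ = 1 / 16 := by norm_num
  have h4 : (189 / 200 : ℝ) ^ (100 * (t + 1)) ≤ (1 / 16) ^ (t + 1) := by
    rw [pow_mul]
    exact pow_le_pow_left₀ (by positivity) h2 _
  have h5 : (2 : ℝ) ^ (2 * t + 2) * 2 * (1 / 16) ^ (t + 1) = (1 / 4) ^ t * (1 / 2) := by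
    have : (1 / 4 : ℝ) ^ t = (2 ^ 2) ^ t * (1 / 16) ^ t := by rw [← mul_pow]; norm_num
    rw [this, pow_add, pow_mul, pow_succ (1 / 16 : ℝ)]
    ring
  have h6 : (1 / 4 : ℝ) ^ t ≤ 1 := pow_le_one₀ (by norm_num) (by norm_num)
  calc (2 : ℝ) ^ (2 * t + 2) * 2 * (189 / 200 : ℝ) ^ n
      ≤ 2 ^ (2 * t + 2) * 2 * (1 / 16) ^ (t + 1) :=
        mul_le_mul_of_nonneg_left (h1.trans h4) (by positivity)
    _ = _ := h5
    _ ≤ 1 * (1 / 2) := mul_le_mul_of_nonneg_right h6 (by norm_num)
    _ = 1 / 2 := by norm_num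

theorem good {B J : Type} [Fintype B] [DecidableEq B] [Fintype J] (D : Finset B) (π : B → ZMod 2)
    (T : J → Finset B) (t : ℕ) (hT : ∀ j, (T j).card ≤ t) (hJ : Fintype.card J ≤ 2 ^ t)
    (hD : 100 * (t + 1) ≤ D.card) :
    ∃ v : Fin (2 * t + 2) → B → ZMod 2,
      (∀ (a : Fin (2 * t + 2) → ZMod 2) (e : ZMod 2), a ≠ 0 →
        ¬ 3 * (D.filter fun b => (comb a v + e • π) b ≠ 0).card ≤ D.card) ∧
      ∀ j (y : T j → ZMod 2), y ≠ 0 → pair (T j) y v ≠ 0 := by
  classical
  by_contra hne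
  let Ω := Fin (2 * t + 2) → B → ZMod 2
  let S : Finset (B → ZMod 2) :=
    univ.filter fun c : B → ZMod 2 => 3 * (D.filter fun b => c b ≠ 0).card ≤ D.card
  let E1 : (Fin (2 * t + 2) → ZMod 2) × ZMod 2 → Finset Ω := fun p =>
    univ.filter fun v => p.1 ≠ 0 ∧ comb p.1 v + p.2 • π ∈ S
  let E2 : (Σ j, (T j → ZMod 2)) → Finset Ω := fun p =>
    univ.filter fun v => p.2 ≠ 0 ∧ pair (T p.1) p.2 v = 0
  have hsub : (univ : Finset Ω) ⊆ univ.biUnion E1 ∪ univ.biUnion E2 := by
    intro v _
    by_contra hv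
    rw [mem_union, not_or] at hv
    refine hne ⟨v, fun a e ha hc => hv.1 ?_, fun j y hy hc => hv.2 ?_⟩
    · exact mem_biUnion.2 ⟨(a, e), mem_univ _, mem_filter.2 ⟨mem_univ _, ha,
        mem_filter.2 ⟨mem_univ _, hc⟩⟩⟩
    · exact mem_biUnion.2 ⟨⟨j, y⟩, mem_univ _, mem_filter.2 ⟨mem_univ _, hy, hc⟩⟩
  have hB : Fintype.card (B → ZMod 2) = 2 ^ Fintype.card B := by simp
  have hM : Fintype.card (Fin (2 * t + 2) → ZMod 2) = 2 ^ (2 * t + 2) := by simp
  have hpos : (0 : ℝ) < Fintype.card Ω := by exact_mod_cast Fintype.card_pos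
  have b1 : ∀ p, ((E1 p).card : ℝ) ≤ (189 / 200 : ℝ) ^ D.card * Fintype.card Ω := by
    intro p
    by_cases hp : p.1 = 0
    · have : E1 p = ∅ := filter_eq_empty_iff.2 fun v _ h => h.1 hp
      rw [this, card_empty, Nat.cast_zero]
      positivity
    · have h1 := fib (comb (B := B) p.1) (comb_surj _ hp) (S.image fun c => c - p.2 • π)
      have h2 : E1 p = univ.filter fun g => comb p.1 g ∈ S.image fun c => c - p.2 • π := by
        refine filter_congr fun v _ => ?_
        rw [mem_image]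
        constructor
        · exact fun h => ⟨_, h.2, by simp⟩
        · rintro ⟨c, hc, h⟩
          refine ⟨hp, ?_⟩
          rw [← h, sub_add_cancel]
          exact hc
      rw [← h2, hB] at h1
      have h3 : ((S.image fun c => c - p.2 • π).card : ℝ) ≤
          (189 / 200 : ℝ) ^ D.card * 2 ^ Fintype.card B :=
        (Nat.cast_le.2 card_image_le).trans (low D)
      have h4 : ((E1 p).card : ℝ) * 2 ^ Fintype.card B =
          ((S.image fun c => c - p.2 • π).card : ℝ) * Fintype.card Ω := by exact_mod_cast h1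
      have h5 : (0 : ℝ) < 2 ^ Fintype.card B := by positivity
      refine le_of_mul_le_mul_right ?_ h5
      rw [h4]
      calc _ ≤ (189 / 200 : ℝ) ^ D.card * 2 ^ Fintype.card B * Fintype.card Ω :=
            mul_le_mul_of_nonneg_right h3 hpos.le
        _ = _ := by ring
  have b2 : ∀ p, ((E2 p).card : ℝ) ≤ (1 / 2 : ℝ) ^ (2 * t + 2) * Fintype.card Ω := by
    intro p
    by_cases hp : p.2 = 0
    · have : E2 p = ∅ := filter_eq_empty_iff.2 fun v _ h => h.1 hp
      rw [this, card_empty, Nat.cast_zero]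
      positivity
    · have h1 := fib (pair (M := 2 * t + 2) (T p.1) p.2) (pair_surj _ _ hp) {0}
      have h2 : E2 p = univ.filter fun g => pair (T p.1) p.2 g ∈ ({0} : Finset _) := by
        refine filter_congr fun v _ => ?_
        rw [mem_singleton]
        exact ⟨fun h => h.2, fun h => ⟨hp, h⟩⟩
      rw [← h2, hM, card_singleton, one_mul] at h1
      have h4 : ((E2 p).card : ℝ) * 2 ^ (2 * t + 2) = Fintype.card Ω := by exact_mod_cast h1
      rw [← h4, one_div, inv_pow, mul_comm, mul_assoc, mul_inv_cancel₀ (by positivity), mul_one]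
  have c1 : (Fintype.card ((Fin (2 * t + 2) → ZMod 2) × ZMod 2) : ℝ) = 2 ^ (2 * t + 2) * 2 := by
    rw [Fintype.card_prod, hM, ZMod.card]
    push_cast
    rfl
  have c2 : (Fintype.card (Σ j, (T j → ZMod 2)) : ℝ) ≤ 2 ^ t * 2 ^ t := by
    have : Fintype.card (Σ j, (T j → ZMod 2)) ≤ 2 ^ t * 2 ^ t := by
      rw [Fintype.card_sigma]
      calc ∑ j, Fintype.card (T j → ZMod 2) ≤ ∑ _j : J, 2 ^ t := by
            refine sum_le_sum fun j _ => ?_
            rw [Fintype.card_fun, ZMod.card, Fintype.card_coe]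
            exact Nat.pow_le_pow_right (by norm_num) (hT j)
        _ = Fintype.card J * 2 ^ t := by rw [sum_const, card_univ, smul_eq_mul]
        _ ≤ _ := Nat.mul_le_mul_right _ hJ
    exact_mod_cast this
  have t1 : ((univ.biUnion E1).card : ℝ) ≤ 1 / 2 * Fintype.card Ω := by
    calc ((univ.biUnion E1).card : ℝ) ≤ ∑ p, ((E1 p).card : ℝ) := by
          exact_mod_cast card_biUnion_le
      _ ≤ ∑ _p : (Fin (2 * t + 2) → ZMod 2) × ZMod 2,
            (189 / 200 : ℝ) ^ D.card * Fintype.card Ω := sum_le_sum fun p _ => b1 p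
      _ = 2 ^ (2 * t + 2) * 2 * (189 / 200 : ℝ) ^ D.card * Fintype.card Ω := by
          rw [sum_const, card_univ, nsmul_eq_mul, c1]; ring
      _ ≤ _ := mul_le_mul_of_nonneg_right (num t _ hD) hpos.le
  have t2 : ((univ.biUnion E2).card : ℝ) ≤ 1 / 4 * Fintype.card Ω := by
    calc ((univ.biUnion E2).card : ℝ) ≤ ∑ p, ((E2 p).card : ℝ) := by
          exact_mod_cast card_biUnion_le
      _ ≤ ∑ _p : (Σ j, (T j → ZMod 2)), (1 / 2 : ℝ) ^ (2 * t + 2) * Fintype.card Ω :=
          sum_le_sum fun p _ => b2 p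
      _ ≤ 2 ^ t * 2 ^ t * ((1 / 2 : ℝ) ^ (2 * t + 2) * Fintype.card Ω) := by
          rw [sum_const, card_univ, nsmul_eq_mul]
          exact mul_le_mul_of_nonneg_right c2 (by positivity)
      _ = (2 * (1 / 2)) ^ t * (2 * (1 / 2)) ^ t * (1 / 4 * Fintype.card Ω) := by
          have e : (1 / 2 : ℝ) ^ (2 * t + 2) = (1 / 2) ^ t * (1 / 2) ^ t * (1 / 4) := by ring
          rw [mul_pow, e]; ring
      _ = _ := by norm_num
  have t3 : (Fintype.card Ω : ℝ) ≤ (univ.biUnion E1).card + (univ.biUnion E2).card := by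
    have := (card_le_card hsub).trans (card_union_le _ _)
    rw [card_univ] at this
    exact_mod_cast this
  linarith

end Cd

open Cd in
theorem code_exists : CodeStmt := by
  intro B J _ _ _ D π T t hπ hT hJ hD
  obtain ⟨v, h1, h2⟩ := good D π T t hT hJ hD
  let C : Submodule (ZMod 2) (B → ZMod 2) :=
    Submodule.span (ZMod 2) (Set.range v) ⊔ Submodule.span (ZMod 2) {π}
  refine ⟨C, Submodule.mem_sup_right (Submodule.mem_span_singleton_self π), ?_, ?_⟩
  · intro c hc hw
    obtain ⟨x, hx, y, hy, rfl⟩ := Submodule.mem_sup.1 hc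
    obtain ⟨a, rfl⟩ := (Submodule.mem_span_range_iff_exists_fun (ZMod 2)).1 hx
    obtain ⟨e, rfl⟩ := Submodule.mem_span_singleton.1 hy
    by_cases ha : a = 0
    · subst ha
      rcases two e with rfl | rfl
      · simp
      · exfalso
        have : (D.filter fun b =>
            (∑ i, (0 : Fin (2 * t + 2) → ZMod 2) i • v i + (1 : ZMod 2) • π) b ≠ 0) = D := by
          refine Finset.filter_true_of_mem fun b hb => ?_
          simp [hπ b hb]
        rw [this] at hw
        omega
    · exact absurd hw (h1 a e ha)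
  · intro j f
    obtain ⟨a, ha⟩ := onto (T j) v (h2 j) f
    exact ⟨comb a v, Submodule.mem_sup_left
      ((Submodule.mem_span_range_iff_exists_fun (ZMod 2)).2 ⟨a, rfl⟩), ha⟩

end Vale.Agent.P089
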