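import Vale.Agent.P089.Base

/-! Extension of codewords level by level. -/

namespace Vale.Agent.P089

namespace Ex

open Vale.Agent.P194 Classical

variable {F : Dat} {H : Type} [Group H] {gl : Ltr F.k → H} {lev : H → ℕ}

/-- pointed maps from one of the graphs -/
abbrev Tr (F : Dat) (H : Type) : Type := Σ n, (Fin (F.N n) → H) × Fin (F.N n)

/-- `z` is a deep point of a copy -/
def DP (F : Dat) (gl : Ltr F.k → H) (lev : H → ℕ) (z : H) (t : Tr F H) : Prop :=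
  F.Cp gl t.1 t.2.1 ∧ t.2.1 t.2.2 = z ∧ (∃ y, lev (t.2.1 y) < lev z) ∧
    ∀ w y, Path (F.Γ t.1) t.2.2 w y → w.length ≤ F.P t.1 → ¬ lev (t.2.1 y) < lev z

theorem dp_eq (hL : F.Lev gl lev) {t : Tr F H} {n : ℕ} {φ : Fin (F.N n) → H} {u r : Fin (F.N n)}
    (c : F.Cp gl n φ) (hr : lev (φ r) < lev (φ u)) (h : DP F gl lev (φ u) t) :
    t = ⟨n, φ, u⟩ := by
  obtain ⟨n', φ', u'⟩ := t
  obtain ⟨c', e, ⟨y, hy⟩, hd⟩ := h
  simp only at c' e hy hd
  rw [← e] at hy hr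
  rcases hL.shared n' φ' u' y n φ u r c' c e hy hr with h | ⟨w, x, x', -, l, -, q, -, a⟩
  · obtain ⟨rfl, h3⟩ := Sigma.mk.inj h
    obtain rfl := eq_of_heq h3
    obtain rfl := hL.inj _ _ c e
    rfl
  · exact absurd (e ▸ a) (hd w x q l)

end Ex

open Ex Vale.Agent.P194 Classical in
theorem ext : ExtStmt := by
  intro F H _ gl lev hL n0 φ0 v0 c0 hv0 c hc
  have hroot : ∀ n (φ : Fin (F.N n) → H), ∃ r, ∀ u, lev (φ r) ≤ lev (φ u) := fun n φ => by
    have : Nonempty (Fin (F.N n)) := ⟨⟨0, (F.xg n).pos⟩⟩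
    exact Finite.exists_min fun u => lev (φ u)
  choose rt hrt using hroot
  choose ch hch1 hch2 using fun n (φ : Fin (F.N n) → H) (f : Cfg H (Ltr F.k)) =>
    (F.code n).ext (rt n φ) (F.rs φ f)
  obtain ⟨f0, hf0⟩ : ∃ f0 : Cfg H (Ltr F.k), ∀ u a, f0 (φ0 u, a) = c (u, a) := by
    refine ⟨fun p => if h : ∃ u, φ0 u = p.1 then c (choose h, p.2) else 0, fun u a => ?_⟩
    have h : ∃ u', φ0 u' = φ0 u := ⟨u, rfl⟩
    have e : choose h = u := hL.inj _ _ c0 (choose_spec h)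
    exact (dif_pos h).trans (by rw [e])
  obtain ⟨st, hs1, hs2⟩ : ∃ st : Cfg H (Ltr F.k) → Cfg H (Ltr F.k),
      (∀ f n (φ : Fin (F.N n) → H) u a, φ u ∉ Set.range φ0 → DP F gl lev (φ u) ⟨n, φ, u⟩ →
        st f (φ u, a) = ch n φ f (u, a)) ∧
      ∀ f z a, (z ∈ Set.range φ0 ∨ ¬ ∃ t, DP F gl lev z t) → st f (z, a) = f (z, a) := by
    refine ⟨fun f p => if h : p.1 ∉ Set.range φ0 ∧ ∃ t, DP F gl lev p.1 t then
      ch (choose h.2).1 (choose h.2).2.1 f ((choose h.2).2.2, p.2) else f p, ?_, ?_⟩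
    · intro f n φ u a h1 h2
      have h : φ u ∉ Set.range φ0 ∧ ∃ t, DP F gl lev (φ u) t := ⟨h1, _, h2⟩
      obtain ⟨y, hy⟩ := h2.2.2.1
      have e : choose h.2 = ⟨n, φ, u⟩ := dp_eq hL h2.1 hy (choose_spec h.2)
      exact (dif_pos h).trans (congrArg (fun t : Tr F H => ch t.1 t.2.1 f (t.2.2, a)) e)
    · intro f z a h
      exact dif_neg fun h' => h.elim h'.1 fun h'' => h'' h'.2
  have h0 : ∀ j u a, st^[j] f0 (φ0 u, a) = c (u, a) := by
    intro j u a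
    induction j with
    | zero => exact hf0 u a
    | succ j ih => rw [Function.iterate_succ_apply', hs2 _ _ _ (Or.inl ⟨u, rfl⟩), ih]
  have h1 : F.rs φ0 (fun p => st^[lev p.1] f0 p) = c := funext fun p => h0 _ p.1 p.2
  refine ⟨fun p => st^[lev p.1] f0 p, fun n φ cp => ?_, h1⟩
  by_cases hq : (⟨n, φ⟩ : Σ n, Fin (F.N n) → H) = ⟨n0, φ0⟩
  · obtain ⟨rfl, h3⟩ := Sigma.mk.inj hq
    obtain rfl := eq_of_heq h3
    rw [h1]
    exact hc
  have key : F.rs φ (fun p => st^[lev p.1] f0 p) = ch n φ (st^[lev (φ (rt n φ))] f0) := by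
    funext ⟨u, a⟩
    change st^[lev (φ u)] f0 (φ u, a) = _
    have a1 := hrt n φ u
    have a2 := hL.top n φ u (rt n φ) cp
    have near : ∀ y, lev (φ y) ≤ lev (φ (rt n φ)) → ∀ w, Path (F.Γ n) u w y → w.length ≤ F.P n →
        ch n φ (st^[lev (φ (rt n φ))] f0) (u, a) = st^[lev (φ (rt n φ))] f0 (φ u, a) := by
      intro y hy w p l
      obtain ⟨t, -, lt, pt⟩ := hL.root n φ (rt n φ) y cp (hrt n φ) hy
      exact hch2 n φ _ u _ a (pt.of_res.append (p.inv (F.xg n).symm)) (by simp; omega)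
    by_cases b1 : lev (φ u) ≤ lev (φ (rt n φ))
    · rw [near u b1 [] (Path.nil _) (Nat.zero_le _), le_antisymm b1 a1]
    · have b2 : lev (φ u) = lev (φ (rt n φ)) + 1 := by omega
      have b3 : lev (φ (rt n φ)) < lev (φ u) := by omega
      rw [b2, Function.iterate_succ_apply']
      by_cases b4 : DP F gl lev (φ u) ⟨n, φ, u⟩
      · refine hs1 _ n φ u a ?_ b4
        rintro ⟨u0, e⟩
        have b5 : lev (φ0 v0) < lev (φ0 u0) := by
          rw [hv0, hL.one, e]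
          omega
        rw [← e] at b4
        have b6 := dp_eq hL c0 b5 b4
        exact hq (congrArg (fun t : Tr F H => (⟨t.1, t.2.1⟩ : Σ n, Fin (F.N n) → H)) b6)
      · rw [hs2 _ _ _ (Or.inr fun ⟨t, ht⟩ => b4 (dp_eq hL cp b3 ht ▸ ht))]
        by_contra b5
        refine b4 ⟨cp, rfl, ⟨_, b3⟩, fun w y p l hy => b5 (near y ?_ w p l).symm⟩
        simp only at hy
        omega
  rw [key]
  exact hch1 n φ _

end Vale.Agent.P089
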