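import Vale.Agent.P089.Lev

/-! Full copies, and the irrationality of the series. -/

namespace Vale.Agent.P089

open Vale.Agent.P194 Classical

theorem irrational_of_growth (c : ℕ → ℕ) (hc : ∀ n, 0 < c n)
    (hg : ∀ n, 2 ^ (n + 1) * ∏ i ∈ Finset.range (n + 1), c i ≤ c (n + 1)) {T : ℝ}
    (hT : HasSum (fun n => 1 / (c n : ℝ)) T) : Irrational T := by
  rintro ⟨x, rfl⟩
  have hpos : ∀ n, 0 < ∏ i ∈ Finset.range n, c i := fun n => Finset.prod_pos fun i _ => hc i
  have h2 : ∀ n, 2 * c n ≤ c (n + 1) := by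
    intro n
    refine le_trans (Nat.mul_le_mul ?_ ?_) (hg n)
    · rw [pow_succ]
      have := Nat.two_pow_pos n
      omega
    · exact Nat.le_of_dvd (hpos _) (Finset.dvd_prod_of_mem _ (by simp))
  have h3 : ∀ n i, 2 ^ i * c n ≤ c (i + n) := by
    intro n i
    induction i with
    | zero => simp
    | succ i ih =>
      have := h2 (i + n)
      rw [pow_succ, Nat.add_right_comm]
      nlinarith
  set n := x.den with hn
  have hc' : ∀ i, (0 : ℝ) < c i := fun i => by exact_mod_cast hc i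
  have ht := (hasSum_nat_add_iff' (n + 1)).2 hT
  have up : (x : ℝ) - ∑ i ∈ Finset.range (n + 1), 1 / (c i : ℝ) ≤ 2 * (1 / c (n + 1)) := by
    refine hasSum_le (fun i => ?_) ht (hasSum_geometric_two.mul_right _)
    rw [one_div_pow, one_div_mul_one_div]
    exact one_div_le_one_div_of_le (by have := hc' (n + 1); positivity)
      (by exact_mod_cast h3 (n + 1) i)
  have lo : 0 < (x : ℝ) - ∑ i ∈ Finset.range (n + 1), 1 / (c i : ℝ) :=
    lt_of_lt_of_le (by have := hc' (0 + (n + 1)); positivity)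
      (le_hasSum ht 0 fun j _ => by positivity)
  set Q := ∏ i ∈ Finset.range (n + 1), c i with hQ
  have hz : ∃ z : ℤ, (z : ℝ) =
      n * Q * ((x : ℝ) - ∑ i ∈ Finset.range (n + 1), 1 / (c i : ℝ)) := by
    refine ⟨x.num * Q - n * ∑ i ∈ Finset.range (n + 1), ((Q / c i : ℕ) : ℤ), ?_⟩
    have e1 : (n : ℝ) * x = x.num := by exact_mod_cast Rat.den_mul_eq_num x
    have e2 : ∑ i ∈ Finset.range (n + 1), ((Q / c i : ℕ) : ℝ) =
        Q * ∑ i ∈ Finset.range (n + 1), 1 / (c i : ℝ) := by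
      rw [Finset.mul_sum]
      refine Finset.sum_congr rfl fun i hi => ?_
      rw [Nat.cast_div (Finset.dvd_prod_of_mem _ hi) (hc' i).ne', mul_one_div]
    simp only [Int.cast_sub, Int.cast_mul, Int.cast_natCast, Int.cast_sum]
    rw [e2, ← e1]
    ring
  obtain ⟨z, hz⟩ := hz
  have hn0 : (0 : ℝ) < n := by exact_mod_cast x.den_pos
  have hQ0 : (0 : ℝ) < Q := by exact_mod_cast hpos (n + 1)
  have z0 : (0 : ℝ) < z := by rw [hz]; positivity
  have z1 : (1 : ℝ) ≤ z := by exact_mod_cast (show (0 : ℤ) < z by exact_mod_cast z0)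
  have g : (2 : ℝ) ^ (n + 1) * Q ≤ c (n + 1) := by exact_mod_cast hg n
  have l : (n : ℝ) < 2 ^ n := by exact_mod_cast Nat.lt_two_pow_self
  have : (z : ℝ) ≤ n * Q * (2 * (1 / c (n + 1))) := by rw [hz]; gcongr
  rw [mul_one_div, ← mul_div_assoc, le_div_iff₀ (hc' _)] at this
  have := hc' (n + 1)
  rw [pow_succ] at g
  nlinarith

theorem ncard_split {S : Type} [Finite S] (R R' : S × Bool → Prop) (h : ∀ a, R' a → R a) :
    {a | R' a}.ncard + {s | R (s, true)}.ncard ≤ {a | R a}.ncard + {s | R' (s, true)}.ncard := by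
  have h1 := Set.ncard_diff_add_ncard_of_subset (s := {a | R' a}) (t := {a | R a}) h
  have h2 := Set.ncard_diff_add_ncard_of_subset (s := {s | R' (s, true)}) (t := {s | R (s, true)})
    fun s => h _
  have h3 := Set.ncard_le_ncard_of_injOn (s := {s | R (s, true)} \ {s | R' (s, true)})
    (t := {a | R a} \ {a | R' a}) (fun s => (s, true)) (fun _ h => h)
    fun _ _ _ _ e => congrArg Prod.fst e
  omega

namespace Dat

variable {F : Dat} {H : Type} [Group H] {gl : Ltr F.k → H} {ω : Cfg H (Ltr F.k)} {n : ℕ}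
  {φ : Fin (F.N n) → H}

omit [Group H] in
theorem full_prp (h : F.rs φ ω = pat (F.Γ n)) (u : Fin (F.N n)) (a : Ltr F.k) :
    F.Prp ω (φ u) a ↔ ∃ u', F.Γ n u a u' := by
  have e : ω (φ u, a) = pat (F.Γ n) (u, a) := congrFun h (u, a)
  unfold Prp
  rw [e, pat]
  exact ⟨fun h => by_contra fun c => h.2 (if_neg c), fun ⟨u', h⟩ =>
    ⟨⟨n, u, u', h⟩, by rw [if_pos ⟨u', h⟩]; exact one_ne_zero⟩⟩

omit [Group H] in
theorem full_good (h : F.rs φ ω = pat (F.Γ n)) (u : Fin (F.N n)) : F.Good ω (φ u) := by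
  simp only [Good, full_prp h, (F.xg n).out, le_refl]

theorem full_opn (c : F.Cp gl n φ) (h : F.rs φ ω = pat (F.Γ n)) (u : Fin (F.N n)) (a : Ltr F.k) :
    F.Opn gl ω (φ u) a ↔ ∃ u', F.Γ n u a u' := by
  refine ⟨fun o => (full_prp h u a).1 o.1, fun ⟨u', e⟩ => ?_⟩
  unfold Opn
  rw [← c _ _ _ e]
  exact ⟨(full_prp h u a).2 ⟨u', e⟩, (full_prp h u' _).2 ⟨u, (F.xg n).symm _ _ _ e⟩,
    full_good h u, full_good h u'⟩

theorem full_same (c : F.Cp gl n φ) (h : F.rs φ ω = pat (F.Γ n)) {n' : ℕ}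
    {φ' : Fin (F.N n') → H} (c' : F.Cp gl n' φ') (h' : F.rs φ' ω = pat (F.Γ n'))
    {u : Fin (F.N n)} {u' : Fin (F.N n')} (e : φ u = φ' u') :
    (⟨n, u⟩ : Σ n, Fin (F.N n)) = ⟨n', u'⟩ := by
  have tr : ∀ {u w y}, Path (F.Γ n) u w y → ∀ u', φ u = φ' u' → ∃ y', Path (F.Γ n') u' w y' := by
    intro u w y p
    induction p with
    | nil x => exact fun u' _ => ⟨u', Path.nil _⟩
    | cons h1 _ ih =>
      intro u' e
      obtain ⟨v, hv⟩ := (full_prp h' u' _).1 (e ▸ (full_prp h _ _).2 ⟨_, h1⟩)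
      obtain ⟨y', hy⟩ := ih v (by rw [c _ _ _ h1, c' _ _ _ hv, e])
      exact ⟨y', Path.cons hv hy⟩
  obtain ⟨w, y, h1, h2, h3, -⟩ := F.long n (F.P n + 1) u
  obtain ⟨y', h4⟩ := tr h3 u' e
  exact F.gd.piece w _ _ _ _ h1 (by simp [h2]) (path_gv.2 ⟨y, rfl, h3⟩) (path_gv.2 ⟨y', rfl, h4⟩)

theorem full_chg (c : F.Cp gl n φ) (hi : Function.Injective φ) (h : F.rs φ ω = pat (F.Γ n))
    (U : Finset H) (hU : U ⊆ Finset.univ.image φ)
    (h2 : 2 * U.card ≤ (Finset.univ.image φ).card) :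
    Chg (fun a g => gl a * g) (F.Opn gl ω) (F.dg ω) U := by
  obtain ⟨W, -, rfl⟩ := Finset.subset_image_iff.1 hU
  unfold Chg
  rw [Finset.card_image_of_injective _ hi, Finset.card_image_of_injective _ hi,
    Finset.card_univ, Fintype.card_fin] at h2
  rw [Finset.card_image_of_injective _ hi, Finset.sum_image hi.injOn, Finset.sum_image hi.injOn]
  have h1 := (F.xg n).exp W (by omega)
  rw [ncard_pairs W fun x s => ∃ y ∈ W, F.Γ n x (s, true) y] at h1
  have h3 : ∑ u ∈ W, ({a | F.Opn gl ω (φ u) a ∧ gl a * φ u ∈ W.image φ}.ncard + F.m) ≤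
      ∑ u ∈ W, (F.dg ω (φ u) + {s | ∃ y ∈ W, F.Γ n u (s, true) y}.ncard) := by
    refine Finset.sum_le_sum fun u _ => ?_
    have e : ∀ a, (F.Opn gl ω (φ u) a ∧ gl a * φ u ∈ W.image φ) ↔ ∃ y ∈ W, F.Γ n u a y := by
      intro a
      rw [full_opn c h]
      constructor
      · rintro ⟨⟨y, e⟩, hy⟩
        rw [← c _ _ _ e, hi.mem_finset_image] at hy
        exact ⟨y, hy, e⟩
      · rintro ⟨y, hy, e⟩
        exact ⟨⟨y, e⟩, by rw [← c _ _ _ e]; exact Finset.mem_image_of_mem _ hy⟩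
    have := ncard_split (fun a => ∃ y, F.Γ n u a y) (fun a => ∃ y ∈ W, F.Γ n u a y)
      fun a ⟨y, _, e⟩ => ⟨y, e⟩
    simp only [e, dg, full_prp h]
    rw [(F.xg n).out] at this
    exact this.trans (Nat.add_le_add_right (Nat.le_add_right _ _) _)
  rw [Finset.sum_add_distrib, Finset.sum_add_distrib, Finset.sum_const, smul_eq_mul] at h3
  have := Nat.mul_le_mul_left W.card F.hm
  nlinarith

end Dat

end Vale.Agent.P089
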