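import Vale.Agent.P089.Gap1

/-! Module S: the spectral gap. -/

namespace Vale.Agent.P089

open Finset Classical

namespace Gp.Sys

variable {X Λ : Type} [Fintype Λ] {D : ℕ} (s : Sys X Λ D)

/-- the walk -/
noncomputable abbrev B : (X → ℝ) → X → ℝ := Sop s.σ s.O s.deg D

/-- saturated sets -/
def Sat (S : Finset X) : Prop := ∀ Y ∈ s.blk, ∀ x ∈ Y, x ∈ S → Y ⊆ S

/-- the block of a point -/
noncomputable def cl (x : X) : Finset X := if h : ∃ Y ∈ s.blk, x ∈ Y then h.choose else ∅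

theorem cl_eq {Y : Finset X} (hY : Y ∈ s.blk) {x : X} (hx : x ∈ Y) : s.cl x = Y := by
  have h : ∃ Y ∈ s.blk, x ∈ Y := ⟨Y, hY, hx⟩
  rw [cl, dif_pos h]
  exact s.h5 _ h.choose_spec.1 _ hY x h.choose_spec.2 hx

theorem cl_off {x : X} (h : ∀ Y ∈ s.blk, x ∉ Y) : s.cl x = ∅ :=
  dif_neg fun ⟨Y, hY, hx⟩ => h Y hY hx

theorem exists_sat (U : Finset X) : ∃ S, U ⊆ S ∧ s.Sat S := by
  refine ⟨U ∪ U.biUnion s.cl, subset_union_left, fun Y hY x hx h => ?_⟩
  have key : ∀ z ∈ U, s.cl z = Y → Y ⊆ U ∪ U.biUnion s.cl := fun z hz e y hy =>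
    mem_union_right _ (mem_biUnion.2 ⟨z, hz, e ▸ hy⟩)
  rcases mem_union.1 h with h | h
  · exact key x h (s.cl_eq hY hx)
  · obtain ⟨z, hz, h⟩ := mem_biUnion.1 h
    by_cases h' : ∃ Y' ∈ s.blk, z ∈ Y'
    · obtain ⟨Y', hY', hz'⟩ := h'
      rw [s.cl_eq hY' hz'] at h
      exact key z hz ((s.cl_eq hY' hz').trans (s.h5 _ hY' _ hY x h hx))
    · rw [s.cl_off fun Y' a b => h' ⟨Y', a, b⟩] at h
      exact absurd h (notMem_empty _)

theorem off {x : X} {a : Λ} (h : ∀ Y ∈ s.blk, x ∉ Y) (ha : s.O x a) : ∀ Y ∈ s.blk, s.σ a x ∉ Y :=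
  fun Y hY hx => h Y hY (s.h2 a x ▸ (s.h6 Y hY _ hx).2 _ (s.h3 _ _ ha))

theorem blocks (F : X → ℝ) (S : Finset X) : (∀ x ∈ S, ∃ Y ∈ s.blk, x ∈ Y ∧ Y ⊆ S) →
    (∀ Y ∈ s.blk, Y ⊆ S → 0 ≤ ∑ x ∈ Y, F x) → 0 ≤ ∑ x ∈ S, F x := by
  induction S using Finset.strongInduction with
  | H S ih =>
    intro h hF
    rcases S.eq_empty_or_nonempty with rfl | ⟨z, hz⟩
    · simp
    obtain ⟨Y, hY, hz', hS⟩ := h z hz
    rw [← sum_sdiff hS]
    refine add_nonneg (ih _ (sdiff_ssubset hS ⟨z, hz'⟩) (fun x hx => ?_)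
      fun Y' hY' h' => hF Y' hY' (h'.trans sdiff_subset)) (hF Y hY hS)
    rw [mem_sdiff] at hx
    obtain ⟨Y', hY', hx', hS'⟩ := h x hx.1
    exact ⟨Y', hY', hx', fun y hy => mem_sdiff.2
      ⟨hS' hy, fun h' => hx.2 (s.h5 _ hY' _ hY y hy h' ▸ hx')⟩⟩

theorem pieces (F : X → ℝ) {S : Finset X} (hS : s.Sat S)
    (hR : 0 ≤ ∑ x ∈ S.filter fun x => ∀ Y ∈ s.blk, x ∉ Y, F x)
    (hF : ∀ Y ∈ s.blk, Y ⊆ S → 0 ≤ ∑ x ∈ Y, F x) : 0 ≤ ∑ x ∈ S, F x := by
  rw [← sum_filter_add_sum_filter_not S fun x => ∀ Y ∈ s.blk, x ∉ Y]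
  refine add_nonneg hR (s.blocks F _ (fun x hx => ?_)
    fun Y hY h => hF Y hY (h.trans (filter_subset _ _)))
  rw [mem_filter] at hx
  obtain ⟨hx, h⟩ := hx
  push Not at h
  obtain ⟨Y, hY, h⟩ := h
  exact ⟨Y, hY, h, fun y hy => mem_filter.2 ⟨hS Y hY x h hx hy, fun h' => h' Y hY hy⟩⟩

theorem T1_congr {S P : Finset X} {x : X} (h : ∀ a, s.O x a → (s.σ a x ∈ S ↔ s.σ a x ∈ P))
    (G : X → X → ℝ) : s.T1 S G x = s.T1 P G x :=
  sum_congr rfl fun a _ => if_congr (and_congr_right (h a)) rfl rfl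

theorem poincare (hD : 1 ≤ D) {S : Finset X} (hS : s.Sat S) (f : X → ℝ)
    (hf : ∀ Y ∈ s.blk, ∑ x ∈ Y, f x = 0) : ∑ x ∈ S, f x ^ 2 ≤ 20000 * D * s.En S f := by
  have e : ∀ P : Finset X, (∀ x ∈ P, ∀ a, s.O x a → (s.σ a x ∈ S ↔ s.σ a x ∈ P)) →
      ∑ x ∈ P, (20000 * D * (s.deg x * f x ^ 2 - s.T1 S (fun x y => f x * f y) x) - f x ^ 2) =
        20000 * D * s.En P f - ∑ x ∈ P, f x ^ 2 := fun P hP => by
    rw [sum_sub_distrib, ← mul_sum, sum_sub_distrib, En, T,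
      sum_congr rfl fun x hx => s.T1_congr (hP x hx) _]
  rw [← sub_nonneg, ← e S fun _ _ _ _ => Iff.rfl]
  refine s.pieces _ hS ?_ fun Y hY h => ?_
  · rw [e _ fun x hx a ha => by
      rw [mem_filter] at hx ⊢; exact ⟨fun h => ⟨h, s.off hx.2 ha⟩, fun h => h.1⟩, sub_nonneg]
    exact s.cheeger hD Subset.rfl (fun U hU => s.h7 U fun Y hY => disjoint_left.2 fun x hx => by
      have := hU hx; rw [mem_filter] at this; exact this.2 Y hY) f fun x hx hx' => absurd hx hx'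
  · rw [e _ fun x hx a ha => ⟨fun _ => (s.h6 Y hY x hx).2 a ha, fun h' => h h'⟩, sub_nonneg]
    exact s.block hD hY f (hf Y hY)

theorem B_eq {S : Finset X} {f : X → ℝ} {x : X} (hf : ∀ a, s.O x a → s.σ a x ∉ S → f (s.σ a x) = 0) :
    s.B f x = f x - (s.deg x * f x - s.T1 S (fun _ y => f y) x) / (2 * D) := by
  simp only [Sop, T1]
  congr 3
  refine sum_congr rfl fun a _ => ?_
  by_cases h : s.O x a
  · by_cases h' : s.σ a x ∈ S
    · simp [h, h']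
    · simp [h, h', hf a h h']
  · simp [h]

theorem step (hD : 1 ≤ D) {S : Finset X} {f : X → ℝ} (hf : ∀ x ∉ S, f x = 0) :
    ∑ x ∈ S, s.B f x ^ 2 ≤ ∑ x ∈ S, f x ^ 2 - s.En S f / (2 * D) := by
  have hD' : (1 : ℝ) ≤ D := by exact_mod_cast hD
  have h1 : ∀ x ∈ S, (s.deg x * f x - s.T1 S (fun _ y => f y) x) ^ 2 ≤ D * (s.deg x * f x ^ 2 -
      s.T1 S (fun x _ => f x ^ 2) x + s.T1 S (fun x y => (f x - f y) ^ 2) x) := by
    intro x _
    have a1 := s.T1_const S f x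
    have a2 := s.T1_const S (fun x => f x ^ 2) x
    have a3 := s.T1_lin S (fun x _ => f x) (fun _ y => f y) 1 (-1) x
    have a4 := s.o_le S x
    have a5 : (s.deg x : ℝ) ≤ D := by exact_mod_cast (s.h4 x).2
    have a6 : s.T1 S (fun x y => 1 * f x + -1 * f y) x ^ 2 ≤
        {a | s.O x a ∧ s.σ a x ∈ S}.ncard * s.T1 S (fun x y => (f x - f y) ^ 2) x := by
      have := sq_sum_le_card_mul_sum_sq (s := univ.filter fun a => s.O x a ∧ s.σ a x ∈ S)
        (f := fun a => f x - f (s.σ a x))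
      rw [← Set.ncard_coe_finset] at this
      simpa [T1, sum_filter, sub_eq_add_neg] using this
    have a7 := s.T1_lin S (fun x _ => f x ^ 2) (fun x y => (f x - f y) ^ 2) 1 1 x
    have a8 := s.T1_lin S (fun x y => 1 * f x + -1 * f y) (fun _ _ => 0) (2 * f x) 0 x
    have a9 := s.T1_le (S := S) (x := x) (G := fun x' y => 2 * f x * (1 * f x' + -1 * f y) + 0 * 0)
      (G' := fun x y => 1 * f x ^ 2 + 1 * (f x - f y) ^ 2) fun y _ => by
        nlinarith [sq_nonneg (f y)]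
    have a10 : 0 ≤ s.T1 S (fun x y => (f x - f y) ^ 2) x :=
      sum_nonneg fun a _ => by split_ifs <;> positivity
    rw [a7, a8, a2] at a9
    rw [a1] at a3
    rw [a2]
    generalize s.T1 S (fun x y => 1 * f x + -1 * f y) x = w at *
    generalize s.T1 S (fun x y => (f x - f y) ^ 2) x = t at *
    generalize ({a | s.O x a ∧ s.σ a x ∈ S}.ncard : ℝ) = o at *
    have b1 := mul_le_mul_of_nonneg_left a9 (sub_nonneg.2 a4)
    have b2 := mul_nonneg (sub_nonneg.2 a5) (add_nonneg (mul_nonneg (sub_nonneg.2 a4)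
      (sq_nonneg (f x))) a10)
    rw [show s.deg x * f x - s.T1 S (fun _ y => f y) x = (s.deg x - o) * f x + w by linarith]
    nlinarith
  have h2 := sum_le_sum h1
  have h3 : ∑ x ∈ S, f x * (s.deg x * f x - s.T1 S (fun _ y => f y) x) = s.En S f := by
    rw [En, T, ← sum_sub_distrib]
    refine sum_congr rfl fun x _ => ?_
    have := s.T1_lin S (fun _ y => f y) (fun _ _ => 0) (f x) 0 x
    simp only [T1, mul_zero, add_zero, zero_mul] at this ⊢
    rw [this]; ring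
  have h4 := s.En_eq S f
  have h5 := s.T_sq_le S f
  rw [← mul_sum, sum_add_distrib, sum_sub_distrib] at h2
  have h6 : ∑ x ∈ S, s.B f x ^ 2 = ∑ x ∈ S, f x ^ 2 - s.En S f / D +
      (∑ x ∈ S, (s.deg x * f x - s.T1 S (fun _ y => f y) x) ^ 2) / (4 * D ^ 2) := by
    rw [← h3, sum_div, sum_div, ← sum_sub_distrib, ← sum_add_distrib]
    refine sum_congr rfl fun x _ => ?_
    rw [s.B_eq (S := S) fun a _ h => hf _ h]
    field_simp
    ring
  have h7 : (∑ x ∈ S, (s.deg x * f x - s.T1 S (fun _ y => f y) x) ^ 2) / (4 * D ^ 2) ≤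
      s.En S f / (2 * D) := by
    rw [div_le_div_iff₀ (by positivity) (by positivity)]
    simp only [T] at h4 h5
    have := mul_nonneg (show (0 : ℝ) ≤ D by linarith) (sub_nonneg.2 h5)
    nlinarith
  have h8 : s.En S f / D = s.En S f / (2 * D) + s.En S f / (2 * D) := by field_simp; ring
  linarith

theorem sum_B {Y : Finset X} (hY : Y ∈ s.blk) (f : X → ℝ) : ∑ x ∈ Y, s.B f x = ∑ x ∈ Y, f x := by
  rw [sum_congr rfl fun x hx => s.B_eq (S := Y) fun a ha h => absurd ((s.h6 Y hY x hx).2 a ha) h,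
    sum_sub_distrib, ← sum_div, sum_sub_distrib, ← T, T_symm, T,
    sum_congr rfl fun x hx => (s.T1_const Y f x).trans (by rw [s.o_eq hY hx])]
  simp

theorem iter (hD : 1 ≤ D) {β : ℝ} (hβ : β ^ 2 = 1 - 1 / (40000 * D ^ 2)) {U : Finset X} {f : X → ℝ}
    (hf : ∀ x ∉ U, f x = 0) (h0 : ∀ Y ∈ s.blk, ∑ x ∈ Y, f x = 0) (j : ℕ) :
    ∃ S : Finset X, (∀ x ∉ S, s.B^[j] f x = 0) ∧ (∀ Y ∈ s.blk, ∑ x ∈ Y, s.B^[j] f x = 0) ∧
      ∑ x ∈ S, s.B^[j] f x ^ 2 ≤ (β ^ j) ^ 2 * ∑ x ∈ U, f x ^ 2 := by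
  have hD' : (1 : ℝ) ≤ D := by exact_mod_cast hD
  induction j with
  | zero => exact ⟨U, hf, h0, by simp⟩
  | succ j ih =>
    obtain ⟨V, h1, h2, h3⟩ := ih
    rw [Function.iterate_succ_apply']
    generalize s.B^[j] f = g at *
    obtain ⟨S, hS, hS'⟩ := s.exists_sat (V ∪ V.biUnion fun x => univ.image fun a => s.σ a x)
    have hV : V ⊆ S := subset_union_left.trans hS
    have h4 : ∀ x ∉ S, g x = 0 := fun x hx => h1 x fun h => hx (hV h)
    refine ⟨S, fun x hx => ?_, fun Y hY => (s.sum_B hY g).trans (h2 Y hY), ?_⟩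
    · have : ∀ a, g (s.σ a x) = 0 := fun a => h1 _ fun h => hx (hS (mem_union_right _
        (mem_biUnion.2 ⟨_, h, mem_image.2 ⟨s.ι a, mem_univ _, s.h2 a x⟩⟩)))
      simp [Sop, h4 x hx, this]
    · have a1 := s.step hD h4
      have a2 := s.poincare hD hS' g h2
      have a3 : ∑ x ∈ V, g x ^ 2 = ∑ x ∈ S, g x ^ 2 := sum_subset hV fun x _ hx => by simp [h1 x hx]
      have a4 : 1 / (40000 * D ^ 2) * ∑ x ∈ S, g x ^ 2 ≤ s.En S g / (2 * D) := by
        rw [div_mul_eq_mul_div, div_le_div_iff₀ (by positivity) (by positivity)]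
        nlinarith
      calc _ ≤ β ^ 2 * ∑ x ∈ V, g x ^ 2 := by rw [hβ, a3]; linarith
        _ ≤ β ^ 2 * ((β ^ j) ^ 2 * ∑ x ∈ U, f x ^ 2) := by gcongr
        _ = _ := by ring

/-- averages over the blocks -/
noncomputable def E (f : X → ℝ) (x : X) : ℝ := (∑ y ∈ s.cl x, f y) / (s.cl x).card

theorem B_E (f : X → ℝ) : s.B (s.E f) = s.E f := by
  ext x
  by_cases h : ∀ Y ∈ s.blk, x ∉ Y
  · have : ∀ a, s.O x a → s.E f (s.σ a x) = 0 := fun a ha => by simp [E, s.cl_off (s.off h ha)]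
    rw [s.B_eq (S := ∅) fun a ha _ => this a ha]
    simp [E, s.cl_off h, T1]
  · push Not at h
    obtain ⟨Y, hY, hx⟩ := h
    have : (∑ a, if s.O x a then s.E f (s.σ a x) else 0) = s.deg x * s.E f x := by
      rw [(s.h6 Y hY x hx).1, ← sum_ite_ncard]
      exact sum_congr rfl fun a _ => if_ctx_congr Iff.rfl
        (fun ha => by rw [E, E, s.cl_eq hY hx, s.cl_eq hY ((s.h6 Y hY x hx).2 a ha)]) fun _ => rfl
    simp [Sop, this]

theorem B_sub (f g : X → ℝ) : s.B (f - g) = s.B f - s.B g := by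
  ext x
  have : (∑ a, if s.O x a then (f - g) (s.σ a x) else 0) =
      (∑ a, if s.O x a then f (s.σ a x) else 0) - ∑ a, if s.O x a then g (s.σ a x) else 0 := by
    rw [← sum_sub_distrib]
    exact sum_congr rfl fun a _ => by split_ifs <;> simp
  simp only [Sop, Pi.sub_apply] at this ⊢
  rw [this]
  ring

theorem main (hD : 1 ≤ D) {β : ℝ} (hβ : β ^ 2 = 1 - 1 / (40000 * D ^ 2)) {U : Finset X} {f : X → ℝ}
    (hf : ∀ x ∉ U, f x = 0) (j : ℕ) (W : Finset X) :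
    ∑ x ∈ W, (s.B^[j] f x - s.E f x) ^ 2 ≤ (β ^ j) ^ 2 * ∑ x ∈ U, f x ^ 2 := by
  obtain ⟨S, hU, hS⟩ := s.exists_sat U
  have h1 : ∀ x ∉ S, f x = 0 := fun x hx => hf x fun h => hx (hU h)
  have h2 : ∀ Y ∈ s.blk, ∑ x ∈ Y, (f - s.E f) x = 0 := fun Y hY => by
    simp only [Pi.sub_apply, sum_sub_distrib]
    rw [sum_congr rfl fun x hx => show s.E f x = (∑ y ∈ Y, f y) / Y.card by rw [E, s.cl_eq hY hx],
      sum_const, nsmul_eq_mul]
    rcases Y.eq_empty_or_nonempty with rfl | hne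
    · simp
    · rw [mul_div_cancel₀ _ (by exact_mod_cast hne.card_pos.ne'), sub_self]
  obtain ⟨V, a1, -, a2⟩ := s.iter hD hβ (U := S) (f := f - s.E f) (fun x hx => by
    by_cases h : ∀ Y ∈ s.blk, x ∉ Y
    · simp [h1 x hx, E, s.cl_off h]
    · push Not at h
      obtain ⟨Y, hY, hx'⟩ := h
      rw [Pi.sub_apply, h1 x hx, E, s.cl_eq hY hx',
        sum_eq_zero fun y hy => h1 y fun h' => hx (hS Y hY y hy h' hx')]
      simp) h2 j
  have a3 : s.B^[j] (f - s.E f) = s.B^[j] f - s.E f := by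
    clear a1 a2
    induction j with
    | zero => rfl
    | succ j ih => rw [Function.iterate_succ_apply', Function.iterate_succ_apply', ih, B_sub, B_E]
  have a4 : 0 ≤ ∑ x ∈ S, (f x ^ 2 - (f - s.E f) x ^ 2) := by
    refine s.pieces _ hS (sum_nonneg fun x hx => ?_) fun Y hY _ => ?_
    · simp [E, s.cl_off (mem_filter.1 hx).2]
    · have b1 : ∀ x ∈ Y, 2 * ((∑ y ∈ Y, f y) / Y.card) * (f - s.E f) x ≤
          f x ^ 2 - (f - s.E f) x ^ 2 := fun x hx => by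
        rw [Pi.sub_apply, E, s.cl_eq hY hx]
        nlinarith [sq_nonneg ((∑ y ∈ Y, f y) / Y.card)]
      have := sum_le_sum b1
      rwa [← mul_sum, h2 Y hY, mul_zero] at this
  have a5 : ∑ x ∈ U, f x ^ 2 = ∑ x ∈ S, f x ^ 2 := sum_subset hU fun x _ hx => by simp [hf x hx]
  rw [a3] at a1 a2
  rw [sum_sub_distrib] at a4
  calc _ ≤ ∑ x ∈ W ∪ V, (s.B^[j] f - s.E f) x ^ 2 :=
        sum_le_sum_of_subset_of_nonneg subset_union_left fun _ _ _ => sq_nonneg _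
    _ = ∑ x ∈ V, (s.B^[j] f - s.E f) x ^ 2 :=
        (sum_subset subset_union_right fun x _ hx => by rw [a1 x hx]; simp).symm
    _ ≤ _ := a2.trans (mul_le_mul_of_nonneg_left (by linarith) (sq_nonneg _))

end Gp.Sys

theorem gap : GapStmt := by
  intro D hD
  have hD' : (1 : ℝ) ≤ D := by exact_mod_cast hD
  have h0 : (0 : ℝ) < 1 / (40000 * D ^ 2) := by positivity
  have h1 : (1 : ℝ) / (40000 * D ^ 2) ≤ 1 := by rw [div_le_one (by positivity)]; nlinarith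
  have hβ := Real.sq_sqrt (sub_nonneg.2 h1)
  have hβ0 := Real.sqrt_nonneg (1 - 1 / (40000 * D ^ 2))
  generalize √(1 - 1 / (40000 * D ^ 2)) = β at *
  have hβ1 : β < 1 := by nlinarith
  refine ⟨β, hβ0, hβ1, fun X Λ _ ι σ O deg blk h1 h2 h3 h4 h5 h6 h7 h8 => ?_⟩
  let s : Gp.Sys X Λ D := ⟨ι, σ, O, deg, blk, h1, h2, h3, h4, h5, h6, h7, h8⟩
  have hd : ∀ x, Diag β (Sop σ O deg D) x (s.E (fun y => if y = x then 1 else 0) x) := fun x j => by
    have := s.main hD hβ (U := {x}) (f := fun y => if y = x then 1 else 0)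
      (fun y hy => if_neg (by simpa using hy)) j {x}
    simp only [sum_singleton, if_true, one_pow, mul_one] at this
    exact abs_le_of_sq_le_sq' this (by positivity) |> abs_le.2
  refine ⟨fun U W f j hf => ?_, fun Y hY x hx => ?_, fun x hx => ?_⟩
  · have a1 := s.main hD hβ hf j W
    have a2 := s.main hD hβ hf (j + 1) W
    have a3 : (β ^ (j + 1)) ^ 2 * ∑ x ∈ U, f x ^ 2 ≤ (β ^ j) ^ 2 * ∑ x ∈ U, f x ^ 2 := by
      gcongr ?_ ^ 2 * _
      exact pow_le_pow_of_le_one hβ0 hβ1.le (by omega)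
    have a4 : ∑ x ∈ W, (s.B^[j + 1] f x - s.B^[j] f x) ^ 2 ≤
        ∑ x ∈ W, (2 * (s.B^[j + 1] f x - s.E f x) ^ 2 + 2 * (s.B^[j] f x - s.E f x) ^ 2) :=
      sum_le_sum fun x _ => by nlinarith [sq_nonneg (s.B^[j + 1] f x + s.B^[j] f x - 2 * s.E f x)]
    rw [sum_add_distrib, ← mul_sum, ← mul_sum] at a4
    refine a4.trans ?_
    linarith
  · have := hd x
    rwa [Gp.Sys.E, s.cl_eq hY hx, sum_ite_eq' , if_pos hx] at this
  · have := hd x
    rwa [Gp.Sys.E, s.cl_off hx, sum_empty, zero_div] at this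

end Vale.Agent.P089
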