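import Vale.Agent.P089.Spec
import Vale.Agent.P194.Sachs

/-! Expanders of logarithmic girth by a greedy construction with a potential function. -/

namespace Vale.Agent.P089

namespace Gr

open Finset Vale.Agent.P194

/-- density bound of a set of size `u` among the allowed targets -/
noncomputable def pp (N u : ℕ) : ℝ := 50 * u / (49 * N)

/-- weight of an inner edge -/
noncomputable def th (N u : ℕ) : ℝ := if pp N u ≤ 1 / 4 then 1 / pp N u else 2

/-- weight of an edge not yet placed -/
noncomputable def rh (N u : ℕ) : ℝ := 1 + (th N u - 1) * pp N u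

theorem pp_pos {N u : ℕ} (hN : 0 < N) (hu : 0 < u) : 0 < pp N u := by
  unfold pp
  positivity

theorem th_ge {N u : ℕ} (hN : 0 < N) (hu : 0 < u) : 1 ≤ th N u := by
  unfold th
  have := pp_pos hN hu
  split_ifs with h
  · rw [le_div_iff₀ this]
    linarith
  · norm_num

theorem rh_ge {N u : ℕ} (hN : 0 < N) (hu : 0 < u) : 1 ≤ rh N u := by
  unfold rh
  have h1 := pp_pos hN hu
  have h2 := th_ge hN hu
  nlinarith

theorem ratio {N u : ℕ} (hN : 0 < N) (hu : 0 < u) (h : 4 * u ≤ 3 * N) :
    (rh N u ^ 10 / th N u ^ 9) ^ 11 ≤ u / (12 * N) := by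
  have h1 := pp_pos hN hu
  have hN' : (0 : ℝ) < N := by exact_mod_cast hN
  have h' : (4 : ℝ) * u ≤ 3 * N := by exact_mod_cast h
  have e : (u : ℝ) / (12 * N) = pp N u * (49 / 600) := by
    unfold pp
    field_simp
    norm_num
  have h2 : pp N u ≤ 77 / 100 := by
    unfold pp
    rw [div_le_iff₀ (by positivity)]
    linarith
  have h3 := rh_ge hN hu
  rw [e]
  unfold rh th at *
  generalize pp N u = p at *
  split_ifs at h3 ⊢ with hp
  · have e1 : 1 + (1 / p - 1) * p = 2 - p := by
      field_simp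
      ring
    rw [e1] at h3 ⊢
    have e2 : (2 - p) ^ 10 / (1 / p) ^ 9 = (2 - p) ^ 10 * p ^ 8 * p := by
      field_simp
    have b1 : (2 - p) ^ 10 ≤ 2 ^ 10 := pow_le_pow_left₀ (by linarith) (by linarith) _
    have b2 : p ^ 8 ≤ (1 / 4) ^ 8 := pow_le_pow_left₀ h1.le hp _
    have b3 : (2 - p) ^ 10 * p ^ 8 ≤ 2 ^ 10 * (1 / 4) ^ 8 :=
      mul_le_mul b1 b2 (by positivity) (by positivity)
    have b4 : (2 - p) ^ 10 * p ^ 8 * p ≤ 1 / 64 * p :=
      mul_le_mul_of_nonneg_right (b3.trans (by norm_num)) h1.le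
    have b0 : 0 ≤ (2 - p) ^ 10 * p ^ 8 * p := by
      have : 0 ≤ 2 - p := by linarith
      positivity
    rw [e2]
    generalize (2 - p) ^ 10 * p ^ 8 * p = r at *
    have b5 : r ^ 11 ≤ r ^ 1 := pow_le_pow_of_le_one b0 (by linarith) (by norm_num)
    rw [pow_one] at b5
    linarith
  · have b1 : (1 + (2 - 1) * p) ^ 10 ≤ (177 / 100) ^ 10 :=
      pow_le_pow_left₀ (by linarith) (by linarith) _
    have b2 : (1 + (2 - 1) * p) ^ 10 / 2 ^ 9 ≤ 3 / 5 := by
      rw [div_le_iff₀ (by positivity)]
      exact b1.trans (by norm_num)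
    have b3 : ((1 + (2 - 1) * p) ^ 10 / 2 ^ 9) ^ 11 ≤ (3 / 5) ^ 11 :=
      pow_le_pow_left₀ (by positivity) b2 _
    have b4 : (3 / 5 : ℝ) ^ 11 ≤ 1 / 4 * (49 / 600) := by norm_num
    push Not at hp
    linarith

theorem chs {N : ℕ} (hN : 0 < N) (u : ℕ) :
    (N.choose u : ℝ) * ((u : ℝ) / (12 * N)) ^ u ≤ (1 / 4) ^ u := by
  have hN' : (0 : ℝ) < N := by exact_mod_cast hN
  have h1 : (N.choose u : ℝ) ≤ (N : ℝ) ^ u / u.factorial := by
    exact_mod_cast Nat.choose_le_pow_div (α := ℝ) u N
  have h2 : (u : ℝ) ^ u / u.factorial ≤ 3 ^ u := by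
    refine (Real.pow_div_factorial_le_exp (u : ℝ) (Nat.cast_nonneg u) u).trans ?_
    rw [← Real.exp_one_pow]
    exact pow_le_pow_left₀ (Real.exp_pos 1).le Real.exp_one_lt_three.le _
  calc (N.choose u : ℝ) * ((u : ℝ) / (12 * N)) ^ u
      ≤ (N : ℝ) ^ u / u.factorial * ((u : ℝ) / (12 * N)) ^ u :=
        mul_le_mul_of_nonneg_right h1 (by positivity)
    _ = (u : ℝ) ^ u / u.factorial * (1 / 12) ^ u := by
        rw [div_pow, mul_pow, div_pow, one_pow]
        field_simp
    _ ≤ 3 ^ u * (1 / 12) ^ u := mul_le_mul_of_nonneg_right h2 (by positivity)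
    _ = (1 / 4) ^ u := by rw [← mul_pow]; norm_num

theorem geo (n : ℕ) : ∑ u ∈ range (n + 1), (if u = 0 then (0 : ℝ) else (1 / 4) ^ u) ≤
    1 / 3 - (1 / 4) ^ n / 3 := by
  induction n with
  | zero => simp
  | succ n ih =>
    rw [sum_range_succ, if_neg (Nat.succ_ne_zero n), pow_succ]
    linarith

variable {N : ℕ}

/-- the tested vertex sets -/
def fam (N : ℕ) : Finset (Finset (Fin N)) := univ.filter fun U => 0 < U.card ∧ 4 * U.card ≤ 3 * N

/-- weight of one edge -/
noncomputable def tw (U : Finset (Fin N)) (F : Finset (Fin N × Fin 110))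
    (f : Fin N × Fin 110 → Fin N) (e : Fin N × Fin 110) : ℝ :=
  if e.1 ∈ U then (if e ∈ F then (if f e ∈ U then th N U.card else 1) else rh N U.card) else 1

/-- the potential -/
noncomputable def Phi (F : Finset (Fin N × Fin 110)) (f : Fin N × Fin 110 → Fin N) : ℝ :=
  ∑ U ∈ fam N, (∏ e, tw U F f e) / th N U.card ^ (99 * U.card)

theorem phi_empty (hN : 0 < N) (f : Fin N × Fin 110 → Fin N) : Phi ∅ f < 1 := by
  have h1 : ∀ U ∈ fam N, (∏ e, tw U ∅ f e) / th N U.card ^ (99 * U.card) ≤
      (if U.card = 0 then (0 : ℝ) else ((U.card : ℝ) / (12 * N)) ^ U.card) := by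
    intro U hU
    obtain ⟨hu, h⟩ := (mem_filter.1 hU).2
    have e1 : ∏ e, tw U ∅ f e = rh N U.card ^ (110 * U.card) := by
      simp only [tw, notMem_empty, if_false]
      rw [Fintype.prod_prod_type]
      have e0 : ∀ x : Fin N, (∏ _i : Fin 110, if x ∈ U then rh N U.card else 1) =
          if x ∈ U then rh N U.card ^ 110 else 1 := by
        intro x
        rw [prod_const, card_univ, Fintype.card_fin]
        split_ifs
        · rfl
        · exact one_pow _
      refine (prod_congr rfl fun x _ => e0 x).trans ?_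
      rw [prod_ite_mem, univ_inter, prod_const, ← pow_mul]
    have e2 : rh N U.card ^ (110 * U.card) / th N U.card ^ (99 * U.card) =
        ((rh N U.card ^ 10 / th N U.card ^ 9) ^ 11) ^ U.card := by
      have n1 : 110 * U.card = 10 * (11 * U.card) := by omega
      have n2 : 99 * U.card = 9 * (11 * U.card) := by omega
      rw [n1, n2, ← pow_mul, div_pow, ← pow_mul, ← pow_mul]
    rw [e1, e2, if_neg hu.ne']
    have h3 := rh_ge hN hu
    have h4 := th_ge hN hu
    exact pow_le_pow_left₀ (by positivity) (ratio hN hu h) _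
  have h2 : Phi ∅ f ≤ ∑ U ∈ (univ : Finset (Fin N)).powerset,
      (if U.card = 0 then (0 : ℝ) else ((U.card : ℝ) / (12 * N)) ^ U.card) := by
    refine (sum_le_sum h1).trans (sum_le_sum_of_subset_of_nonneg ?_ ?_)
    · intro U _
      exact mem_powerset.2 (subset_univ _)
    · intro U _ _
      split_ifs <;> positivity
  rw [sum_powerset_apply_card
    (fun u : ℕ => if u = 0 then (0 : ℝ) else ((u : ℝ) / (12 * N)) ^ u)] at h2
  have h3 : ∑ u ∈ range ((univ : Finset (Fin N)).card + 1), (univ : Finset (Fin N)).card.choose u •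
      (if u = 0 then (0 : ℝ) else ((u : ℝ) / (12 * N)) ^ u) ≤
      ∑ u ∈ range (N + 1), (if u = 0 then (0 : ℝ) else (1 / 4) ^ u) := by
    rw [card_univ, Fintype.card_fin]
    refine sum_le_sum fun u _ => ?_
    split_ifs
    · simp
    · rw [nsmul_eq_mul]
      exact chs hN u
  have h4 := geo N
  have h5 : (0 : ℝ) ≤ (1 / 4) ^ N / 3 := by positivity
  linarith

theorem tw_pos (hN : 0 < N) {U : Finset (Fin N)} (hu : 0 < U.card) (F : Finset (Fin N × Fin 110))
    (f : Fin N × Fin 110 → Fin N) (e : Fin N × Fin 110) : 0 ≤ tw U F f e := by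
  have h3 := rh_ge hN hu
  have h4 := th_ge hN hu
  unfold tw
  split_ifs <;> linarith

theorem phi_univ (hN : 0 < N) (f : Fin N × Fin 110 → Fin N) (h : Phi univ f < 1)
    (U : Finset (Fin N)) (hU : 4 * U.card ≤ 3 * N) :
    10 * (univ.filter fun e => e.1 ∈ U ∧ f e ∈ U).card ≤ 9 * 110 * U.card := by
  rcases Nat.eq_zero_or_pos U.card with h0 | hu
  · rw [card_eq_zero] at h0
    subst h0
    simp
  have hm : U ∈ fam N := mem_filter.2 ⟨mem_univ _, hu, hU⟩
  have h4 := th_ge hN hu
  have h1 : (∏ e, tw U univ f e) / th N U.card ^ (99 * U.card) ≤ Phi univ f := by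
    refine single_le_sum (f := fun U : Finset (Fin N) =>
      (∏ e, tw U univ f e) / th N U.card ^ (99 * U.card)) (fun V hV => ?_) hm
    have hv := (mem_filter.1 hV).2.1
    have h5 := th_ge hN hv
    exact div_nonneg (prod_nonneg fun e _ => tw_pos hN hv _ _ _) (by positivity)
  have e1 : ∏ e, tw U univ f e =
      th N U.card ^ (univ.filter fun e => e.1 ∈ U ∧ f e ∈ U).card := by
    rw [← prod_const, prod_filter]
    refine prod_congr rfl fun e _ => ?_
    unfold tw
    by_cases a : e.1 ∈ U <;> by_cases b : f e ∈ U <;> simp [a, b]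
  rw [e1] at h1
  by_contra hc
  have h2 : th N U.card ^ (99 * U.card) ≤
      th N U.card ^ (univ.filter fun e => e.1 ∈ U ∧ f e ∈ U).card :=
    pow_le_pow_right₀ h4 (by omega)
  have h3 := (one_le_div (by positivity)).2 h2
  linarith

theorem phi_step (hN : 0 < N) (F : Finset (Fin N × Fin 110)) (f : Fin N × Fin 110 → Fin N)
    (e : Fin N × Fin 110) (he : e ∉ F) (A : Finset (Fin N)) (hA : 49 * N ≤ 50 * A.card) :
    ∃ y ∈ A, Phi (insert e F) (Function.update f e y) ≤ Phi F f := by
  have hne : A.Nonempty := card_pos.1 (by omega)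
  refine exists_le_of_sum_le hne ?_
  unfold Phi
  rw [sum_comm, sum_comm (s := A)]
  refine sum_le_sum fun U hU => ?_
  have hu := (mem_filter.1 hU).2.1
  have h4 := th_ge hN hu
  have e1 : ∀ y, ∏ e', tw U (insert e F) (Function.update f e y) e' =
      (if e.1 ∈ U then (if y ∈ U then th N U.card else 1) else 1) *
        ∏ e' ∈ univ.erase e, tw U F f e' := by
    intro y
    rw [← mul_prod_erase univ _ (mem_univ e)]
    congr 1
    · simp [tw]
    · refine prod_congr rfl fun e' h' => ?_
      have h'' : e' ≠ e := ne_of_mem_erase h'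
      simp [tw, h'']
  have e2 : ∏ e', tw U F f e' =
      (if e.1 ∈ U then rh N U.card else 1) * ∏ e' ∈ univ.erase e, tw U F f e' := by
    rw [← mul_prod_erase univ _ (mem_univ e)]
    congr 1
    simp [tw, he]
  have hR : 0 ≤ ∏ e' ∈ univ.erase e, tw U F f e' := prod_nonneg fun e' _ => tw_pos hN hu _ _ _
  simp only [e1, e2]
  rw [← sum_div, ← sum_div, ← sum_mul, ← sum_mul]
  refine div_le_div_of_nonneg_right (mul_le_mul_of_nonneg_right ?_ hR) (by positivity)
  split_ifs with hx
  · have a1 : ∀ y ∈ A, (if y ∈ U then th N U.card else 1) =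
        1 + (th N U.card - 1) * (if y ∈ U then 1 else 0) := by
      intro y _
      split_ifs <;> ring
    rw [sum_congr rfl a1, sum_add_distrib, ← mul_sum, sum_boole, sum_const, sum_const,
      nsmul_eq_mul, nsmul_eq_mul, rh]
    have a2 : ((A.filter fun y => y ∈ U).card : ℝ) ≤ U.card := by
      exact_mod_cast card_le_card fun y hy => (mem_filter.1 hy).2
    have hN' : (0 : ℝ) < N := by exact_mod_cast hN
    have hA' : (49 : ℝ) * N ≤ 50 * A.card := by exact_mod_cast hA
    have a3 : (U.card : ℝ) ≤ A.card * pp N U.card := by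
      unfold pp
      rw [← mul_div_assoc, le_div_iff₀ (by positivity)]
      have : (0 : ℝ) ≤ U.card := Nat.cast_nonneg _
      nlinarith
    have a4 : (th N U.card - 1) * ((A.filter fun y => y ∈ U).card : ℝ) ≤
        (th N U.card - 1) * (A.card * pp N U.card) :=
      mul_le_mul_of_nonneg_left (a2.trans a3) (by linarith)
    linarith
  · exact le_rfl

/-- the graph of the placed edges -/
def GF (F : Finset (Fin N × Fin 110)) (f : Fin N × Fin 110 → Fin N) :
    Fin N → (Fin N × Fin 110) × Bool → Fin N → Prop :=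
  fun x a y => a.1 ∈ F ∧ G0 f x a y

theorem gf_symm (F : Finset (Fin N × Fin 110)) (f : Fin N × Fin 110 → Fin N) :
    Symm flp (GF F f) := by
  rintro x ⟨e, b⟩ y ⟨h1, h2⟩
  refine ⟨h1, ?_⟩
  cases b
  · simp only [G0, flp] at h2 ⊢
    simpa using And.symm (by simpa using h2)
  · simp only [G0, flp] at h2 ⊢
    simpa using And.symm (by simpa using h2)

theorem gf_det (F : Finset (Fin N × Fin 110)) (f : Fin N × Fin 110 → Fin N) : Det (GF F f) := by
  rintro x ⟨e, b⟩ y y' ⟨-, h⟩ ⟨-, h'⟩
  cases b
  · simp only [G0, Bool.false_eq_true, if_false] at h h'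
    exact h.2.trans h'.2.symm
  · simp only [G0, if_true] at h h'
    exact h.2.trans h'.2.symm

theorem gf_deg (F : Finset (Fin N × Fin 110)) (f : Fin N × Fin 110 → Fin N)
    (h : ∀ y, (F.filter fun e => f e = y).card ≤ 99 * 110) (v : Fin N) :
    {a | ∃ y, GF F f v a y}.ncard ≤ 100 * 110 := by
  have hs : {a | ∃ y, GF F f v a y} ⊆
      ↑((univ.image fun i : Fin 110 => (((v, i), true) : (Fin N × Fin 110) × Bool)) ∪
        ((F.filter fun e => f e = v).image fun e => (e, false))) := by
    rintro ⟨⟨x, i⟩, b⟩ ⟨y, h1, h2⟩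
    rw [mem_coe, mem_union]
    cases b
    · simp only [G0, Bool.false_eq_true, if_false] at h2
      exact Or.inr (mem_image.2 ⟨(x, i), mem_filter.2 ⟨h1, h2.1.symm⟩, rfl⟩)
    · simp only [G0, if_true] at h2
      exact Or.inl (mem_image.2 ⟨i, mem_univ _, by rw [h2.1]⟩)
  refine (Set.ncard_le_ncard hs (Set.toFinite _)).trans ?_
  rw [Set.ncard_coe_finset]
  refine (card_union_le _ _).trans ?_
  have a1 := card_image_le (s := (univ : Finset (Fin 110)))
    (f := fun i : Fin 110 => (((v, i), true) : (Fin N × Fin 110) × Bool))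
  have a2 := card_image_le (s := F.filter fun e => f e = v)
    (f := fun e => ((e, false) : (Fin N × Fin 110) × Bool))
  rw [card_univ, Fintype.card_fin] at a1
  have := h v
  omega

theorem gf_add (F : Finset (Fin N × Fin 110)) (f : Fin N × Fin 110 → Fin N)
    (e : Fin N × Fin 110) (z : Fin N) (x : Fin N) (a : (Fin N × Fin 110) × Bool) (y : Fin N)
    (h : GF (insert e F) (Function.update f e z) x a y) :
    AddE flp (GF F f) e.1 (e, true) z x a y := by
  obtain ⟨e', b⟩ := a
  obtain ⟨h1, h2⟩ := h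
  by_cases hee : e' = e
  · subst hee
    refine Or.inr ?_
    cases b
    · simp only [G0, Bool.false_eq_true, if_false, Function.update_self] at h2
      exact Or.inr ⟨h2.1, rfl, h2.2⟩
    · simp only [G0, if_true, Function.update_self] at h2
      exact Or.inl ⟨h2.1, rfl, h2.2⟩
  · refine Or.inl ⟨(mem_insert.1 h1).resolve_left hee, ?_⟩
    simpa only [G0, Function.update_of_ne hee] using h2

theorem sat (F : Finset (Fin N × Fin 110)) (f : Fin N × Fin 110 → Fin N) :
    99 * (univ.filter fun y => 99 * 110 ≤ (F.filter fun e => f e = y).card).card ≤ N := by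
  have h1 : ∑ y, (F.filter fun e => f e = y).card = F.card :=
    (card_eq_sum_card_fiberwise (f := f) (s := F) (t := univ) (fun _ _ => mem_coe.2 (mem_univ _))).symm
  have h2 : F.card ≤ N * 110 := by
    simpa using card_le_univ F
  have h3 : (univ.filter fun y => 99 * 110 ≤ (F.filter fun e => f e = y).card).card * (99 * 110) ≤
      ∑ y, (F.filter fun e => f e = y).card := by
    rw [← smul_eq_mul, ← sum_const]
    refine (sum_le_sum fun y hy => (mem_filter.1 hy).2).trans ?_
    exact sum_le_sum_of_subset (filter_subset _ _)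
  omega

theorem build (g : ℕ) (hg : 1000 * (101 * 110) ^ (g + 1) ≤ N) (F : Finset (Fin N × Fin 110)) :
    ∃ f : Fin N × Fin 110 → Fin N, (∀ y, (F.filter fun e => f e = y).card ≤ 99 * 110) ∧
      Girth flp (GF F f) g ∧ Phi F f < 1 := by
  classical
  have hp : 0 < (101 * 110) ^ (g + 1) := by positivity
  have hN : 0 < N := by omega
  induction F using Finset.induction_on with
  | empty =>
    refine ⟨fun e => e.1, fun y => by simp, ?_, phi_empty hN _⟩
    intro x w _ hw _
    cases w with
    | nil => rfl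
    | cons a w =>
      obtain ⟨y, h, -⟩ := path_cons_iff.1 hw
      exact absurd h.1 (notMem_empty _)
  | insert e F he ih =>
    obtain ⟨f, h1, h2, h3⟩ := ih
    let S : Finset (Fin N) := univ.filter fun y => 99 * 110 ≤ (F.filter fun e => f e = y).card
    let Bl : Finset (Fin N) := univ.filter fun y =>
      ∃ w : List ((Fin N × Fin 110) × Bool), w.length ≤ g ∧ Path (GF F f) e.1 w y
    have hS : 99 * S.card ≤ N := sat F f
    have hB : 1000 * Bl.card ≤ N := by
      have b1 := ball_ncard (gf_det F f) (gf_deg F f h1) g e.1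
      have b2 : Bl.card ≤ (100 * 110 + 1) ^ g := by
        refine le_trans (le_of_eq ?_) b1
        rw [← Set.ncard_coe_finset]
        congr 1
        ext y
        simp only [Bl, coe_filter, mem_univ, true_and]
      have b3 : (100 * 110 + 1) ^ g ≤ (101 * 110) ^ (g + 1) :=
        (Nat.pow_le_pow_left (by norm_num) g).trans (Nat.pow_le_pow_right (by norm_num) (by omega))
      omega
    have hA : 49 * N ≤ 50 * (univ \ (S ∪ Bl)).card := by
      have a1 := card_union_le S Bl
      have a2 := card_sdiff_add_card_eq_card (subset_univ (S ∪ Bl))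
      rw [card_univ, Fintype.card_fin] at a2
      omega
    obtain ⟨y, hy, hphi⟩ := phi_step hN F f e he _ hA
    have hy' := (mem_sdiff.1 hy).2
    rw [mem_union, not_or] at hy'
    refine ⟨Function.update f e y, fun z => ?_, ?_, hphi.trans_lt h3⟩
    · have c1 : (F.filter fun e' => Function.update f e y e' = z) = F.filter fun e' => f e' = z := by
        refine filter_congr fun e' h' => ?_
        have hne : e' ≠ e := fun h => he (h ▸ h')
        rw [Function.update_of_ne hne]
      rw [filter_insert, c1, Function.update_self]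
      split_ifs with hz
      · subst hz
        have c2 : ¬ 99 * 110 ≤ (F.filter fun e => f e = y).card :=
          fun h => hy'.1 (mem_filter.2 ⟨mem_univ _, h⟩)
        have c3 := card_insert_le e (F.filter fun e => f e = y)
        omega
      · exact h1 z
    · have hfar : ∀ w, Path (GF F f) e.1 w y → g ≤ w.length + 1 := by
        intro w hw
        by_contra hc
        exact hy'.2 (mem_filter.2 ⟨mem_univ _, w, by omega, hw⟩)
      have := addE_girth (s := (e, true)) flp_flp (gf_symm F f) h2 hfar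
      intro x w hr hw hl
      exact this x w hr (hw.mono (gf_add F f e y)) hl

end Gr

open Gr Vale.Agent.P194 in
theorem graph_exists : GraphStmt := by
  refine ⟨110, by norm_num, fun g N hg => ?_⟩
  obtain ⟨f, h1, h2, h3⟩ := build g hg Finset.univ
  have hp : 0 < (101 * 110) ^ (g + 1) := by positivity
  refine ⟨f, fun y => (h1 y).trans (by norm_num), ?_, phi_univ (by omega) f h3⟩
  intro x w hr hw hl
  exact h2 x w hr (hw.mono fun x a y h => ⟨Finset.mem_univ _, h⟩) hl

end Vale.Agent.P089
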