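import Vale.Agent.P089.K1

/-! Isoperimetric inequality by levels: growth, expansion and the code. -/

namespace Vale.Agent.P089

namespace Ch

open Vale.Agent.P194 Classical Finset

variable {F : Dat} {H : Type} [Group H] {gl : Ltr F.k → H} {lev : H → ℕ}

/-- no short path below level `K` -/
def Deep (F : Dat) (lev : H → ℕ) (K : ℕ) {n : ℕ} (φ : Fin (F.N n) → H) (u : Fin (F.N n)) : Prop :=
  ∀ w y, Path (F.Γ n) u w y → w.length ≤ F.P n → ¬ lev (φ y) < K

theorem deep_edge (hL : F.Lev gl lev) {ω : Cfg H (Ltr F.k)} {V : Finset H} {n : ℕ}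
    {φ : Fin (F.N n) → H} (c : F.Cp gl n φ) {K : ℕ} (hK : ∀ z ∈ V, lev z ≤ K) {r u : Fin (F.N n)}
    (hr : lev (φ r) < K) (hu : Deep F lev K φ u) {a : Ltr F.k} (ha : a ∈ ltr gl ω V (φ u)) :
    ∃ u', F.Γ n u a u' ∧ φ u' ∈ V := by
  rw [mem_ltr] at ha
  have h1 : ¬ lev (φ u) < K := hu [] u (Path.nil _) (Nat.zero_le _)
  have h2 : lev (φ u) = K := by
    have := hL.top n φ u r c
    omega
  obtain ⟨n', φ', v, v', y, c', e, g, hy⟩ := hL.edge (φ u) a ha.1.1.1 (h2 ▸ hK _ ha.2)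
  rcases hL.shared n φ u r n' φ' v y c c' e.symm (h2 ▸ hr) hy with h | ⟨t, x, x', -, l1, -, q, -, a3⟩
  · obtain ⟨rfl, h3⟩ := Sigma.mk.inj h
    obtain rfl := eq_of_heq h3
    obtain rfl := hL.inj _ _ c e
    exact ⟨v', g, c _ _ _ g ▸ ha.2⟩
  · exact absurd (h2 ▸ a3) (hu t x q l1)

theorem grow (hL : F.Lev gl lev) {ω : Cfg H (Ltr F.k)} {V : Finset H}
    (hV : ∀ z ∈ V, 99 * F.m < 100 * (ltr gl ω V z).card) {n : ℕ}
    {φ : Fin (F.N n) → H} (c : F.Cp gl n φ) {K : ℕ} (hK : ∀ z ∈ V, lev z ≤ K) {r v : Fin (F.N n)}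
    (hr : lev (φ r) < K) (hv : φ v ∈ V)
    (hf : ∀ w y, Path (F.Γ n) v w y → w.length ≤ 11 * F.P n → ¬ lev (φ y) < K) (i : ℕ)
    (hi : i ≤ 10 * F.P n) : ∃ L : Finset (List (Ltr F.k)), (F.m / 2) ^ i ≤ L.card ∧
      ∀ w ∈ L, Red flp w ∧ w.length = i ∧ ∃ u, Path (F.Γ n) u w v ∧ φ u ∈ V := by
  induction i with
  | zero =>
    refine ⟨{[]}, by simp, fun w hw => ?_⟩
    rw [mem_singleton.1 hw]
    exact ⟨red_nil, rfl, v, Path.nil _, hv⟩
  | succ i ih =>
    obtain ⟨L, h1, h2⟩ := ih (by omega)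
    let E : List (Ltr F.k) → Finset (Ltr F.k) := fun w =>
      univ.filter fun a => Red flp (a :: w) ∧ ∃ u, Path (F.Γ n) u (a :: w) v ∧ φ u ∈ V
    have hE : ∀ w ∈ L, F.m / 2 ≤ (E w).card := by
      intro w hw
      obtain ⟨rw, lw, u, p, hu⟩ := h2 w hw
      have hd : Deep F lev K φ u := fun t y q l =>
        hf _ y ((p.inv (F.xg n).symm).append q) (by simp; omega)
      have a1 : (ltr gl ω V (φ u) \ w.head?.toFinset).card ≤ (E w).card := by
        refine card_le_card_of_injOn flp (fun a ha => ?_) fun a _ b _ e => ?_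
        · obtain ⟨b1, b2⟩ := mem_sdiff.1 (mem_coe.1 ha)
          obtain ⟨u', g, hu'⟩ := deep_edge hL c hK hr hd b1
          refine mem_coe.2 (mem_filter.2 ⟨mem_univ _, red_cons_iff.2 ⟨fun b hb e => b2 ?_, rw⟩,
            u', Path.cons ((F.xg n).symm _ _ _ g) p, hu'⟩)
          rw [flp_flp] at e
          rw [Option.mem_toFinset, ← e]
          exact hb
        · rw [← flp_flp a, e, flp_flp]
      have a2 : (w.head?.toFinset).card ≤ 1 := by
        cases w.head? <;> simp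
      have a3 := le_card_sdiff w.head?.toFinset (ltr gl ω V (φ u))
      have a4 := hV _ hu
      have := F.hm
      omega
    refine ⟨L.biUnion fun w => (E w).image fun a => a :: w, ?_, fun w hw => ?_⟩
    · rw [card_biUnion]
      · calc (F.m / 2) ^ (i + 1) = (F.m / 2) ^ i * (F.m / 2) := pow_succ _ _
          _ ≤ L.card * (F.m / 2) := Nat.mul_le_mul_right _ h1
          _ = ∑ _w ∈ L, F.m / 2 := by rw [sum_const, smul_eq_mul]
          _ ≤ _ := sum_le_sum fun w hw => by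
              rw [card_image_of_injective _ fun a b e => (List.cons.inj e).1]
              exact hE w hw
      · intro w _ w' _ hne
        simp only [Function.onFun, disjoint_left, mem_image]
        rintro _ ⟨a, -, rfl⟩ ⟨b, -, e⟩
        exact hne (List.cons.inj e).2.symm
    · obtain ⟨w0, h0, h3⟩ := mem_biUnion.1 hw
      obtain ⟨a, ha, rfl⟩ := mem_image.1 h3
      obtain ⟨b1, b2⟩ := (mem_filter.1 ha).2
      exact ⟨b1, by simp [(h2 w0 h0).2.1], b2⟩

theorem shallow (hL : F.Lev gl lev) {n : ℕ} {φ : Fin (F.N n) → H} (c : F.Cp gl n φ)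
    {r v : Fin (F.N n)} (hr : lev (φ r) < lev (φ v)) :
    11 * (univ.filter fun u => ¬ Deep F lev (lev (φ v)) φ u).card ≤ (F.m / 2) ^ (10 * F.P n) := by
  have h1 := ball_ncard (F.xg n).det (F.xg n).deg (3 * F.P n) r
  have h2 : (univ.filter fun u => ¬ Deep F lev (lev (φ v)) φ u).card ≤ (F.d + 1) ^ (3 * F.P n) := by
    refine le_trans ?_ h1
    rw [← Set.ncard_coe_finset]
    refine Set.ncard_le_ncard (fun u hu => ?_) (Set.toFinite _)
    have h3 := (mem_filter.1 (mem_coe.1 hu)).2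
    unfold Deep at h3
    push Not at h3
    obtain ⟨w, y, p, l, hy⟩ := h3
    obtain ⟨t, -, lt, pt⟩ := hL.root n φ r y c (fun u => by have := hL.top n φ v u c; omega)
      (by have := hL.top n φ v r c; omega)
    exact ⟨_, by simp; omega, pt.of_res.append (p.inv (F.xg n).symm)⟩
  have hm := F.hm
  have hd := F.hd
  have hP := F.pos n
  have a1 : 50 ≤ F.m / 2 := by omega
  have a2 : F.m ≤ 2 * (F.m / 2) + 1 := by omega
  generalize F.m / 2 = q at *
  have a3 : F.d + 1 ≤ q ^ 3 := by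
    have : F.m ^ 2 ≤ (2 * q + 1) ^ 2 := Nat.pow_le_pow_left a2 2
    nlinarith
  have a4 : (F.d + 1) ^ (3 * F.P n) ≤ q ^ (9 * F.P n) := by
    refine (Nat.pow_le_pow_left a3 _).trans (le_of_eq ?_)
    rw [← pow_mul]
    congr 1
    omega
  have a5 : 11 ≤ q ^ F.P n := le_trans (by omega) (Nat.le_self_pow (by omega) q)
  calc 11 * (univ.filter fun u => ¬ Deep F lev (lev (φ v)) φ u).card
      ≤ q ^ F.P n * q ^ (9 * F.P n) := Nat.mul_le_mul a5 (h2.trans a4)
    _ = _ := by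
      rw [← pow_add]
      congr 1
      omega

theorem full {ω : Cfg H (Ltr F.k)} (hω : ω ∈ F.Om gl) {n : ℕ} {φ : Fin (F.N n) → H}
    (c : F.Cp gl n φ) (W : Finset (Fin (F.N n))) (T : Finset (Fin (F.N n) × Fin F.k))
    (hT : ∀ p ∈ T, p.1 ∈ W ∧ (∃ u ∈ W, F.Γ n p.1 (p.2, true) u) ∧ ω (φ p.1, (p.2, true)) ≠ 0)
    (h : 9 * F.m * W.card < 10 * T.card) : F.rs φ ω = pat (F.Γ n) := by
  have h1 : 3 * F.N n < 4 * W.card := by
    by_contra hc
    have a1 := (F.xg n).exp W (by omega)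
    have a2 : T.card ≤ {p : Fin (F.N n) × Fin F.k | p.1 ∈ W ∧
        ∃ u ∈ W, F.Γ n p.1 (p.2, true) u}.ncard := by
      rw [← Set.ncard_coe_finset]
      exact Set.ncard_le_ncard (fun p hp => ⟨(hT p hp).1, (hT p hp).2.1⟩) (Set.toFinite _)
    omega
  have two : ∀ x : ZMod 2, x ≠ 0 → x + 1 = 0 := by decide
  have two' : ∀ x y : ZMod 2, x + y = 0 → x = y := by decide
  have h2 : F.rs φ ω + pat (F.Γ n) = 0 := by
    refine (F.code n).dist _ ((F.C n).add_mem (hω n φ c) (F.code n).pat) ?_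
    have a1 : {p : Fin (F.N n) × Fin F.k | p.1 ∈ (univ : Finset (Fin (F.N n))) ∧
        ∃ u, F.Γ n p.1 (p.2, true) u}.ncard = F.N n * F.m := by
      rw [ncard_pairs univ fun x (s : Fin F.k) => ∃ u, F.Γ n x (s, true) u]
      simp only [(F.xg n).out, sum_const, card_univ, Fintype.card_fin, smul_eq_mul]
    have a2 : Disjoint {p : Fin (F.N n) × Fin F.k | (∃ u, F.Γ n p.1 (p.2, true) u) ∧
        (F.rs φ ω + pat (F.Γ n)) (p.1, (p.2, true)) ≠ 0} ↑T := by
      rw [Set.disjoint_left]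
      intro p hp hp'
      refine hp.2 ?_
      have b1 : pat (F.Γ n) (p.1, (p.2, true)) = 1 := if_pos hp.1
      rw [Pi.add_apply, b1]
      exact two _ (hT p hp').2.2
    have a3 := Set.ncard_union_eq a2 (Set.toFinite _) (Set.toFinite _)
    have a4 : ({p : Fin (F.N n) × Fin F.k | (∃ u, F.Γ n p.1 (p.2, true) u) ∧
        (F.rs φ ω + pat (F.Γ n)) (p.1, (p.2, true)) ≠ 0} ∪ ↑T).ncard ≤ F.N n * F.m := by
      rw [← a1]
      refine Set.ncard_le_ncard ?_ (Set.toFinite _)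
      rintro p (hp | hp)
      · exact ⟨mem_univ _, hp.1⟩
      · obtain ⟨u, -, hu⟩ := (hT p hp).2.1
        exact ⟨mem_univ _, u, hu⟩
    rw [a3, Set.ncard_coe_finset] at a4
    have a5 := Nat.mul_le_mul_left F.m h1.le
    generalize {p : Fin (F.N n) × Fin F.k | (∃ u, F.Γ n p.1 (p.2, true) u) ∧
        (F.rs φ ω + pat (F.Γ n)) (p.1, (p.2, true)) ≠ 0}.ncard = A at *
    nlinarith
  funext p
  exact two' _ _ (congrFun h2 p)

end Ch

open Ch Vale.Agent.P194 Classical Finset in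
theorem chg : ChgStmt := by
  intro F H _ gl lev hL ω hω U hU
  by_contra hc
  obtain ⟨V, hVU, hne, hmin⟩ := minimal ω U (dense_of ω U hc)
  have hV : ∀ z ∈ V, 99 * F.m < 100 * (ltr gl ω V z).card := fun z hz =>
    many hL.inv (hmin {z} (singleton_subset_iff.2 hz) (singleton_nonempty z))
  obtain ⟨n, φ, v, r, c, hv, hK, hr, hf⟩ := far hL hne hV
  obtain ⟨L, h1, h2⟩ := grow hL hV c hK hr hv hf _ le_rfl
  let W : Finset (Fin (F.N n)) := univ.filter fun u => φ u ∈ V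
  have hP := F.pos n
  have h3 : L.card ≤ W.card := by
    refine card_le_card_of_forall_subsingleton (fun w u => Path (F.Γ n) u w v) ?_ ?_
    · intro w hw
      obtain ⟨-, -, u, p, hu⟩ := h2 w hw
      exact ⟨u, mem_filter.2 ⟨mem_univ _, hu⟩, p⟩
    · rintro u - w ⟨hw, p⟩ w' ⟨hw', p'⟩
      have a1 := h2 w hw
      have a2 := h2 w' hw'
      exact F.uniq a1.1 a2.1 p p' (by omega)
  have h4 := shallow hL c hr
  let Sh : Finset (Fin (F.N n)) := univ.filter fun u => ¬ Deep F lev (lev (φ v)) φ u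
  have h5 : 10 * W.card ≤ 11 * (W \ Sh).card := by
    have := le_card_sdiff Sh W
    change 11 * Sh.card ≤ _ at h4
    omega
  have hW : 0 < W.card := card_pos.2 ⟨v, mem_filter.2 ⟨mem_univ _, hv⟩⟩
  have h6 := hmin ((W \ Sh).image φ) (fun z hz => by
    obtain ⟨u, hu, rfl⟩ := mem_image.1 hz
    exact (mem_filter.1 (mem_sdiff.1 hu).1).2) ((card_pos.1 (by omega)).image _)
  rw [card_image_of_injective _ (hL.inj n φ c)] at h6
  let T : Finset (Fin (F.N n) × Fin F.k) := univ.filter fun p =>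
    p.1 ∈ W ∧ (∃ u ∈ W, F.Γ n p.1 (p.2, true) u) ∧ ω (φ p.1, (p.2, true)) ≠ 0
  have h7 : (eds gl ω V \ eds gl ω (V \ (W \ Sh).image φ)).card ≤ T.card := by
    refine le_trans (card_le_card fun p hp => ?_)
      (card_image_le (s := T) (f := fun p => (φ p.1, p.2)))
    obtain ⟨g, s⟩ := p
    obtain ⟨a1, a2⟩ := mem_sdiff.1 hp
    have a3 := mem_eds.1 a1
    have dp : ∀ u ∈ W \ Sh, Deep F lev (lev (φ v)) φ u := fun u hu => by
      by_contra h
      exact (mem_sdiff.1 hu).2 (mem_filter.2 ⟨mem_univ _, h⟩)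
    by_cases b1 : g ∈ (W \ Sh).image φ
    · obtain ⟨u, hu, rfl⟩ := mem_image.1 b1
      obtain ⟨u', e, hu'⟩ := deep_edge hL c hK hr (dp u hu) (mem_ltr.2 a3.2)
      exact mem_image.2 ⟨(u, s), mem_filter.2 ⟨mem_univ _, (mem_sdiff.1 hu).1,
        ⟨u', mem_filter.2 ⟨mem_univ _, hu'⟩, e⟩, a3.2.1.1.2⟩, rfl⟩
    · have b2 : gl (s, true) * g ∈ (W \ Sh).image φ := by
        by_contra b2
        exact a2 (mem_eds.2 ⟨mem_sdiff.2 ⟨a3.1, b1⟩, a3.2.1, mem_sdiff.2 ⟨a3.2.2, b2⟩⟩)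
      obtain ⟨u', hu', e'⟩ := mem_image.1 b2
      have b3 := back hL.inv a1
      simp only at b3
      rw [← e'] at b3
      obtain ⟨u, e, hu⟩ := deep_edge hL c hK hr (dp u' hu') b3
      have b4 : φ u = g := by
        have : gl (s, false) = (gl (s, true))⁻¹ := hL.inv (s, true)
        rw [c _ _ _ e, e', this, inv_mul_cancel_left]
      subst b4
      exact mem_image.2 ⟨(u, s), mem_filter.2 ⟨mem_univ _, mem_filter.2 ⟨mem_univ _, hu⟩,
        ⟨u', (mem_sdiff.1 hu').1, (F.xg n).symm _ _ _ e⟩, a3.2.1.1.2⟩, rfl⟩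
  refine hU n φ v c (full hω c W T (fun p hp => (mem_filter.1 hp).2) ?_) (hVU hv)
  have a1 := Nat.mul_le_mul_left F.m h5
  nlinarith

end Vale.Agent.P089
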