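import Vale.Agent.P089.L2

/-! Module L: the family of labelled expanders with codes. -/

namespace Vale.Agent.P089.LB

open Vale.Agent.P194 Finset Classical

/-- the labelled graph -/
def Lg {V E K : Type} (G : V → E × Bool → V → Prop) (a : E → K) : V → K × Bool → V → Prop :=
  fun x s y => ∃ e, a e = s.1 ∧ G x (e, s.2) y

section
variable {V E K : Type} {G : V → E × Bool → V → Prop} {a : E → K}

theorem lift {x y : V} {w : List (K × Bool)} (h : Path (Lg G a) x w y) :
    ∃ u, Path G x u y ∧ u.map (lab a) = w := by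
  induction h with
  | nil x => exact ⟨[], Path.nil _, rfl⟩
  | @cons x y z s w h1 _ ih =>
    obtain ⟨u, h2, rfl⟩ := ih
    obtain ⟨e, h3, h4⟩ := h1
    exact ⟨(e, s.2) :: u, Path.cons h4 h2, by simp [lab, h3]⟩

theorem red_of_map {u : List (E × Bool)} (h : Red flp (u.map (lab a))) : Red flp u := by
  unfold Red at *
  rw [List.isChain_map] at h
  exact h.imp fun p q h1 h2 => h1 (by rw [h2]; rfl)

theorem path_take {Λ : Type} {Γ : V → Λ → V → Prop} {x y : V} {w : List Λ} (h : Path Γ x w y)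
    (n : ℕ) : ∃ z, Path Γ x (w.take n) z := by
  rw [← List.take_append_drop n w] at h
  obtain ⟨z, h1, -⟩ := path_append_iff.1 h
  exact ⟨z, h1⟩

theorem red_take {Λ : Type} {ι : Λ → Λ} {w : List Λ} (h : Red ι w) (n : ℕ) : Red ι (w.take n) := by
  rw [← List.take_append_drop n w] at h
  exact h.left

theorem apart {d g : ℕ} (h : DG G d g)
    (hf : ∀ x e e' b y y', G x (e, b) y → G x (e', b) y' → a e = a e' → e = e')
    {x y : V} {u : List (E × Bool)} (hp : Path G x u y) :
    ∀ {x' y' : V} {u' : List (E × Bool)}, Path G x' u' y' → x ≠ x' →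
      u.map (lab a) = u'.map (lab a) → ∀ q ∈ u.zip u', q.1.1 ≠ q.2.1 ∧ a q.1.1 = a q.2.1 := by
  induction hp with
  | nil x => intro _ _ _ _ _ _ q hq; simp at hq
  | @cons x y z p u h1 _ ih =>
    intro x' y' u' hp' hx hm q hq
    cases u' with
    | nil => simp at hm
    | cons p' u' =>
      obtain ⟨y1, h3, h4⟩ := path_cons_iff.1 hp'
      obtain ⟨e, b⟩ := p
      obtain ⟨e', b'⟩ := p'
      simp only [List.map_cons, List.cons.injEq, lab, Prod.mk.injEq] at hm
      obtain ⟨⟨h5, rfl⟩, h6⟩ := hm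
      have h7 : e ≠ e' := by
        rintro rfl
        exact hx (h.src _ _ _ _ _ h1 h3)
      rcases List.mem_cons.1 (List.zip_cons_cons ▸ hq) with rfl | hq
      · exact ⟨h7, h5⟩
      · refine ih h4 ?_ h6 q hq
        rintro rfl
        exact h7 (hf _ _ _ _ _ _ (h.symm _ _ _ h1) (h.symm _ _ _ h3) h5)

end

theorem dg0 {N m g : ℕ} (f : Fin N × Fin m → Fin N)
    (h1 : ∀ y, (univ.filter fun e => f e = y).card ≤ 100 * m) (h2 : Girth flp (G0 f) g) :
    DG (G0 f) (101 * m) g where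
  symm := by
    rintro x ⟨e, b⟩ y h
    cases b <;> simp only [G0, flp] at h ⊢ <;> simpa [and_comm] using h
  det := by
    rintro x ⟨e, b⟩ y y' h h'
    cases b <;> simp [G0] at h h' <;> rw [h.2, h'.2]
  src := by
    rintro x x' ⟨e, b⟩ y y' h h'
    cases b <;> simp [G0] at h h' <;> rw [h.1, h'.1]
  deg := fun v => by
    have : {a | ∃ y, G0 f v a y} ⊆ ↑((univ.image fun i : Fin m => ((v, i), true)) ∪
        (univ.filter fun e => f e = v).image fun e => (e, false)) := by
      rintro ⟨⟨x, i⟩, b⟩ ⟨y, h⟩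
      cases b <;> simp [G0] at h ⊢
      · exact h.1.symm
      · exact h.1
    refine (Set.ncard_le_ncard this).trans ?_
    rw [Set.ncard_coe_finset]
    refine (card_union_le _ _).trans ((add_le_add card_image_le (card_image_le.trans (h1 v))).trans ?_)
    simp; omega
  girth := h2

theorem xg {N m k P : ℕ} (hN : 0 < N) (f : Fin N × Fin m → Fin N)
    (h : DG (G0 f) (101 * m) (100 * P))
    (h3 : ∀ U : Finset (Fin N), 4 * U.card ≤ 3 * N →
      10 * (univ.filter fun e => e.1 ∈ U ∧ f e ∈ U).card ≤ 9 * m * U.card)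
    (a : Fin N × Fin m → Fin k)
    (hf : ∀ x e e' b y y', G0 f x (e, b) y → G0 f x (e', b) y' → a e = a e' → e = e')
    (hs : ∀ x u y x' u' y', Path (G0 f) x u y → Path (G0 f) x' u' y' → Red flp u → Red flp u' →
      u.length = P + 1 → u'.length = P + 1 → (∀ q ∈ u.zip u', q.1.1 ≠ q.2.1) →
      ∃ q ∈ u.zip u', a q.1.1 ≠ a q.2.1) : XG m (101 * m) P (Lg (G0 f) a) where
  pos := hN
  symm := fun _ _ _ ⟨e, h1, h2⟩ => ⟨e, h1, h.symm _ _ _ h2⟩
  det := by
    rintro x s y y' ⟨e, h1, h2⟩ ⟨e', h3, h4⟩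
    obtain rfl := hf _ _ _ _ _ _ h2 h4 (h1.trans h3.symm)
    exact h.det _ _ _ _ h2 h4
  girth := fun x w h1 h2 h3 => by
    obtain ⟨u, h4, rfl⟩ := lift h2
    rw [h.girth x u (red_of_map h1) h4 (by simpa using h3)]
    rfl
  piece := fun w v v' y y' h1 h2 h3 h4 => by
    by_contra hv
    obtain ⟨z, h5⟩ := path_take h3 (P + 1)
    obtain ⟨z', h6⟩ := path_take h4 (P + 1)
    obtain ⟨u, a1, a2⟩ := lift h5
    obtain ⟨u', a3, a4⟩ := lift h6
    have a5 := apart h hf a1 a3 hv (a2.trans a4.symm)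
    have a6 : (w.take (P + 1)).length = P + 1 := by rw [List.length_take]; omega
    obtain ⟨q, hq, a7⟩ := hs _ _ _ _ _ _ a1 a3 (red_of_map (a2 ▸ red_take h1 _))
      (red_of_map (a4 ▸ red_take h1 _)) (by rw [← a6, ← a2, List.length_map])
      (by rw [← a6, ← a4, List.length_map]) fun q hq => (a5 q hq).1
    exact a7 (a5 q hq).2
  out := fun v => by
    have : {s : Fin k | ∃ u, Lg (G0 f) a v (s, true) u} = Set.range fun i => a (v, i) := by
      ext s
      constructor
      · rintro ⟨u, ⟨x, i⟩, h1, h2⟩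
        simp only [G0, if_true] at h2
        exact ⟨i, h2.1 ▸ h1⟩
      · rintro ⟨i, rfl⟩
        exact ⟨f (v, i), (v, i), rfl, by simp [G0]⟩
    rw [this, Set.ncard_range_of_injective, Nat.card_fin]
    intro i j hij
    have := hf v (v, i) (v, j) true _ _ (by simp [G0]; rfl) (by simp [G0]; rfl) hij
    exact (Prod.ext_iff.1 this).2
  deg := fun v => by
    refine le_trans ?_ ((Set.ncard_image_le (f := lab a)).trans (h.deg v))
    refine Set.ncard_le_ncard ?_
    rintro s ⟨u, e, h1, h2⟩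
    exact ⟨(e, s.2), ⟨u, h2⟩, Prod.ext h1 rfl⟩
  exp := fun U hU => by
    refine le_trans (Nat.mul_le_mul_left _ ?_) (h3 U hU)
    refine le_trans (Set.ncard_le_ncard (t := ↑((univ.filter fun e => e.1 ∈ U ∧ f e ∈ U).image
      fun e : Fin N × Fin m => (e.1, a e))) ?_) (by rw [Set.ncard_coe_finset]; exact card_image_le)
    rintro ⟨x, s⟩ ⟨h1, u, h2, e, h4, h5⟩
    simp only [G0, if_true] at h1 h4 h5
    simp only [coe_image, Set.mem_image, mem_coe, mem_filter, mem_univ, true_and]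
    exact ⟨e, ⟨h5.1 ▸ h1, h5.2 ▸ h2⟩, Prod.ext h5.1.symm h4⟩

theorem code (hC : CodeStmt) {N m d k P : ℕ} {Γ : Fin N → Ltr k → Fin N → Prop} (hx : XG m d P Γ)
    (hm : 100 ≤ m) (hk : 0 < k) (hT : (d + 1) ^ (3 * P) * (2 * k) ≤ N - 1) :
    ∃ C, Code m P Γ C ∧ 2 ^ (N - 1) ≤ Nat.card C := by
  have hN := hx.pos
  let D : Finset (Fin N × Ltr k) := (univ.sigma fun v : Fin N =>
    (Set.toFinite {s : Fin k | ∃ u, Γ v (s, true) u}).toFinset).image fun p => (p.1, (p.2, true))
  have hD : D.card = m * N := by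
    rw [card_image_of_injective _ fun p q h => by
      obtain ⟨p1, p2⟩ := p
      obtain ⟨q1, q2⟩ := q
      simp only [Prod.mk.injEq, and_true] at h
      rw [h.1, h.2], card_sigma]
    simp only [← Set.ncard_eq_toFinset_card, hx.out]
    simp [mul_comm]
  have hD' : ∀ b ∈ D, b.2.2 = true ∧ ∃ u, Γ b.1 (b.2.1, true) u := fun b hb => by
    obtain ⟨p, h1, rfl⟩ := mem_image.1 hb
    simpa using h1
  have hT' : ∀ v : Fin N, ∃ T : Finset (Fin N × Ltr k), T.card = N - 1 ∧
      ∀ u w a, Path Γ v w u → w.length ≤ 3 * P → (u, a) ∈ T := fun v => by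
    obtain ⟨T, h1, -, h2⟩ := exists_subsuperset_card_eq (n := N - 1) (subset_univ
      ((Set.toFinite {y | ∃ w : List (Ltr k), w.length ≤ 3 * P ∧ Path Γ v w y}).toFinset ×ˢ
        (univ : Finset (Ltr k)))) (by
        rw [card_product, ← Set.ncard_eq_toFinset_card]
        refine le_trans (Nat.mul_le_mul (ball_ncard hx.det hx.deg _ v) ?_) hT
        simp [mul_comm]) (by
        simp only [card_univ, Fintype.card_prod, Fintype.card_fin, Fintype.card_bool]
        exact (Nat.sub_le _ _).trans (Nat.le_mul_of_pos_right _ (by omega)))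
    exact ⟨T, h2, fun u w a h3 h4 => h1 (mem_product.2 ⟨by simpa using ⟨w, h4, h3⟩, mem_univ _⟩)⟩
  choose T hT1 hT2 using hT'
  obtain ⟨C, c1, c2, c3⟩ := hC (Fin N × Ltr k) (Fin N) D (pat Γ) T (N - 1)
    (fun b hb => by
      obtain ⟨h1, h2⟩ := hD' b hb
      rw [pat, if_pos]
      rwa [← h1] at h2)
    (fun v => (hT1 v).le)
    (by
      have := Nat.lt_two_pow_self (n := N - 1)
      simp; omega)
    (by rw [hD, Nat.sub_add_cancel hN]; exact Nat.mul_le_mul_right _ hm)
  refine ⟨C, ⟨c1, fun c hc h => c2 c hc ?_, fun v f => ?_⟩, ?_⟩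
  · rw [hD]
    refine le_trans (Nat.mul_le_mul_left _ ?_) h
    rw [← Set.ncard_coe_finset]
    refine le_trans (Set.ncard_le_ncard ?_)
      (Set.ncard_image_le (f := fun p : Fin N × Fin k => (p.1, (p.2, true))))
    rintro ⟨x, s, b⟩ hb
    obtain ⟨h1, h2⟩ := mem_filter.1 hb
    obtain ⟨h3, h4⟩ := hD' _ h1
    simp only at h3
    subst h3
    exact ⟨(x, s), ⟨h4, h2⟩, rfl⟩
  · obtain ⟨c, h1, h2⟩ := c3 v f
    exact ⟨c, h1, fun u w a h3 h4 => h2 _ (hT2 v u w a h3 h4)⟩
  · let v : Fin N := ⟨0, hN⟩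
    have := Nat.card_le_card_of_surjective (fun (c : C) (b : T v) => c.1 b.1) fun g => by
      obtain ⟨c, h1, h2⟩ := c3 v fun b => if h : b ∈ T v then g ⟨b, h⟩ else 0
      exact ⟨⟨c, h1⟩, funext fun b => by simp [h2 b.1 b.2]⟩
    simpa [hT1] using this

/-- the piece lengths -/
def PP (k d : ℕ) : ℕ → ℕ
  | 0 => 2 * k + 2
  | n + 1 => PP k d n + 4 * k * (1000 * d ^ (100 * PP k d n + 1)) + 2

theorem PP_mono (k d : ℕ) : StrictMono (PP k d) :=
  strictMono_nat_of_lt_succ fun n => by rw [PP]; omega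

theorem le_PP (k d n : ℕ) : 2 * k + 2 ≤ PP k d n := (PP_mono k d).monotone (Nat.zero_le n)

theorem num1 {d : ℕ} (hd : 1 ≤ d) (P : ℕ) :
    1000 * d ^ (100 * P + 1) * d ^ (P + 1) ≤ (1000 * d ^ 101) ^ (P + 1) := by
  rw [mul_pow, mul_assoc, ← pow_add, ← pow_mul]
  exact Nat.mul_le_mul (Nat.le_self_pow (by omega) _) (Nat.pow_le_pow_right hd (by omega))

theorem num2 {d : ℕ} (hd : 2 ≤ d) (P : ℕ) : P < d ^ (100 * P + 1) :=
  (Nat.lt_pow_self hd).trans_le (Nat.pow_le_pow_right (by omega) (by omega))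

theorem num3 {d k P : ℕ} (hd : 2 ≤ d) (hP : 2 * k ≤ P) :
    (d + 1) ^ (3 * P) * (2 * k) ≤ 1000 * d ^ (100 * P + 1) - 1 := by
  have h1 : (d + 1) ^ (3 * P) ≤ (d ^ 2) ^ (3 * P) := Nat.pow_le_pow_left (by nlinarith) _
  have h2 : 2 * k ≤ d ^ P := hP.trans (Nat.lt_pow_self hd).le
  have h3 := Nat.mul_le_mul h1 h2
  rw [← pow_mul, ← pow_add] at h3
  have h4 : d ^ (2 * (3 * P) + P) ≤ d ^ (100 * P + 1) := Nat.pow_le_pow_right (by omega) (by omega)
  have h5 : 0 < d ^ (100 * P + 1) := by positivity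
  omega

theorem grow {c : ℕ → ℕ} (h : ∀ n, 2 * c n ^ 2 ≤ c (n + 1)) (h0 : 0 < c 0) (n : ℕ) :
    2 ^ (n + 1) * ∏ i ∈ range (n + 1), c i ≤ c (n + 1) := by
  induction n with
  | zero =>
    have := h 0
    simp
    nlinarith
  | succ n ih =>
    rw [prod_range_succ, pow_succ]
    refine le_trans ?_ (h _)
    calc _ = 2 * ((2 ^ (n + 1) * ∏ i ∈ range (n + 1), c i) * c (n + 1)) := by ring
      _ ≤ _ := by rw [sq]; exact Nat.mul_le_mul_left _ (Nat.mul_le_mul_right _ ih)

end LB

open Vale.Agent.P194 Finset Classical LB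

/-- module L -/
theorem fam_of (hG : GraphStmt) (hC : CodeStmt) : FamStmt := by
  obtain ⟨m, hm, hG⟩ := hG
  obtain ⟨d, hd⟩ : ∃ d, d = 101 * m := ⟨_, rfl⟩
  obtain ⟨D, hD⟩ : ∃ D, D = 1000 * d ^ 101 := ⟨_, rfl⟩
  obtain ⟨k, hk⟩ : ∃ k, k = 64 * d * (8 * D ^ 6) := ⟨_, rfl⟩
  have hd2 : 2 ≤ d := by omega
  have hD1 : 1000 * d ≤ D := hD ▸ Nat.mul_le_mul_left _ (Nat.le_self_pow (by omega) _)
  have hD2 : D ≤ D ^ 6 := Nat.le_self_pow (by omega) _
  have hk0 : 0 < k := by
    have : 0 < D := by omega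
    rw [hk]; positivity
  let P := PP k d
  let N : ℕ → ℕ := fun n => 1000 * d ^ (100 * P n + 1)
  have hP : ∀ n, 2 * k + 2 ≤ P n := le_PP k d
  obtain ⟨x, hx⟩ := exists_dep (X := fun n => (Fin (N n) → Ltr k → Fin (N n) → Prop) ×
      Submodule (ZMod 2) (Fin (N n) × Ltr k → ZMod 2))
    (fun n y => XG m d (P n) y.1 ∧ Code m (P n) y.1 y.2 ∧ 2 ^ (N n - 1) ≤ Nat.card y.2)
    (fun i n y z => ∀ w v u v' u', Red flp w → P i < w.length → Path y.1 v w u →
      Path z.1 v' w u' → False) (by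
    intro n x hx
    obtain ⟨f, f1, f2, f3⟩ := hG (100 * P n) (N n) (by rw [← hd])
    have hdg := dg0 f f1 f2
    let Wd : ℕ → Finset (List (Ltr k)) := fun L =>
      if L = 2 then univ.image fun s : Ltr k => [flp s, s] else
        ((univ : Finset (Fin n)).filter fun i : Fin n => P i.1 + 1 = L).biUnion
          fun i => awds (x i.1 i.2).1 L
    have hPn := hP n
    obtain ⟨a, a1, a2⟩ := hdg.label (by omega) (D := D) (L := P n + 1) (by omega) (hd ▸ hk) Wd
      (fun L => by
        simp only [Wd]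
        split_ifs with h
        · subst h
          refine card_image_le.trans ?_
          simp only [card_univ, Fintype.card_prod, Fintype.card_fin, Fintype.card_bool]
          rw [hk, sq, mul_right_comm]
          exact Nat.mul_le_mul_right _ (by omega)
        · refine (card_biUnion_le_card_mul _ _ (D ^ L) fun i hi => ?_).trans ?_
          · refine (card_awds (hx i i.2).1.det (hx i i.2).1.deg L).trans ?_
            rw [← (mem_filter.1 hi).2, Fintype.card_fin, hD]
            exact num1 (by omega) _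
          · have : ((univ : Finset (Fin n)).filter fun i : Fin n => P i.1 + 1 = L).card ≤ 1 :=
              card_le_one.2 fun i hi j hj => Fin.ext ((PP_mono k d).injective (by
                have h1 := (mem_filter.1 hi).2
                have h2 := (mem_filter.1 hj).2
                change P i.1 = P j.1
                omega))
            refine (Nat.mul_le_mul_right _ this).trans ?_
            rw [one_mul]
            exact Nat.pow_le_pow_left (by omega) _)
      (by omega) (by omega) (by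
        rw [Fintype.card_fin, ← hd, hD]
        exact num1 (by omega) _)
    have hf : ∀ x e e' b y y', G0 f x (e, b) y → G0 f x (e', b) y' → a e = a e' → e = e' := by
      intro x e e' b y y' h1 h2 h3
      by_contra h4
      refine a1 y [flp (e, b), (e', b)] y' (Path.cons (hdg.symm _ _ _ h1) (Path.single h2))
        (red_cons_cons.2 ⟨?_, red_single _⟩) (by simp) (by simp; omega) ?_
      · rw [flp_flp]
        exact fun h => h4 (Prod.ext_iff.1 h).1.symm
      · simp only [Wd, List.length_cons, List.length_nil, if_true]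
        exact mem_image.2 ⟨(a e', b), mem_univ _, by simp [lab, flp, h3]⟩
    have hxg : XG m d (P n) (Lg (G0 f) a) := hd ▸ xg (by simp only [N]; positivity) f hdg f3 a hf a2
    obtain ⟨C, c1, c2⟩ := code hC hxg (by omega) hk0 (num3 hd2 (by omega))
    refine ⟨(Lg (G0 f) a, C), ⟨hxg, c1, c2⟩, fun i hi w v u v' u' h1 h2 h3 h4 => ?_⟩
    obtain ⟨z, h5⟩ := path_take h3 (P i + 1)
    obtain ⟨z', h6⟩ := path_take h4 (P i + 1)
    obtain ⟨u0, b1, b2⟩ := lift h6
    have b3 : (w.take (P i + 1)).length = P i + 1 := by rw [List.length_take]; omega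
    have b4 : u0.length = P i + 1 := by rw [← b3, ← b2, List.length_map]
    have b5 : P i < P n := PP_mono k d hi
    have b6 := hP i
    refine a1 _ _ _ b1 (red_of_map (b2 ▸ red_take h1 _)) (by rintro rfl; simp at b4) (by omega) ?_
    rw [b2, b4]
    simp only [Wd, if_neg (show P i + 1 ≠ 2 by omega)]
    exact mem_biUnion.2 ⟨⟨i, hi⟩, by simp, mem_awds.2 ⟨b3, v, z, h5⟩⟩)
  refine ⟨k, m, d, N, P, fun n => (x n).1, fun n => (x n).2, by omega, by rw [hd]; nlinarith,
    (PP_mono k d).monotone, fun n => ⟨by have := hP n; omega, (hx n).1.1, (hx n).1.2.1⟩,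
    fun n n' h => (hx n').2 n h, grow (fun n => ?_) Nat.card_pos⟩
  refine le_trans ?_ (hx (n + 1)).1.2.2
  have h1 : Nat.card (x n).2 ≤ 2 ^ (N n * (k * 2)) := by
    simpa using Nat.card_le_card_of_injective (fun c : (x n).2 => c.1) Subtype.val_injective
  refine (Nat.mul_le_mul_left _ (Nat.pow_le_pow_left h1 2)).trans ?_
  rw [← pow_mul, ← pow_succ']
  refine Nat.pow_le_pow_right (by omega) ?_
  have h2 := num2 hd2 (P (n + 1))
  have h3 : P (n + 1) = P n + 4 * k * N n + 2 := rfl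
  have h4 : N (n + 1) = 1000 * d ^ (100 * P (n + 1) + 1) := rfl
  have h5 : N n * (k * 2) * 2 = 4 * k * N n := by ring
  omega

end Vale.Agent.P089
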