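import Vale.Agent.P089.Fin1
import Vale.Agent.P089.A3
import Vale.Agent.P089.Gap
import Vale.Agent.P089.K2
import Vale.Agent.P089.Ext
import Vale.Agent.P089.L3
import Vale.Agent.P089.Graph
import Vale.Agent.P089.Code

/-! Assembly. -/

namespace Vale.Agent.P089

open Vale.Agent.P194 Classical

open Dat in
theorem irr_of_dat (F : Dat) : ∃ t : ℝ, Irrational t ∧ TrProj t := by
  obtain ⟨H, _, gl, lev, _, _, L⟩ := levStmt F
  obtain ⟨β, h0, h1, hgap⟩ := gap (2 * F.k + 1) (by omega)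
  choose φ cφ eφ using fun j : Σ n, Fin (F.N n) => L.ex j.1 j.2 1
  let blk : Cfg H (Ltr F.k) → Set (Finset H) := fun ω =>
    {Y | ∃ n ψ, F.Cp gl n ψ ∧ F.rs ψ ω = pat (F.Γ n) ∧ Y = Finset.univ.image ψ}
  have main := fun ω (hω : ω ∈ F.Om gl) => hgap H (Ltr F.k) flp (fun a g => gl a * g)
    (F.Opn gl ω) (F.dg ω) (blk ω) flp_flp (fun a x => by rw [L.inv, inv_mul_cancel_left])
    (fun x a h => h.symm L.inv)
    (fun x => by
      have h1 := Set.ncard_le_ncard (s := {a | F.Opn gl ω x a}) (t := {a | F.Prp ω x a})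
        fun a h => h.1
      have h2 := Set.ncard_le_card {a | F.Prp ω x a}
      simp only [Nat.card_eq_fintype_card, Fintype.card_prod, Fintype.card_fin,
        Fintype.card_bool] at h2
      unfold dg
      split_ifs <;> omega)
    (by
      rintro _ ⟨n, ψ, c, h, rfl⟩ _ ⟨n', ψ', c', h', rfl⟩ x hx hx'
      obtain ⟨u, -, rfl⟩ := Finset.mem_image.1 hx
      obtain ⟨u', -, e⟩ := Finset.mem_image.1 hx'
      cases full_same c h c' h' e.symm
      rw [c.ext c' e.symm])
    (by
      rintro _ ⟨n, ψ, c, h, rfl⟩ x hx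
      obtain ⟨u, -, rfl⟩ := Finset.mem_image.1 hx
      refine ⟨by simp only [dg, full_opn c h, full_prp h, if_pos (full_good h u), add_zero],
        fun a o => ?_⟩
      obtain ⟨y, e⟩ := (full_opn c h u a).1 o
      exact Finset.mem_image.2 ⟨y, Finset.mem_univ _, c _ _ _ e⟩)
    (fun U hU => chg F H gl lev L ω hω U fun n ψ u c h hu =>
      Finset.disjoint_left.1 (hU _ ⟨n, ψ, c, h, rfl⟩) hu
        (Finset.mem_image_of_mem _ (Finset.mem_univ _)))
    (by
      rintro _ ⟨n, ψ, c, h, rfl⟩ U hU h2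
      exact full_chg c (L.inj _ _ c) h U hU h2)
  let D : ℝ := 2 * ((2 * F.k + 1 : ℕ) : ℝ)
  let s : Option (Ltr F.k) → H := fun i => i.elim 1 gl
  let t : Option (Ltr F.k) → Cfg H (Ltr F.k) → ℝ := fun i ω =>
    i.elim (1 - F.dg ω 1 / D) fun a => (if F.Opn gl ω 1 a then 1 else 0) / D
  have opn_sh : ∀ g ω x a, F.Opn gl (sh g ω) x a ↔ F.Opn gl ω (x * g) a := by
    intro g ω x a
    unfold Opn
    rw [← mul_assoc]
    rfl
  have hB : ∀ ω, Bop s t ω = Sop (fun a g => gl a * g) (F.Opn gl ω) (F.dg ω) (2 * F.k + 1) := by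
    intro ω
    funext f g
    have : F.dg (sh g ω) 1 = F.dg ω (1 * g) := rfl
    simp only [Bop, Sop, Fintype.sum_option, s, t, Option.elim, opn_sh, this, one_mul, sub_div,
      Finset.sum_div, D, div_mul_eq_mul_div, ite_mul, zero_mul]
    ring
  obtain ⟨T, hT, hp⟩ := ana H (Ltr F.k) (Option (Ltr F.k)) (Σ n, Fin (F.N n)) (F.Om gl) s t
    (Option.map flp) ((insert 1 (Finset.univ.image gl)) ×ˢ Finset.univ) β
    (fun j => Fin (F.N j.1) × Ltr F.k) (fun j p => (φ j p.1, p.2)) (fun j => F.C j.1)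
    (fun j => pat (F.Γ j.1)) (fun j => 1 / F.N j.1)
    (by
      have : (F.Om gl : Set (Cfg H (Ltr F.k))) =
          ⋂ n, ⋂ ψ, ⋂ _ : F.Cp gl n ψ, F.rs ψ ⁻¹' (F.C n) := by
        ext ω
        simp only [Set.mem_iInter]
        rfl
      rw [this]
      exact isClosed_iInter fun n => isClosed_iInter fun ψ => isClosed_iInter fun _ =>
        (isClosed_discrete _).preimage (continuous_pi fun p => continuous_apply _))
    (fun g ω h n ψ c => h n _ (c.mul g))
    (by
      intro i ω ω' h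
      have e1 : F.Prp ω 1 = F.Prp ω' 1 := funext fun a => by
        unfold Prp
        rw [h _ (by simp)]
      have e2 : ∀ b, F.Prp ω (gl b * 1) = F.Prp ω' (gl b * 1) := fun b => funext fun a => by
        unfold Prp
        rw [h _ (by simp)]
      have e3 : F.Good ω 1 = F.Good ω' 1 := by simp only [Dat.Good, e1]
      have e4 : F.Opn gl ω 1 = F.Opn gl ω' 1 := funext fun a => by
        simp only [Opn, Dat.Good, e1, e2]
      cases i <;> simp only [t, Option.elim, dg, e1, e3, e4])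
    (by rintro (_ | a) <;> simp [flp_flp])
    (by rintro (_ | a) <;> simp [s, L.inv])
    (by
      rintro (_ | a) ω
      · simp [s, An.sh_one]
      · have : F.Opn gl ω (gl a) (flp a) ↔ F.Opn gl ω 1 a :=
          ⟨fun h => by simpa [L.inv, flp_flp] using h.symm L.inv,
            fun h => by simpa using h.symm L.inv⟩
        simp [s, t, opn_sh, this])
    h0 h1 (fun ω hω => by rw [hB]; exact (main ω hω).1)
    (fun j c => ⟨fun hc => ext F H gl lev L _ _ _ (cφ j) (eφ j) c hc, by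
      rintro ⟨ω, hω, rfl⟩
      exact hω _ _ (cφ j)⟩)
    (fun j => (F.code j.1).pat)
    (fun ω _ j j' h h' => full_same (cφ j) h (cφ j') h' ((eφ j).trans (eφ j').symm))
    (fun ω hω j h => by
      have := (main ω hω).2.1 _ ⟨_, _, cφ j, h, rfl⟩ 1
        (Finset.mem_image.2 ⟨_, Finset.mem_univ _, eφ j⟩)
      rwa [Finset.card_image_of_injective _ (L.inj _ _ (cφ j)), Finset.card_univ,
        Fintype.card_fin, ← hB] at this)
    (fun ω hω h => by
      rw [hB]
      refine (main ω hω).2.2 1 ?_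
      rintro _ ⟨n, ψ, c, e, rfl⟩ hx
      obtain ⟨u, -, hu⟩ := Finset.mem_image.1 hx
      rw [c.ext (cφ ⟨n, u⟩) (hu.trans (eφ ⟨n, u⟩).symm)] at e
      exact h ⟨n, u⟩ e)
  refine ⟨T, irrational_of_growth (fun n => Nat.card (F.C n)) (fun n => Nat.card_pos) F.grow
    (hT.sigma fun n => ?_), hp⟩
  have hN : (F.N n : ℝ) ≠ 0 := by exact_mod_cast (F.xg n).pos.ne'
  have := hasSum_fintype fun _ : Fin (F.N n) => (1 / F.N n : ℝ) / Nat.card (F.C n)
  rwa [Finset.sum_const, Finset.card_univ, Fintype.card_fin, nsmul_eq_mul, ← mul_div_assoc,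
    mul_one_div_cancel hN] at this

theorem exists_irr : ∃ t : ℝ, Irrational t ∧ TrProj t := by
  obtain ⟨k, m, d, N, P, Γ, C, h1, h2, h3, h4, h5, h6⟩ := fam_of graph_exists code_exists
  exact irr_of_dat ⟨k, m, d, N, P, Γ, C, h1, h2, h3, fun n => (h4 n).1, fun n => (h4 n).2.1,
    fun n => (h4 n).2.2, h5, h6⟩

end Vale.Agent.P089
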