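import Vale.Agent.P089.Spec2

/-! Module S, first part: the Cheeger inequality. -/

namespace Vale.Agent.P089.Gp

open Finset Classical

/-- the data of a walk -/
structure Sys (X Λ : Type) [Fintype Λ] (D : ℕ) where
  ι : Λ → Λ
  σ : Λ → X → X
  O : X → Λ → Prop
  deg : X → ℕ
  blk : Set (Finset X)
  h1 : ∀ a, ι (ι a) = a
  h2 : ∀ a x, σ (ι a) (σ a x) = x
  h3 : ∀ x a, O x a → O (σ a x) (ι a)
  h4 : ∀ x, {a | O x a}.ncard ≤ deg x ∧ deg x ≤ D
  h5 : ∀ Y ∈ blk, ∀ Y' ∈ blk, ∀ x ∈ Y, x ∈ Y' → Y = Y'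
  h6 : ∀ Y ∈ blk, ∀ x ∈ Y, deg x = {a | O x a}.ncard ∧ ∀ a, O x a → σ a x ∈ Y
  h7 : ∀ U : Finset X, (∀ Y ∈ blk, Disjoint U Y) → Chg σ O deg U
  h8 : ∀ Y ∈ blk, ∀ U ⊆ Y, 2 * U.card ≤ Y.card → Chg σ O deg U

theorem sum_ite_ncard {Λ : Type} [Fintype Λ] (p : Λ → Prop) [DecidablePred p] (c : ℝ) :
    ∑ a, (if p a then c else 0) = {a | p a}.ncard * c := by
  rw [← sum_filter, sum_const, nsmul_eq_mul, ← Set.ncard_coe_finset]
  simp

theorem median {X : Type} {Y : Finset X} (hY : Y.Nonempty) (f : X → ℝ) : ∃ M : ℝ,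
    2 * (Y.filter fun y => M < f y).card ≤ Y.card ∧ 2 * (Y.filter fun y => f y < M).card ≤ Y.card := by
  obtain ⟨z, hz, hz'⟩ := exists_max_image Y f hY
  obtain ⟨x, hx, hx'⟩ := exists_min_image
    (Y.filter fun x => 2 * (Y.filter fun y => f x < f y).card ≤ Y.card) f
    ⟨z, mem_filter.2 ⟨hz, by rw [filter_eq_empty_iff.2 fun y hy => not_lt.2 (hz' y hy)]; simp⟩⟩
  refine ⟨f x, (mem_filter.1 hx).2, not_lt.1 fun h => ?_⟩
  obtain ⟨t, ht, ht'⟩ := exists_max_image (Y.filter fun y => f y < f x) f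
    (card_pos.1 (by omega))
  have h1 := card_filter_add_card_filter_not (s := Y) fun y => f y < f x
  have h2 : (Y.filter fun y => f t < f y).card ≤ (Y.filter fun y => ¬ f y < f x).card :=
    card_le_card fun y hy => by
      rw [mem_filter] at hy ⊢
      exact ⟨hy.1, fun h => not_lt.2 (ht' y (mem_filter.2 ⟨hy.1, h⟩)) hy.2⟩
  rw [mem_filter] at ht
  exact not_lt.2 (hx' t (mem_filter.2 ⟨ht.1, by omega⟩)) ht.2

namespace Sys

variable {X Λ : Type} [Fintype Λ] {D : ℕ} (s : Sys X Λ D)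

/-- sum over the open edges inside `S` at `x` -/
noncomputable def T1 (S : Finset X) (G : X → X → ℝ) (x : X) : ℝ :=
  ∑ a, if s.O x a ∧ s.σ a x ∈ S then G x (s.σ a x) else 0

/-- sum over the open edges inside `S` -/
noncomputable def T (S : Finset X) (G : X → X → ℝ) : ℝ := ∑ x ∈ S, s.T1 S G x

theorem T_symm (S : Finset X) (G : X → X → ℝ) : s.T S G = s.T S fun x y => G y x := by
  simp only [T, T1]
  rw [← sum_product', ← sum_product', ← sum_filter, ← sum_filter]
  refine sum_nbij' (fun p => (s.σ p.2 p.1, s.ι p.2)) (fun p => (s.σ p.2 p.1, s.ι p.2))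
    (fun p hp => ?_) (fun p hp => ?_) (fun p _ => by simp [s.h1, s.h2])
    (fun p _ => by simp [s.h1, s.h2]) fun p _ => by simp [s.h2]
  all_goals
    simp only [mem_filter, mem_product, mem_univ, and_true, s.h2] at hp ⊢
    exact ⟨hp.2.2, s.h3 _ _ hp.2.1, hp.1⟩

theorem T1_le {S : Finset X} {G G' : X → X → ℝ} {x : X} (h : ∀ y ∈ S, G x y ≤ G' x y) :
    s.T1 S G x ≤ s.T1 S G' x :=
  sum_le_sum fun a _ => by
    split_ifs with h'
    · exact h _ h'.2
    · exact le_rfl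

theorem T_le {S : Finset X} {G G' : X → X → ℝ} (h : ∀ x ∈ S, ∀ y ∈ S, G x y ≤ G' x y) :
    s.T S G ≤ s.T S G' := sum_le_sum fun x hx => s.T1_le (h x hx)

theorem T1_lin (S : Finset X) (G G' : X → X → ℝ) (c c' : ℝ) (x : X) :
    s.T1 S (fun x y => c * G x y + c' * G' x y) x = c * s.T1 S G x + c' * s.T1 S G' x := by
  simp only [T1, mul_sum, ← sum_add_distrib]
  exact sum_congr rfl fun a _ => by split_ifs <;> simp

theorem T_lin (S : Finset X) (G G' : X → X → ℝ) (c c' : ℝ) :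
    s.T S (fun x y => c * G x y + c' * G' x y) = c * s.T S G + c' * s.T S G' := by
  simp only [T, T1_lin, mul_sum, ← sum_add_distrib]

theorem T1_const (S : Finset X) (h : X → ℝ) (x : X) :
    s.T1 S (fun x _ => h x) x = {a | s.O x a ∧ s.σ a x ∈ S}.ncard * h x := sum_ite_ncard _ _

theorem o_le (S : Finset X) (x : X) : ({a | s.O x a ∧ s.σ a x ∈ S}.ncard : ℝ) ≤ s.deg x := by
  have := Set.ncard_le_ncard (s := {a | s.O x a ∧ s.σ a x ∈ S}) (t := {a | s.O x a})
    (fun a ha => ha.1) (Set.toFinite _)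
  exact_mod_cast this.trans (s.h4 x).1

theorem o_eq {Y : Finset X} (hY : Y ∈ s.blk) {x : X} (hx : x ∈ Y) :
    ({a | s.O x a ∧ s.σ a x ∈ Y}.ncard : ℝ) = s.deg x := by
  rw [(s.h6 Y hY x hx).1]
  congr 2
  ext a
  exact ⟨fun h => h.1, fun h => ⟨h, (s.h6 Y hY x hx).2 a h⟩⟩

theorem T_sq_le (S : Finset X) (f : X → ℝ) :
    s.T S (fun x _ => f x ^ 2) ≤ ∑ x ∈ S, s.deg x * f x ^ 2 :=
  sum_le_sum fun x _ => by
    rw [s.T1_const S fun x => f x ^ 2]
    exact mul_le_mul_of_nonneg_right (s.o_le S x) (sq_nonneg _)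

theorem coarea (S A : Finset X) : A ⊆ S → (∀ U ⊆ A, Chg s.σ s.O s.deg U) → ∀ g : X → ℝ,
    (∀ x, 0 ≤ g x) → (∀ x ∈ S, x ∉ A → g x = 0) →
    ∑ x ∈ S, g x + 100 * s.T S (fun x y => min (g x) (g y)) ≤ 100 * ∑ x ∈ S, s.deg x * g x := by
  induction A using Finset.strongInduction with
  | H A ih =>
    intro hA hC g h0 hg
    rcases A.eq_empty_or_nonempty with rfl | hne
    · have e : ∀ x ∈ S, g x = 0 := fun x hx => hg x hx (notMem_empty _)
      have := s.T_le (S := S) (G := fun x y => min (g x) (g y)) (G' := fun _ _ => 0)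
        fun x hx y _ => by rw [e x hx]; exact min_le_left _ _
      rw [sum_eq_zero e, sum_eq_zero fun x hx => by rw [e x hx, mul_zero]]
      have e0 : s.T S (fun _ _ => 0) = 0 := by simp [T, T1]
      linarith
    obtain ⟨z, hz, hz'⟩ := exists_min_image A g hne
    have h1 := ih (A.erase z) (erase_ssubset hz) ((erase_subset _ _).trans hA)
      (fun U hU => hC U (hU.trans (erase_subset _ _))) (fun x => g x - if x ∈ A then g z else 0)
      (fun x => by
        split_ifs with h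
        · exact sub_nonneg.2 (hz' x h)
        · simpa using h0 x)
      (fun x hx hx' => by
        by_cases h : x ∈ A
        · rw [show x = z by by_contra h'; exact hx' (mem_erase.2 ⟨h', h⟩), if_pos hz, sub_self]
        · rw [if_neg h, hg x hx h, sub_self])
    have h2 : (A.card : ℝ) + 100 * ∑ x ∈ A, ({a | s.O x a ∧ s.σ a x ∈ A}.ncard : ℝ) ≤
        100 * ∑ x ∈ A, (s.deg x : ℝ) := by exact_mod_cast hC A Subset.rfl
    have h3 : s.T S (fun x y => if x ∈ A ∧ y ∈ A then 1 else 0) =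
        ∑ x ∈ A, ({a | s.O x a ∧ s.σ a x ∈ A}.ncard : ℝ) := by
      rw [T, ← sum_subset hA fun x _ hx => by simp [T1, hx]]
      refine sum_congr rfl fun x hx => ?_
      rw [← mul_one (Nat.cast _), ← sum_ite_ncard]
      exact sum_congr rfl fun a _ => by
        by_cases h : s.σ a x ∈ A
        · simp [hx, h, hA h]
        · simp [h]
    have h4 := s.T_le (S := S) (G := fun x y => min (g x) (g y))
      (G' := fun x y => 1 * min (g x - if x ∈ A then g z else 0) (g y - if y ∈ A then g z else 0) +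
        g z * if x ∈ A ∧ y ∈ A then 1 else 0) fun x hx y hy => by
      by_cases h : x ∈ A <;> by_cases h' : y ∈ A
      · simp [h, h', min_sub_sub_right]
      · simp [h, h', hg y hy h', hz' x h]
      · simp [h, h', hg x hx h, hz' y h']
      · simp [h, h']
    rw [T_lin, h3] at h4
    simp only [sum_sub_distrib, mul_sub, mul_ite, mul_zero, ← sum_filter, filter_mem_eq_inter,
      inter_eq_right.2 hA, sum_const, nsmul_eq_mul, ← sum_mul] at h1
    nlinarith [mul_le_mul_of_nonneg_left h2 (h0 z)]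

/-- the energy -/
noncomputable def En (S : Finset X) (f : X → ℝ) : ℝ :=
  ∑ x ∈ S, s.deg x * f x ^ 2 - s.T S fun x y => f x * f y

theorem En_eq (S : Finset X) (f : X → ℝ) : s.En S f = (∑ x ∈ S, s.deg x * f x ^ 2 -
    s.T S fun x _ => f x ^ 2) + (s.T S fun x y => (f x - f y) ^ 2) / 2 := by
  have h1 := s.T_symm S fun x _ => f x ^ 2
  have h2 := s.T_lin S (fun x _ => f x ^ 2) (fun _ y => f y ^ 2) 1 1
  have h3 := s.T_lin S (fun x y => 1 * f x ^ 2 + 1 * f y ^ 2) (fun x y => f x * f y) 1 (-2)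
  have e : (fun x y => (f x - f y) ^ 2) =
      fun x y => 1 * (1 * f x ^ 2 + 1 * f y ^ 2) + -2 * (f x * f y) := by
    ext x y; ring
  rw [e, En]
  linarith

theorem T_nonneg (S : Finset X) {G : X → X → ℝ} (h : ∀ x y, 0 ≤ G x y) : 0 ≤ s.T S G :=
  sum_nonneg fun x _ => sum_nonneg fun a _ => by
    split_ifs
    · exact h _ _
    · exact le_rfl

theorem cheeger (hD : 1 ≤ D) {S A : Finset X} (hA : A ⊆ S) (hC : ∀ U ⊆ A, Chg s.σ s.O s.deg U)
    (f : X → ℝ) (hf : ∀ x ∈ S, x ∉ A → f x = 0) : ∑ x ∈ S, f x ^ 2 ≤ 20000 * D * s.En S f := by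
  have hD' : (1 : ℝ) ≤ D := by exact_mod_cast hD
  have h1 := s.coarea S A hA hC (fun x => f x ^ 2) (fun x => sq_nonneg _)
    fun x hx hx' => by simp [hf x hx hx']
  have h2 := s.T_symm S fun x _ => f x ^ 2
  have h3 := s.T_lin S (fun x _ => f x ^ 2) (fun _ y => f y ^ 2) 1 1
  have h4 := s.T_lin S (fun x y => 1 * f x ^ 2 + 1 * f y ^ 2) (fun x y => (f x - f y) ^ 2)
    (200 * D - 1) (-(20000 * D ^ 2))
  have h5 := s.T_lin S (fun x y => min (f x ^ 2) (f y ^ 2)) (fun _ _ => 0) (400 * D) 0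
  have h6 := s.T_le (S := S) (G := fun x y => (200 * D - 1) * (1 * f x ^ 2 + 1 * f y ^ 2) +
      -(20000 * D ^ 2) * (f x - f y) ^ 2)
    (G' := fun x y => 400 * D * min (f x ^ 2) (f y ^ 2) + 0 * 0) fun x _ y _ => by
      rcases le_total (f x ^ 2) (f y ^ 2) with h | h
      · rw [min_eq_left h]
        nlinarith [sq_nonneg (200 * D * (f x - f y) + (f x + f y)), sq_nonneg (f x - f y)]
      · rw [min_eq_right h]
        nlinarith [sq_nonneg (200 * D * (f x - f y) - (f x + f y)), sq_nonneg (f x - f y)]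
  have h7 := s.T_sq_le S f
  have h8 : ∑ x ∈ S, s.deg x * f x ^ 2 ≤ D * ∑ x ∈ S, f x ^ 2 := by
    rw [mul_sum]
    exact sum_le_sum fun x _ => mul_le_mul_of_nonneg_right (by exact_mod_cast (s.h4 x).2)
      (sq_nonneg _)
  have h9 := s.T_nonneg S fun x y => sq_nonneg (f x - f y)
  rw [En_eq]
  rw [h4, h5, h3, ← h2] at h6
  refine le_of_mul_le_mul_left ?_ (show (0 : ℝ) < D by linarith)
  have h10 := mul_le_mul_of_nonneg_left h1 (show (0 : ℝ) ≤ D by linarith)
  have h11 := mul_nonneg (mul_nonneg (show (0 : ℝ) ≤ D by linarith)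
    (show (0 : ℝ) ≤ 100 * D - 1 by linarith)) (sub_nonneg.2 h7)
  nlinarith

theorem block (hD : 1 ≤ D) {Y : Finset X} (hY : Y ∈ s.blk) (f : X → ℝ) (hf : ∑ x ∈ Y, f x = 0) :
    ∑ x ∈ Y, f x ^ 2 ≤ 20000 * D * s.En Y f := by
  rcases Y.eq_empty_or_nonempty with rfl | hne
  · simp [En, T]
  obtain ⟨M, h1, h2⟩ := median hne f
  have e : ∀ g : X → ℝ, s.En Y g = (s.T Y fun x y => (g x - g y) ^ 2) / 2 := fun g => by
    rw [En_eq, add_eq_right, sub_eq_zero]
    exact sum_congr rfl fun x hx => by rw [s.T1_const Y fun x => g x ^ 2, s.o_eq hY hx]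
  have a1 := s.cheeger hD (filter_subset (fun y => M < f y) Y)
    (fun U hU => s.h8 Y hY U (hU.trans (filter_subset _ _)) (by have := card_le_card hU; omega))
    (fun x => max (f x - M) 0) fun x hx hx' =>
      max_eq_right (sub_nonpos.2 (not_lt.1 fun h => hx' (mem_filter.2 ⟨hx, h⟩)))
  have a2 := s.cheeger hD (filter_subset (fun y => f y < M) Y)
    (fun U hU => s.h8 Y hY U (hU.trans (filter_subset _ _)) (by have := card_le_card hU; omega))
    (fun x => max (M - f x) 0) fun x hx hx' =>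
      max_eq_right (sub_nonpos.2 (not_lt.1 fun h => hx' (mem_filter.2 ⟨hx, h⟩)))
  have a3 := s.T_le (S := Y) (G := fun x y => 1 * (max (f x - M) 0 - max (f y - M) 0) ^ 2 +
      1 * (max (M - f x) 0 - max (M - f y) 0) ^ 2) (G' := fun x y => (f x - f y) ^ 2)
    fun x _ y _ => by
      rcases le_total (f x) M with h | h <;> rcases le_total (f y) M with h' | h' <;>
        simp only [sub_nonneg, sub_nonpos, h, h', max_eq_left, max_eq_right] <;> nlinarith
  have a4 : ∑ x ∈ Y, (f x ^ 2 - 2 * M * f x) ≤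
      ∑ x ∈ Y, (max (f x - M) 0 ^ 2 + max (M - f x) 0 ^ 2) := sum_le_sum fun x _ => by
    rcases le_total (f x) M with h | h <;>
      simp only [sub_nonneg, sub_nonpos, h, max_eq_left, max_eq_right] <;> nlinarith [sq_nonneg M]
  rw [T_lin] at a3
  rw [sum_sub_distrib, ← mul_sum, hf, sum_add_distrib] at a4
  rw [e] at a1 a2 ⊢
  have := mul_le_mul_of_nonneg_left a3 (show (0 : ℝ) ≤ 10000 * D by positivity)
  linarith

end Sys

end Vale.Agent.P089.Gp
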