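import Vale.Agent.P089.Base
import Vale.Agent.P194.Sachs

/-! Isoperimetric inequality by levels: dense sets and names. -/

namespace Vale.Agent.P089

namespace Ch

open Vale.Agent.P194 Classical Finset

variable {F : Dat} {H : Type} [Group H] {gl : Ltr F.k → H} {lev : H → ℕ}

/-- open outgoing edges inside `V` -/
noncomputable def eds (gl : Ltr F.k → H) (ω : Cfg H (Ltr F.k)) (V : Finset H) :
    Finset (H × Fin F.k) :=
  (V ×ˢ univ).filter fun p => F.Opn gl ω p.1 (p.2, true) ∧ gl (p.2, true) * p.1 ∈ V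

/-- open letters into `V` -/
noncomputable def ltr (gl : Ltr F.k → H) (ω : Cfg H (Ltr F.k)) (V : Finset H) (z : H) :
    Finset (Ltr F.k) :=
  univ.filter fun a => F.Opn gl ω z a ∧ gl a * z ∈ V

theorem mem_eds {ω : Cfg H (Ltr F.k)} {V : Finset H} {p : H × Fin F.k} :
    p ∈ eds gl ω V ↔ p.1 ∈ V ∧ F.Opn gl ω p.1 (p.2, true) ∧ gl (p.2, true) * p.1 ∈ V := by
  simp [eds]

theorem mem_ltr {ω : Cfg H (Ltr F.k)} {V : Finset H} {z : H} {a : Ltr F.k} :
    a ∈ ltr gl ω V z ↔ F.Opn gl ω z a ∧ gl a * z ∈ V := by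
  simp [ltr]

theorem dense_of (ω : Cfg H (Ltr F.k)) (U : Finset H)
    (h : ¬ Chg (fun a g => gl a * g) (F.Opn gl ω) (F.dg ω) U) :
    99 * F.m * U.card < 100 * (eds gl ω U).card := by
  have h1 : (eds gl ω U).card =
      ∑ x ∈ U, {s : Fin F.k | F.Opn gl ω x (s, true) ∧ gl (s, true) * x ∈ U}.ncard := by
    rw [← ncard_pairs U fun x (s : Fin F.k) => F.Opn gl ω x (s, true) ∧ gl (s, true) * x ∈ U,
      ← Set.ncard_coe_finset]
    congr 1
    ext p
    rw [mem_coe, mem_eds]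
    rfl
  have h2 : ∀ x ∈ U, F.m + F.m * {a | F.Opn gl ω x a ∧ gl a * x ∈ U}.ncard ≤
      {s : Fin F.k | F.Opn gl ω x (s, true) ∧ gl (s, true) * x ∈ U}.ncard + F.m * F.dg ω x := by
    intro x _
    have hs : {a | F.Opn gl ω x a ∧ gl a * x ∈ U} ⊆ {a | F.Prp ω x a} := fun a ha => ha.1.1
    have a1 := Set.ncard_le_ncard hs (Set.toFinite _)
    by_cases hc : {a | F.Opn gl ω x a ∧ gl a * x ∈ U}.ncard + 1 ≤ F.dg ω x
    · have := Nat.mul_le_mul_left F.m hc
      rw [mul_add, mul_one] at this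
      omega
    · unfold Dat.dg at hc ⊢
      have hg : F.Good ω x := by
        by_contra hg
        rw [if_neg hg] at hc
        omega
      rw [if_pos hg] at hc ⊢
      have he := Set.eq_of_subset_of_ncard_le hs (by omega) (Set.toFinite _)
      have h3 : {s : Fin F.k | F.Prp ω x (s, true)} ⊆
          {s : Fin F.k | F.Opn gl ω x (s, true) ∧ gl (s, true) * x ∈ U} := by
        intro s h4
        have : ((s, true) : Ltr F.k) ∈ {a | F.Prp ω x a} := h4
        rw [← he] at this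
        exact this
      have h5 := Set.ncard_le_ncard h3 (Set.toFinite _)
      have h6 : F.m ≤ _ := hg
      rw [he, add_zero]
      omega
  have h3 := sum_le_sum h2
  rw [sum_add_distrib, sum_add_distrib, ← mul_sum, ← mul_sum, sum_const, smul_eq_mul, ← h1] at h3
  unfold Chg at h
  have hm := F.hm
  push Not at h
  have h4 := Nat.mul_le_mul_left F.m (Nat.succ_le_of_lt h)
  beta_reduce at h4
  generalize ∑ x ∈ U, {a | F.Opn gl ω x a ∧ gl a * x ∈ U}.ncard = A at *
  generalize ∑ x ∈ U, F.dg ω x = B at *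
  generalize (eds gl ω U).card = E at *
  generalize U.card = u at *
  generalize F.m = m at *
  nlinarith

theorem minimal (ω : Cfg H (Ltr F.k)) (U : Finset H)
    (h : 99 * F.m * U.card < 100 * (eds gl ω U).card) :
    ∃ V ⊆ U, V.Nonempty ∧ ∀ S ⊆ V, S.Nonempty →
      99 * F.m * S.card < 100 * (eds gl ω V \ eds gl ω (V \ S)).card := by
  obtain ⟨V, hV, hmin⟩ := exists_min_image
    (U.powerset.filter fun V => 99 * F.m * V.card < 100 * (eds gl ω V).card) card
    ⟨U, mem_filter.2 ⟨mem_powerset_self _, h⟩⟩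
  obtain ⟨h1, h2⟩ := mem_filter.1 hV
  rw [mem_powerset] at h1
  refine ⟨V, h1, ?_, fun S hS hne => ?_⟩
  · rw [nonempty_iff_ne_empty]
    rintro rfl
    simp [eds] at h2
  · have a1 : (V \ S).card + S.card = V.card := card_sdiff_add_card_eq_card hS
    have a2 := hne.card_pos
    have a3 : ¬ 99 * F.m * (V \ S).card < 100 * (eds gl ω (V \ S)).card := by
      intro hc
      have := hmin _ (mem_filter.2 ⟨mem_powerset.2 (sdiff_subset.trans h1), hc⟩)
      omega
    have a4 := le_card_sdiff (eds gl ω (V \ S)) (eds gl ω V)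
    rw [← a1, mul_add] at h2
    omega

theorem back (hi : ∀ a, gl (flp a) = (gl a)⁻¹) {ω : Cfg H (Ltr F.k)} {V : Finset H}
    {p : H × Fin F.k} (h : p ∈ eds gl ω V) :
    (p.2, false) ∈ ltr gl ω V (gl (p.2, true) * p.1) := by
  rw [mem_eds] at h
  refine mem_ltr.2 ⟨Dat.Opn.symm hi h.2.1, ?_⟩
  have : gl (p.2, false) = (gl (p.2, true))⁻¹ := hi (p.2, true)
  rw [this, inv_mul_cancel_left]
  exact h.1

theorem many (hi : ∀ a, gl (flp a) = (gl a)⁻¹) {ω : Cfg H (Ltr F.k)} {V : Finset H} {z : H}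
    (h : 99 * F.m * ({z} : Finset H).card < 100 * (eds gl ω V \ eds gl ω (V \ {z})).card) :
    99 * F.m < 100 * (ltr gl ω V z).card := by
  rw [card_singleton, mul_one] at h
  refine h.trans_le (Nat.mul_le_mul_left _ ?_)
  have key : ∀ p ∈ eds gl ω V \ eds gl ω (V \ {z}), p.1 ≠ z → gl (p.2, true) * p.1 = z := by
    intro p hp hz
    obtain ⟨h1, h2⟩ := mem_sdiff.1 hp
    by_contra hc
    rw [mem_eds] at h1
    exact h2 (mem_eds.2 ⟨mem_sdiff.2 ⟨h1.1, by simpa using hz⟩, h1.2.1,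
      mem_sdiff.2 ⟨h1.2.2, by simpa using hc⟩⟩)
  refine card_le_card_of_injOn (fun p => (p.2, decide (p.1 = z))) ?_ ?_
  · intro p hp
    have hp' := mem_coe.1 hp
    by_cases hz : p.1 = z
    · have h1 := mem_eds.1 (mem_sdiff.1 hp').1
      simp only [hz, decide_true, mem_coe]
      rw [hz] at h1
      exact mem_ltr.2 h1.2
    · have h1 := back hi (mem_sdiff.1 hp').1
      rw [key p hp' hz] at h1
      simpa only [hz, decide_false, mem_coe] using h1
  · intro p hp p' hp' e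
    simp only [Prod.mk.injEq, decide_eq_decide] at e
    refine Prod.ext ?_ e.1
    by_cases hz : p.1 = z
    · rw [hz, e.2.1 hz]
    · have a1 := key p (mem_coe.1 hp) hz
      have a2 := key p' (mem_coe.1 hp') fun h => hz (e.2.2 h)
      rw [← e.1] at a2
      exact mul_left_cancel (a1.trans a2.symm)

theorem ev_app {Λ : Type} (gl : Λ → H) (w w' : List Λ) : ev gl (w ++ w') = ev gl w' * ev gl w := by
  induction w with
  | nil => simp [ev]
  | cons a w ih => simp only [List.cons_append, ev, ih, mul_assoc]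

/-- the end of `w` is the first point below level `K` -/
def FH {Λ : Type} (gl : Λ → H) (lev : H → ℕ) (K : ℕ) (z : H) (w : List Λ) : Prop :=
  lev (ev gl w * z) < K ∧ ∀ w1 w2, w = w1 ++ w2 → lev (ev gl w1 * z) < K → w2 = []

theorem cut {Λ : Type} (gl : Λ → H) (lev : H → ℕ) (K : ℕ) (w : List Λ) :
    ∀ z : H, lev (ev gl w * z) < K → ∃ w1 w2, w = w1 ++ w2 ∧ FH gl lev K z w1 := by
  induction w with
  | nil =>
    intro z h
    exact ⟨[], [], rfl, h, fun w1 w2 e _ => (List.append_eq_nil_iff.1 e.symm).2⟩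
  | cons a w ih =>
    intro z h
    by_cases hz : lev z < K
    · refine ⟨[], a :: w, rfl, by simpa [ev] using hz,
        fun w1 w2 e _ => (List.append_eq_nil_iff.1 e.symm).2⟩
    · obtain ⟨w1, w2, e, h1, h2⟩ := ih (gl a * z) (by rwa [ev, mul_assoc] at h)
      refine ⟨a :: w1, w2, by rw [e]; rfl, by rwa [ev, mul_assoc], fun u1 u2 e' h3 => ?_⟩
      cases u1 with
      | nil => exact absurd (by simpa [ev] using h3) hz
      | cons b u1 =>
        obtain ⟨rfl, e2⟩ := List.cons.inj e'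
        exact h2 u1 u2 e2 (by rwa [ev, mul_assoc] at h3)

theorem name_of {n : ℕ} {φ : Fin (F.N n) → H} (c : F.Cp gl n φ) {v y : Fin (F.N n)} {K : ℕ}
    {w : List (Ltr F.k)} (p : Path (F.Γ n) v w y) (hy : lev (φ y) < K) :
    ∃ w', Red flp w' ∧ w'.length ≤ w.length ∧ (∃ y, Path (F.Γ n) v w' y) ∧
      FH gl lev K (φ v) w' := by
  obtain ⟨w0, r, l, p0⟩ := p.exists_red (F.xg n).symm (F.xg n).det
  obtain ⟨w1, w2, rfl, h⟩ := cut gl lev K w0 (φ v) (by rwa [← c.path p0])
  obtain ⟨y1, p1, -⟩ := path_append_iff.1 p0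
  refine ⟨w1, r.left, ?_, ⟨y1, p1⟩, h⟩
  simp at l
  omega

theorem name_uniq (hL : F.Lev gl lev) {n : ℕ} {φ : Fin (F.N n) → H} (c : F.Cp gl n φ)
    {v y y' : Fin (F.N n)} {w w' : List (Ltr F.k)} (r : Red flp w) (r' : Red flp w')
    (p : Path (F.Γ n) v w y) (p' : Path (F.Γ n) v w' y') (h : FH gl lev (lev (φ v)) (φ v) w)
    (h' : FH gl lev (lev (φ v)) (φ v) w') (hl : w.length + w'.length < 98 * F.P n) : w = w' := by
  have e := c.path p
  have e' := c.path p'
  have a1 : lev (φ y) < lev (φ v) := e ▸ h.1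
  have a2 : lev (φ y') < lev (φ v) := e' ▸ h'.1
  have a3 : ∀ u, lev (φ y) ≤ lev (φ u) := fun u => by
    have := hL.top n φ v u c
    omega
  have a4 : lev (φ y') ≤ lev (φ y) := by
    have := hL.top n φ v y c
    omega
  obtain ⟨t, rt, lt, pt⟩ := hL.root n φ y y' c a3 a4
  have hr : Red flp (w ++ t) := by
    refine red_append_iff.2 ⟨r, rt, fun a ha b hb hab => ?_⟩
    obtain ⟨w1, rfl⟩ := List.getLast?_eq_some_iff.1 (Option.mem_def.1 ha)
    obtain ⟨t1, rfl⟩ := List.head?_eq_some_iff.1 (Option.mem_def.1 hb)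
    obtain ⟨y1, p1, p2⟩ := path_append_iff.1 p
    obtain ⟨y2, p3, p4⟩ := path_cons_iff.1 p2
    obtain ⟨y3, p5, -⟩ := path_cons_iff.1 pt
    rw [← path_nil_iff.1 p4] at p5
    rw [hab] at p5
    have b1 : y3 = y1 := (F.xg n).det _ _ _ _ p5.1 ((F.xg n).symm _ _ _ p3)
    have b2 := p5.2.2
    rw [b1, c.path p1] at b2
    rw [← path_nil_iff.1 p4] at a1
    have := h.2 w1 [a] rfl (b2.trans_lt a1)
    simp at this
  have he := F.uniq hr r' (p.append pt.of_res) p' (by simp; omega)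
  have := h'.2 w t he.symm h.1
  rw [← he, this, List.append_nil]

/-- `w` is a short name of `z` in some cell -/
def Nm (F : Dat) (gl : Ltr F.k → H) (lev : H → ℕ) (z : H) (w : List (Ltr F.k)) : Prop :=
  ∃ n φ v y, F.Cp gl n φ ∧ φ v = z ∧ Red flp w ∧ Path (F.Γ n) v w y ∧ FH gl lev (lev z) z w ∧
    w.length ≤ 12 * F.P n

theorem nm_uniq (hL : F.Lev gl lev) {z : H} {w w' : List (Ltr F.k)} (h : Nm F gl lev z w)
    (h' : Nm F gl lev z w') : w = w' := by
  obtain ⟨n, φ, v, y, c, rfl, r, p, f, l⟩ := h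
  obtain ⟨n', φ', v', y', c', e, r', p', f', l'⟩ := h'
  have a1 : lev (φ y) < lev (φ v) := by
    rw [c.path p]
    exact f.1
  have a2 : lev (φ' y') < lev (φ v) := by
    rw [c'.path p', e]
    exact f'.1
  have hP := F.pos n
  have hP' := F.pos n'
  rcases hL.shared n φ v y n' φ' v' y' c c' e.symm a1 a2 with h | ⟨t, x, x', rt, l1, l2, q, q', a3⟩
  · obtain ⟨rfl, h2⟩ := Sigma.mk.inj h
    obtain rfl := eq_of_heq h2
    obtain rfl := hL.inj _ _ c e
    exact name_uniq hL c r r' p p' f f' (by omega)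
  · obtain ⟨t1, t2, rfl, ft⟩ := cut gl lev (lev (φ v)) t (φ v) (by rwa [← c.path q])
    obtain ⟨x1, q1, -⟩ := path_append_iff.1 q
    obtain ⟨x2, q2, -⟩ := path_append_iff.1 q'
    rw [List.length_append] at l1 l2
    have b1 := name_uniq hL c r rt.left p q1 f ft (by omega)
    rw [← e] at f' ft
    have b2 := name_uniq hL c' r' rt.left p' q2 f' ft (by omega)
    rw [b1, b2]

theorem far (hL : F.Lev gl lev) {ω : Cfg H (Ltr F.k)} {V : Finset H} (hne : V.Nonempty)
    (hV : ∀ z ∈ V, 99 * F.m < 100 * (ltr gl ω V z).card) :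
    ∃ n φ v u, F.Cp gl n φ ∧ φ v ∈ V ∧ (∀ z ∈ V, lev z ≤ lev (φ v)) ∧ lev (φ u) < lev (φ v) ∧
      ∀ w y, Path (F.Γ n) v w y → w.length ≤ 11 * F.P n → ¬ lev (φ y) < lev (φ v) := by
  by_contra hc
  push Not at hc
  obtain ⟨z0, hz0, hK⟩ := exists_max_image V lev hne
  have hm := F.hm
  have cell : ∀ z ∈ V, lev z = lev z0 → ∀ a ∈ ltr gl ω V z, ∃ n φ v v' y w, F.Cp gl n φ ∧ φ v = z ∧
      F.Γ n v a v' ∧ Red flp w ∧ Path (F.Γ n) v w y ∧ FH gl lev (lev z) z w ∧
      w.length ≤ 11 * F.P n := by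
    intro z hz e a ha
    rw [mem_ltr] at ha
    obtain ⟨n, φ, v, v', u, c, rfl, g, hu⟩ := hL.edge z a ha.1.1.1 (e ▸ hK _ ha.2)
    obtain ⟨w, y, p, l, hy⟩ := hc n φ v u c hz (fun x hx => e ▸ hK x hx) hu
    obtain ⟨w', r, l', ⟨y', p'⟩, f⟩ := name_of c p hy
    exact ⟨n, φ, v, v', y', w', c, rfl, g, r, p', f, l'.trans l⟩
  have ex : ∀ z, ∃ w, z ∈ V.filter (fun z => lev z = lev z0) → Nm F gl lev z w := by
    intro z
    by_cases hz : z ∈ V.filter (fun z => lev z = lev z0)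
    · obtain ⟨h1, h2⟩ := mem_filter.1 hz
      obtain ⟨a, ha⟩ : (ltr gl ω V z).Nonempty := card_pos.1 (by have := hV z h1; omega)
      obtain ⟨n, φ, v, v', y, w, c, e, -, r, p, f, l⟩ := cell z h1 h2 a ha
      exact ⟨w, fun _ => ⟨n, φ, v, y, c, e, r, p, f, by omega⟩⟩
    · exact ⟨[], fun h => absurd h hz⟩
  choose nm hnm using ex
  obtain ⟨z, hz, hmax⟩ := exists_max_image (V.filter fun z => lev z = lev z0)
    (fun z => (nm z).length) ⟨z0, mem_filter.2 ⟨hz0, rfl⟩⟩
  obtain ⟨h1, h2⟩ := mem_filter.1 hz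
  obtain ⟨a, ha, hab⟩ : ∃ a ∈ ltr gl ω V z, ∀ b ∈ (nm z).head?, b ≠ a := by
    obtain ⟨a, ha, b, hb, hab⟩ := one_lt_card.1
      (show 1 < (ltr gl ω V z).card by have := hV z h1; omega)
    by_cases h : a ∈ (nm z).head?
    · refine ⟨b, hb, fun c hc e => hab ?_⟩
      rw [e] at hc
      exact Option.mem_unique h hc
    · exact ⟨a, ha, fun c hc e => h (e ▸ hc)⟩
  obtain ⟨n, φ, v, v', y, w, c, rfl, g, r, p, f, l⟩ := cell z h1 h2 a ha
  have hP := F.pos n
  have e1 : w = nm (φ v) := nm_uniq hL ⟨n, φ, v, y, c, rfl, r, p, f, by omega⟩ (hnm _ hz)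
  rw [← e1] at hab
  have e2 := c v a v' g
  have h3 : φ v' ∈ V := e2 ▸ (mem_ltr.1 ha).2
  by_cases hl : lev (φ v') < lev (φ v)
  · have e3 : [a] = nm (φ v) := by
      refine nm_uniq hL ⟨n, φ, v, v', c, rfl, red_single a, Path.single g, ⟨?_, ?_⟩, ?_⟩ (hnm _ hz)
      · simpa [ev, ← e2] using hl
      · intro w1 w2 e h
        cases w1 with
        | nil => simp [ev] at h
        | cons b w1 => exact (List.append_eq_nil_iff.1 (List.cons.inj e).2.symm).2
      · simp
        omega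
    rw [← e1] at e3
    exact hab a (by rw [← e3]; rfl) rfl
  · have h4 : lev (φ v') = lev (φ v) := by
      have := hK _ h3
      omega
    have e4 : gl (flp a) * φ v' = φ v := by rw [e2, hL.inv, inv_mul_cancel_left]
    have hz' : φ v' ∈ V.filter fun z => lev z = lev z0 := mem_filter.2 ⟨h3, h4.trans h2⟩
    have e3 : flp a :: w = nm (φ v') := by
      refine nm_uniq hL ⟨n, φ, v', y, c, rfl, red_cons_iff.2 ⟨fun b hb => ?_, r⟩,
        Path.cons ((F.xg n).symm _ _ _ g) p, ⟨?_, ?_⟩, ?_⟩ (hnm _ hz')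
      · rw [flp_flp]
        exact hab b hb
      · rw [ev, mul_assoc, e4, h4]
        exact f.1
      · intro w1 w2 e h
        cases w1 with
        | nil => simp [ev] at h
        | cons b w1 =>
          obtain ⟨rfl, e5⟩ := List.cons.inj e
          rw [ev, mul_assoc, e4, h4] at h
          exact f.2 w1 w2 e5 h
      · simp
        omega
    have := hmax _ hz'
    simp only [← e3, ← e1, List.length_cons] at this
    omega

end Ch

end Vale.Agent.P089
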