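import Vale.Agent.P089.Spec
import Vale.Agent.P194.Sachs

/-! General tools for the labelling: a counting local lemma, dependent choice, word counts. -/

namespace Vale.Agent.P089.LB

open Vale.Agent.P194 Finset Classical

/-- resampling the coordinates in `R` -/
theorem resample {E K C : Type} [Fintype E] [Fintype K] (R : Finset E) (V : Finset (E → K))
    (bad : (E → K) → Prop) (W : Finset C) (c : (E → K) → C)
    (hV : ∀ a ∈ V, ∀ b, (∀ e ∉ R, a e = b e) → b ∈ V) (hc : ∀ a, bad a → c a ∈ W)
    (hi : ∀ a b, bad a → bad b → c a = c b → (∀ e ∉ R, a e = b e) → a = b) :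
    (V.filter bad).card * Fintype.card K ^ R.card ≤ V.card * W.card := by
  have h1 : Fintype.card (R → K) = Fintype.card K ^ R.card := by simp
  rw [← h1, ← Finset.card_univ, ← Finset.card_product, ← Finset.card_product]
  refine Finset.card_le_card_of_injOn
    (fun p => (fun e => if h : e ∈ R then p.2 ⟨e, h⟩ else p.1 e, c p.1)) ?_ ?_
  · rintro ⟨a, r⟩ hp
    simp only [Finset.coe_product, Set.mem_prod, Finset.mem_coe, Finset.mem_filter] at hp ⊢
    exact ⟨hV a hp.1.1 _ fun e he => by simp [he], hc a hp.1.2⟩
  · rintro ⟨a, r⟩ hp ⟨b, r'⟩ hq h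
    simp only [Finset.coe_product, Set.mem_prod, Finset.mem_coe, Finset.mem_filter] at hp hq
    simp only [Prod.mk.injEq] at h ⊢
    refine ⟨hi a b hp.1.2 hq.1.2 h.2 fun e he => ?_, funext fun e => ?_⟩
    · simpa [he] using congrFun h.1 e
    · simpa using congrFun h.1 e.1

/-- the counting version of the local lemma -/
theorem clll {E K I : Type} [Fintype E] [Fintype K] [Nonempty K] (T : Finset I)
    (S R : I → Finset E) (bad : I → (E → K) → Prop) (w : I → ℝ) (hw : ∀ i ∈ T, 0 ≤ w i)
    (hne : ∀ i ∈ T, (S i).Nonempty)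
    (hS : ∀ i ∈ T, ∀ a b, (∀ e ∈ S i, a e = b e) → bad i a → bad i b)
    (hR : ∀ i ∈ T, ∀ V : Finset (E → K), (∀ a ∈ V, ∀ b, (∀ e ∉ R i, a e = b e) → b ∈ V) →
      ((V.filter (bad i)).card : ℝ) ≤ w i * V.card)
    (hs : ∀ e, ∑ i ∈ T, (if e ∈ S i then w i * 2 ^ (R i).card else 0) ≤ 1 / 2) :
    ∃ a, ∀ i ∈ T, ¬ bad i a := by
  let V : Finset E → Finset (E → K) := fun F => univ.filter fun a => ∀ i ∈ T, S i ⊆ F → ¬ bad i a
  have hmono : ∀ F F', F ⊆ F' → V F' ⊆ V F := fun F F' h a ha => by
    simp only [V, mem_filter, mem_univ, true_and] at ha ⊢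
    exact fun i hi h' => ha i hi (h'.trans h)
  have key : ∀ n, ∀ F : Finset E, F.card = n → ∀ e ∉ F,
      ((V F).card : ℝ) ≤ 2 * (V (insert e F)).card := by
    intro n
    induction n using Nat.strong_induction_on with
    | _ n ih =>
      intro F hF e he
      have h1 : ∀ A : Finset E, ((V (F \ A)).card : ℝ) ≤ 2 ^ A.card * (V F).card := by
        intro A
        induction A using Finset.induction_on with
        | empty => simp
        | insert x A hx ihA =>
          rw [card_insert_of_notMem hx, pow_succ]
          by_cases hxF : x ∈ F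
          · have e1 : insert x (F \ insert x A) = F \ A := by
              ext y
              simp only [mem_insert, mem_sdiff]
              constructor
              · rintro (rfl | h)
                · exact ⟨hxF, hx⟩
                · exact ⟨h.1, fun h' => h.2 (Or.inr h')⟩
              · intro h
                by_cases hy : y = x
                · exact Or.inl hy
                · exact Or.inr ⟨h.1, fun h' => h'.elim hy h.2⟩
            have := ih _ (hF ▸ card_lt_card ⟨sdiff_subset, fun h => by
              have := h hxF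
              simp at this⟩) (F \ insert x A) rfl x (by simp)
            rw [e1] at this
            linarith
          · have e1 : F \ insert x A = F \ A := by
              ext y
              simp only [mem_insert, mem_sdiff]
              exact ⟨fun h => ⟨h.1, fun h' => h.2 (Or.inr h')⟩,
                fun h => ⟨h.1, fun h' => h'.elim (fun h2 => hxF (h2 ▸ h.1)) h.2⟩⟩
            rw [e1]
            have : (0 : ℝ) ≤ 2 ^ A.card * (V F).card := by positivity
            linarith
      have h2 : V F ⊆ V (insert e F) ∪
          (T.filter fun i => e ∈ S i).biUnion fun i => (V (F \ R i)).filter (bad i) := by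
        intro a ha
        by_cases h : a ∈ V (insert e F)
        · exact mem_union_left _ h
        refine mem_union_right _ ?_
        simp only [V, mem_filter, mem_univ, true_and, not_forall, not_not] at h
        obtain ⟨i, hi, h3, h4⟩ := h
        refine mem_biUnion.2 ⟨i, mem_filter.2 ⟨hi, ?_⟩,
          mem_filter.2 ⟨hmono _ _ sdiff_subset ha, h4⟩⟩
        by_contra h5
        simp only [V, mem_filter, mem_univ, true_and] at ha
        exact ha i hi ((subset_insert_iff_of_notMem h5).1 h3) h4
      have h3 : ∀ i ∈ T, (((V (F \ R i)).filter (bad i)).card : ℝ) ≤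
          w i * 2 ^ (R i).card * (V F).card := fun i hi => by
        refine (hR i hi _ fun a ha b hab => ?_).trans ?_
        · simp only [V, mem_filter, mem_univ, true_and] at ha ⊢
          intro j hj h4 h5
          exact ha j hj h4 (hS j hj b a (fun x hx => (hab x (mem_sdiff.1 (h4 hx)).2).symm) h5)
        · rw [mul_assoc]
          exact mul_le_mul_of_nonneg_left (h1 _) (hw i hi)
      have h4 : ((V F).card : ℝ) ≤ (V (insert e F)).card +
          ∑ i ∈ T.filter fun i => e ∈ S i, (((V (F \ R i)).filter (bad i)).card : ℝ) := by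
        exact_mod_cast (card_le_card h2).trans ((card_union_le _ _).trans
          (Nat.add_le_add_left card_biUnion_le _))
      have h5 : ∑ i ∈ T.filter fun i => e ∈ S i, (((V (F \ R i)).filter (bad i)).card : ℝ) ≤
          1 / 2 * (V F).card := by
        refine (sum_le_sum fun i hi => h3 i (mem_filter.1 hi).1).trans ?_
        rw [← sum_mul, sum_filter]
        exact mul_le_mul_of_nonneg_right (hs e) (by positivity)
      linarith
  have pos : ∀ F : Finset E, (0 : ℝ) < (V F).card := by
    intro F
    induction F using Finset.induction_on with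
    | empty =>
      have : (Classical.arbitrary (E → K)) ∈ V ∅ := by
        simp only [V, mem_filter, mem_univ, true_and]
        intro i hi h
        exact absurd (subset_empty.1 h) (hne i hi).ne_empty
      exact_mod_cast card_pos.2 ⟨_, this⟩
    | insert x F hx ih =>
      have := key _ F rfl x hx
      linarith
  obtain ⟨a, ha⟩ := card_pos.1 (by exact_mod_cast pos univ : 0 < (V univ).card)
  simp only [V, mem_filter, mem_univ, true_and] at ha
  exact ⟨a, fun i hi => ha i hi (subset_univ _)⟩

/-- dependent choice along the natural numbers -/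
theorem exists_dep {X : ℕ → Type} (G : ∀ n, X n → Prop) (R : ∀ i n, X i → X n → Prop)
    (h : ∀ n (x : ∀ i, i < n → X i), (∀ i hi, G i (x i hi)) →
      ∃ y, G n y ∧ ∀ i hi, R i n (x i hi) y) :
    ∃ x : ∀ n, X n, ∀ n, G n (x n) ∧ ∀ i < n, R i n (x i) (x n) := by
  choose F hF using h
  let Φ : ∀ n, (∀ i, i < n → {y : X i // G i y}) → {y : X n // G n y} := fun n x =>
    ⟨F n (fun i hi => (x i hi).1) fun i hi => (x i hi).2, (hF _ _ _).1⟩
  let x : ∀ n, {y : X n // G n y} := (wellFounded_lt (α := ℕ)).fix Φ
  have hx : ∀ n, x n = Φ n fun i _ => x i := fun n => WellFounded.fix_eq _ _ _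
  refine ⟨fun n => (x n).1, fun n => ⟨(x n).2, fun i hi => ?_⟩⟩
  have := (hF n (fun i _ => (x i).1) fun i _ => (x i).2).2 i hi
  change R i n (x i).1 (x n).1
  rw [hx n]
  exact this

/-- a third of the pairs is independent -/
theorem third {I E : Type} (p p' : I → E) (T : Finset I) (h1 : Set.InjOn p T) (h2 : Set.InjOn p' T)
    (h3 : ∀ i ∈ T, p i ≠ p' i) :
    ∃ A ⊆ T, T.card ≤ 3 * A.card ∧ ∀ i ∈ A, ∀ j ∈ A, p i ≠ p' j := by
  induction T using Finset.strongInduction with
  | H T ih =>
    rcases T.eq_empty_or_nonempty with rfl | ⟨x, hx⟩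
    · exact ⟨∅, Subset.rfl, by simp, by simp⟩
    let T' := T.filter fun j => j ≠ x ∧ p j ≠ p' x ∧ p' j ≠ p x
    have hT : T' ⊆ T := filter_subset _ _
    obtain ⟨A, a1, a2, a3⟩ := ih T' ⟨hT, fun h => by simpa [T'] using h hx⟩
      (h1.mono hT) (h2.mono hT) fun i hi => h3 i (hT hi)
    have hxA : x ∉ A := fun h => by simpa [T'] using a1 h
    refine ⟨insert x A, insert_subset hx (a1.trans hT), ?_, ?_⟩
    · have b1 : (T.filter fun j => p j = p' x).card ≤ 1 := card_le_one.2 fun a ha b hb => by
        rw [mem_filter] at ha hb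
        exact h1 ha.1 hb.1 (ha.2.trans hb.2.symm)
      have b2 : (T.filter fun j => p' j = p x).card ≤ 1 := card_le_one.2 fun a ha b hb => by
        rw [mem_filter] at ha hb
        exact h2 ha.1 hb.1 (ha.2.trans hb.2.symm)
      have b3 : T ⊆ insert x (T' ∪ ((T.filter fun j => p j = p' x) ∪
          T.filter fun j => p' j = p x)) := fun j hj => by
        simp only [T', mem_insert, mem_union, mem_filter]
        tauto
      have b4 := (card_le_card b3).trans (card_insert_le _ _)
      have b5 := card_union_le T' ((T.filter fun j => p j = p' x) ∪ T.filter fun j => p' j = p x)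
      have b6 := card_union_le (T.filter fun j => p j = p' x) (T.filter fun j => p' j = p x)
      rw [card_insert_of_notMem hxA]
      omega
    · intro i hi j hj
      rw [mem_insert] at hi hj
      rcases hi with rfl | hi <;> rcases hj with rfl | hj
      · exact h3 _ hx
      · exact (mem_filter.1 (a1 hj)).2.2.2.symm
      · exact (mem_filter.1 (a1 hi)).2.2.1
      · exact a3 i hi j hj

section
variable {V Λ : Type} [Finite Λ]

/-- the words of length `n` which can be read from `x` -/
noncomputable def wds (E : V → Λ → V → Prop) (x : V) (n : ℕ) : Finset (List Λ) :=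
  (List.finite_length_eq Λ n).toFinset.filter fun w => ∃ y, Path E x w y

theorem mem_wds {E : V → Λ → V → Prop} {x : V} {n : ℕ} {w : List Λ} :
    w ∈ wds E x n ↔ w.length = n ∧ ∃ y, Path E x w y := by simp [wds]

theorem card_wds {E : V → Λ → V → Prop} (hd : Det E) {d : ℕ}
    (hdeg : ∀ v, {a | ∃ y, E v a y}.ncard ≤ d) (n : ℕ) : ∀ x, (wds E x n).card ≤ d ^ n := by
  induction n with
  | zero =>
    intro x
    refine (card_le_card (t := {[]}) fun w hw => ?_).trans (by simp)
    simpa using (mem_wds.1 hw).1
  | succ n ih =>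
    intro x
    let nx : Λ → V := fun a => if h : ∃ y, E x a y then h.choose else x
    have hs : wds E x (n + 1) ⊆ (Set.toFinite {a | ∃ y, E x a y}).toFinset.biUnion
        fun a => (wds E (nx a) n).image (a :: ·) := by
      intro w hw
      obtain ⟨h1, y, h2⟩ := mem_wds.1 hw
      obtain ⟨a, w, rfl⟩ := List.exists_cons_of_length_eq_add_one h1
      obtain ⟨z, h3, h4⟩ := path_cons_iff.1 h2
      have h5 : ∃ y, E x a y := ⟨z, h3⟩
      have h6 : nx a = z := by
        simp only [nx, dif_pos h5]
        exact hd _ _ _ _ h5.choose_spec h3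
      simp only [mem_biUnion, Set.Finite.mem_toFinset, Set.mem_ofPred_eq, mem_image]
      exact ⟨a, h5, w, mem_wds.2 ⟨by simpa using h1, y, h6 ▸ h4⟩, rfl⟩
    refine (card_le_card hs).trans ((card_biUnion_le_card_mul _ _ _ fun a _ =>
      card_image_le.trans (ih _)).trans ?_)
    rw [pow_succ', ← Set.ncard_eq_toFinset_card]
    exact Nat.mul_le_mul_right _ (hdeg x)

/-- all words of length `n` -/
noncomputable def awds [Fintype V] (E : V → Λ → V → Prop) (n : ℕ) : Finset (List Λ) :=
  univ.biUnion fun x => wds E x n

theorem mem_awds [Fintype V] {E : V → Λ → V → Prop} {n : ℕ} {w : List Λ} :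
    w ∈ awds E n ↔ w.length = n ∧ ∃ x y, Path E x w y := by
  simp [awds, mem_wds]

theorem card_awds [Fintype V] {E : V → Λ → V → Prop} (hd : Det E) {d : ℕ}
    (hdeg : ∀ v, {a | ∃ y, E v a y}.ncard ≤ d) (n : ℕ) :
    (awds E n).card ≤ Fintype.card V * d ^ n :=
  card_biUnion_le_card_mul _ _ _ fun x _ => card_wds hd hdeg n x

end

end Vale.Agent.P089.LB
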