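import Vale.Agent.P089.L1

/-! Small cancellation labelling of a graph of large girth. -/

namespace Vale.Agent.P089.LB

open Vale.Agent.P194 Finset Classical

/-- labels of darts -/
def lab {E K : Type} (a : E → K) (p : E × Bool) : K × Bool := (a p.1, p.2)

/-- graphs in which every edge has its own letter -/
structure DG {V E : Type} (G : V → E × Bool → V → Prop) (d g : ℕ) : Prop where
  symm : Symm flp G
  det : Det G
  src : ∀ x x' a y y', G x a y → G x' a y' → x = x'
  deg : ∀ v, {a | ∃ y, G v a y}.ncard ≤ d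
  girth : Girth flp G g

variable {V E : Type} {G : V → E × Bool → V → Prop} {d g : ℕ}

theorem DG.nodup (h : DG G d g) {x y : V} {u : List (E × Bool)} (hp : Path G x u y)
    (hr : Red flp u) (hl : u.length ≤ g) : (u.map Prod.fst).Nodup := by
  induction hp with
  | nil x => simp
  | @cons x y z a w h1 h2 ih =>
    rw [List.map_cons, List.nodup_cons]
    refine ⟨fun hm => ?_, ih hr.tail (by simp at hl; omega)⟩
    obtain ⟨b, hb, e⟩ := List.mem_map.1 hm
    obtain ⟨u1, u2, rfl⟩ := List.append_of_mem hb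
    obtain ⟨z1, p1, p2⟩ := path_append_iff.1 h2
    obtain ⟨z2, p3, -⟩ := path_cons_iff.1 p2
    simp only [List.length_cons, List.length_append] at hl
    by_cases hab : b = a
    · subst hab
      have := h.src _ _ _ _ _ h1 p3
      subst this
      have := h.girth x (b :: u1) (Red.left (w := b :: u1) hr) (Path.cons h1 p1) (by simp; omega)
      simp at this
    · have hb : b = flp a := by
        obtain ⟨b1, b2⟩ := b
        obtain ⟨a1, a2⟩ := a
        simp only at e
        subst e
        cases b2 <;> cases a2 <;> simp [flp] at hab ⊢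
      subst hb
      have := h.src _ _ _ _ _ (h.symm _ _ _ h1) p3
      subst this
      have := h.girth y u1 hr.tail.left p1 (by omega)
      subst this
      exact (red_cons_cons.1 hr).1 rfl

theorem DG.through [Fintype V] [Fintype E] (h : DG G d g) (hd : 1 ≤ d) (e : E) (j : ℕ) :
    ((awds G (j + 1)).filter fun u => e ∈ u.map Prod.fst).card ≤ 2 * (2 * d) ^ (j + 1) := by
  rcases ((awds G (j + 1)).filter fun u => e ∈ u.map Prod.fst).eq_empty_or_nonempty with
    h0 | ⟨u0, h0⟩
  · rw [h0]; simp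
  obtain ⟨-, x0, -⟩ := mem_awds.1 (mem_filter.1 h0).1
  let s : Bool → V × V := fun b =>
    if h : ∃ q : V × V, G q.1 (e, b) q.2 then h.choose else (x0, x0)
  have hs : ∀ b x y, G x (e, b) y → s b = (x, y) := fun b x y h1 => by
    have h2 : ∃ q : V × V, G q.1 (e, b) q.2 := ⟨(x, y), h1⟩
    simp only [s, dif_pos h2]
    have h3 := h.src _ _ _ _ _ h2.choose_spec h1
    have h4 := h2.choose_spec
    rw [h3] at h4
    exact Prod.ext h3 (h.det _ _ _ _ h4 h1)
  have h1 : ((awds G (j + 1)).filter fun u => e ∈ u.map Prod.fst) ⊆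
      (range (j + 1) ×ˢ (univ : Finset Bool)).biUnion fun q =>
        (wds G (s q.2).1 q.1 ×ˢ wds G (s q.2).2 (j - q.1)).image
          fun r => winv flp r.1 ++ (e, q.2) :: r.2 := by
    intro u hu
    obtain ⟨a1, a2⟩ := mem_filter.1 hu
    obtain ⟨a3, x, y, a4⟩ := mem_awds.1 a1
    obtain ⟨⟨e', b⟩, hb, rfl⟩ := List.mem_map.1 a2
    obtain ⟨u1, u2, rfl⟩ := List.append_of_mem hb
    obtain ⟨z1, p1, p2⟩ := path_append_iff.1 a4
    obtain ⟨z2, p3, p4⟩ := path_cons_iff.1 p2
    simp only [List.length_cons, List.length_append] at a3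
    refine mem_biUnion.2 ⟨(u1.length, b), by simp; omega, mem_image.2 ⟨(winv flp u1, u2), ?_, ?_⟩⟩
    · simp only [hs b _ _ p3, mem_product, mem_wds, length_winv, true_and]
      exact ⟨⟨x, p1.inv h.symm⟩, by omega, y, p4⟩
    · simp only [winv_winv flp_flp]
  refine (card_le_card h1).trans ((card_biUnion_le_card_mul _ _ (d ^ j) fun q hq => ?_).trans ?_)
  · refine card_image_le.trans ?_
    rw [card_product]
    refine (Nat.mul_le_mul (card_wds h.det h.deg _ _) (card_wds h.det h.deg _ _)).trans ?_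
    rw [← pow_add, Nat.add_sub_cancel' (by simp at hq; omega)]
  · have a1 : j + 1 ≤ 2 ^ (j + 1) := Nat.lt_two_pow_self.le
    have a2 : d ^ j ≤ d ^ (j + 1) := Nat.pow_le_pow_right hd (by omega)
    simp only [card_product, card_range, card_univ, Fintype.card_bool, mul_pow]
    calc (j + 1) * 2 * d ^ j = 2 * ((j + 1) * d ^ j) := by ring
      _ ≤ _ := Nat.mul_le_mul_left _ (Nat.mul_le_mul a1 a2)

theorem geo (g : ℕ) : ∑ j ∈ range g, 2 * (1 / 16 : ℝ) ^ (j + 1) ≤ 1 / 4 - (1 / 16) ^ g / 4 := by
  induction g with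
  | zero => simp
  | succ g ih =>
    rw [sum_range_succ, pow_succ]
    have : (0 : ℝ) ≤ (1 / 16) ^ g := by positivity
    linarith

theorem DG.indep (h : DG G d g) {L : ℕ} (hL : L ≤ g) {x y x' y' : V} {u u' : List (E × Bool)}
    (hp : Path G x u y) (hp' : Path G x' u' y') (hr : Red flp u) (hr' : Red flp u')
    (hl : u.length = L) (hl' : u'.length = L) (hne : ∀ q ∈ u.zip u', q.1.1 ≠ q.2.1) :
    ∃ R : Finset E, L ≤ 3 * R.card ∧ ∀ e ∈ R, ∃ q ∈ u.zip u', q.1.1 = e ∧ q.2.1 ∉ R := by
  have n1 : ((u.zip u').map fun q => q.1.1).Nodup := by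
    have := h.nodup hp hr (by omega)
    rwa [← List.map_fst_zip (l₁ := u) (l₂ := u') (by omega), List.map_map] at this
  have n2 : ((u.zip u').map fun q => q.2.1).Nodup := by
    have := h.nodup hp' hr' (by omega)
    rwa [← List.map_snd_zip (l₁ := u) (l₂ := u') (by omega), List.map_map] at this
  have i1 : Set.InjOn (fun q : (E × Bool) × E × Bool => q.1.1) (u.zip u').toFinset :=
    fun a ha b hb e => List.inj_on_of_nodup_map n1 (by simpa using ha) (by simpa using hb) e
  have i2 : Set.InjOn (fun q : (E × Bool) × E × Bool => q.2.1) (u.zip u').toFinset :=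
    fun a ha b hb e => List.inj_on_of_nodup_map n2 (by simpa using ha) (by simpa using hb) e
  obtain ⟨A, a1, a2, a3⟩ := third _ _ _ i1 i2 fun q hq => hne q (by simpa using hq)
  rw [List.toFinset_card_of_nodup n1.of_map, List.length_zip, hl, hl', min_self] at a2
  refine ⟨A.image fun q => q.1.1, by rwa [card_image_of_injOn (i1.mono a1)], fun e he => ?_⟩
  obtain ⟨q, hq, rfl⟩ := mem_image.1 he
  refine ⟨q, by simpa using a1 hq, rfl, fun h1 => ?_⟩
  obtain ⟨q', hq', e⟩ := mem_image.1 h1
  exact a3 q' hq' q hq e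

/-- the labelling -/
theorem DG.label [Fintype V] [Fintype E] (h : DG G d g) (hd : 1 ≤ d) {D k L : ℕ} (hD : 1 ≤ D)
    (hk : k = 64 * d * (8 * D ^ 6)) (Wd : ℕ → Finset (List (Ltr k)))
    (hW : ∀ n, (Wd n).card ≤ (8 * D ^ 6) ^ n) (hL : 2 ≤ L) (hLg : L ≤ g)
    (hN : Fintype.card V * d ^ L ≤ D ^ L) :
    ∃ a : E → Fin k, (∀ x u y, Path G x u y → Red flp u → u ≠ [] → u.length ≤ g →
        u.map (lab a) ∉ Wd u.length) ∧
      ∀ x u y x' u' y', Path G x u y → Path G x' u' y' → Red flp u → Red flp u' → u.length = L →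
        u'.length = L → (∀ q ∈ u.zip u', q.1.1 ≠ q.2.1) → ∃ q ∈ u.zip u', a q.1.1 ≠ a q.2.1 := by
  have hk0 : 0 < k := by rw [hk]; positivity
  have hk1 : (0 : ℝ) < k := by exact_mod_cast hk0
  have : Nonempty (Fin k) := ⟨⟨0, hk0⟩⟩
  let T1 : Finset (Σ _ : ℕ, List (E × Bool)) :=
    (range g).sigma fun j => (awds G (j + 1)).filter (Red flp)
  let T2 : Finset (List (E × Bool) × List (E × Bool)) :=
    (awds G L ×ˢ awds G L).filter fun p => Red flp p.1 ∧ Red flp p.2 ∧
      ∀ q ∈ p.1.zip p.2, q.1.1 ≠ q.2.1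
  have hR2 : ∀ p : List (E × Bool) × List (E × Bool), ∃ R : Finset E, p ∈ T2 →
      L ≤ 3 * R.card ∧ ∀ e ∈ R, ∃ q ∈ p.1.zip p.2, q.1.1 = e ∧ q.2.1 ∉ R := by
    intro p
    by_cases hp : p ∈ T2
    · obtain ⟨a1, a2, a3, a4⟩ := mem_filter.1 hp
      obtain ⟨b1, b2⟩ := mem_product.1 a1
      obtain ⟨c1, x, y, c2⟩ := mem_awds.1 b1
      obtain ⟨c3, x', y', c4⟩ := mem_awds.1 b2
      obtain ⟨R, hR⟩ := h.indep hLg c2 c4 a2 a3 c1 c3 a4
      exact ⟨R, fun _ => hR⟩
    · exact ⟨∅, fun h => absurd h hp⟩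
  choose R2 hR2 using hR2
  have hc1 : ∀ i ∈ T1, i.2.length = i.1 + 1 ∧ (i.2.map Prod.fst).toFinset.card = i.1 + 1 := by
    intro i hi
    obtain ⟨a1, a2⟩ := mem_sigma.1 hi
    obtain ⟨a3, a4⟩ := mem_filter.1 a2
    obtain ⟨a5, x, y, a6⟩ := mem_awds.1 a3
    refine ⟨a5, ?_⟩
    rw [List.toFinset_card_of_nodup (h.nodup a6 a4 (by simp at a1; omega)), List.length_map, a5]
  obtain ⟨a, ha⟩ := clll (K := Fin k) (T1.disjSum T2)
    (Sum.elim (fun i => (i.2.map Prod.fst).toFinset) fun _ => univ)
    (Sum.elim (fun i => (i.2.map Prod.fst).toFinset) R2)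
    (Sum.elim (fun i a => i.2.map (lab a) ∈ Wd (i.1 + 1))
      fun p a => ∀ q ∈ p.1.zip p.2, a q.1.1 = a q.2.1)
    (Sum.elim (fun i => (8 * D ^ 6 / k : ℝ) ^ (i.1 + 1)) fun p => (1 / k : ℝ) ^ (R2 p).card)
    (by rintro (i | p) - <;> simp only [Sum.elim_inl, Sum.elim_inr] <;> positivity)
    (by
      rintro (i | p) hi
      · exact card_pos.1 (by rw [Sum.elim_inl, (hc1 i (inl_mem_disjSum.1 hi)).2]; omega)
      · have := (hR2 p (inr_mem_disjSum.1 hi)).1
        exact (card_pos.1 (by omega : 0 < (R2 p).card)).mono (subset_univ _))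
    (by
      rintro (i | p) - a b hab
      · simp only [Sum.elim_inl] at hab ⊢
        rw [List.map_congr_left (g := lab b) fun q hq => by
          simp only [lab, hab q.1 (List.mem_toFinset.2 (List.mem_map_of_mem hq))]]
        exact id
      · rw [show a = b from funext fun e => hab e (mem_univ _)]
        exact id)
    (by
      rintro (i | p) hi U hU
      · have := resample _ U (fun a => i.2.map (lab a) ∈ Wd (i.1 + 1)) (Wd (i.1 + 1))
          (fun a => i.2.map (lab a)) hU (fun a ha => ha) fun a b _ _ h1 h2 => funext fun e => by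
            by_cases he : e ∈ (i.2.map Prod.fst).toFinset
            · obtain ⟨q, hq, rfl⟩ := List.mem_map.1 (List.mem_toFinset.1 he)
              exact congrArg Prod.fst (List.map_inj_left.1 h1 q hq)
            · exact h2 e he
        simp only [Sum.elim_inl, (hc1 i (inl_mem_disjSum.1 hi)).2, Fintype.card_fin] at this ⊢
        rw [div_pow, div_mul_eq_mul_div, le_div_iff₀ (by positivity), mul_comm _ (U.card : ℝ)]
        exact_mod_cast this.trans (Nat.mul_le_mul_left _ (hW _))
      · have := resample _ U (fun a => ∀ q ∈ p.1.zip p.2, a q.1.1 = a q.2.1) {()}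
          (fun _ => ()) hU (fun a ha => by simp) fun a b h0 h1 _ h2 => funext fun e => by
            by_cases he : e ∈ R2 p
            · obtain ⟨q, hq, rfl, h3⟩ := (hR2 p (inr_mem_disjSum.1 hi)).2 e he
              rw [h0 q hq, h1 q hq, h2 _ h3]
            · exact h2 e he
        simp only [Sum.elim_inr, Fintype.card_fin, card_singleton, mul_one] at this ⊢
        rw [div_pow, div_mul_eq_mul_div, le_div_iff₀ (by positivity), one_pow, one_mul]
        exact_mod_cast this)
    (by
      intro e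
      rw [sum_disjSum]
      simp only [Sum.elim_inl, Sum.elim_inr, mem_univ, if_true]
      have hd' : (1 : ℝ) ≤ d := by exact_mod_cast hd
      have hD' : (1 : ℝ) ≤ D := by exact_mod_cast hD
      have hk' : (k : ℝ) = 64 * d * (8 * D ^ 6) := by rw [hk]; push_cast; ring
      have s1 : ∑ i ∈ T1, (if e ∈ (i.2.map Prod.fst).toFinset then (8 * D ^ 6 / k : ℝ) ^ (i.1 + 1) *
          2 ^ (i.2.map Prod.fst).toFinset.card else 0) ≤ 1 / 4 := by
        rw [sum_congr rfl (g := fun i => if e ∈ i.2.map Prod.fst then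
          (1 / (32 * d) : ℝ) ^ (i.1 + 1) else 0) fun i hi => by
            rw [(hc1 i hi).2, ← mul_pow, hk']
            simp only [List.mem_toFinset]
            congr 2
            field_simp
            norm_num, sum_sigma]
        refine le_trans (sum_le_sum fun j _ => ?_) ((geo g).trans (sub_le_self _ (by positivity)))
        simp only
        rw [← sum_filter, sum_const, nsmul_eq_mul]
        have a1 : ((((awds G (j + 1)).filter (Red flp)).filter
            fun u => e ∈ u.map Prod.fst).card : ℝ) ≤ 2 * (2 * d) ^ (j + 1) := by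
          exact_mod_cast (card_le_card (filter_subset_filter _ (filter_subset _ _))).trans
            (h.through hd e j)
        refine (mul_le_mul_of_nonneg_right a1 (by positivity)).trans (le_of_eq ?_)
        rw [mul_assoc, ← mul_pow]
        congr 2
        field_simp
        norm_num
      have s2 : ∑ p ∈ T2, (1 / k : ℝ) ^ (R2 p).card * 2 ^ (R2 p).card ≤ 1 / 4 := by
        have a1 : ∀ p ∈ T2, (1 / k : ℝ) ^ (R2 p).card * 2 ^ (R2 p).card ≤
            (1 / (2 * D ^ 2) : ℝ) ^ L := fun p hp => by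
          have b1 : (1 : ℝ) ≤ D ^ 2 := one_le_pow₀ hD'
          refine le_trans ?_ (pow_le_pow_of_le_one (by positivity)
            ((div_le_one (by positivity)).2 (by linarith)) (hR2 p hp).1)
          rw [← mul_pow, pow_mul]
          refine pow_le_pow_left₀ (by positivity) ?_ _
          rw [hk', div_pow, div_mul_eq_mul_div, div_le_div_iff₀ (by positivity) (by positivity)]
          have : (0 : ℝ) ≤ D ^ 6 := by positivity
          nlinarith
        have a2 : (T2.card : ℝ) ≤ (D ^ 2) ^ L := by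
          have := (card_awds h.det h.deg L).trans hN
          have b1 : T2.card ≤ D ^ L * D ^ L :=
            (card_filter_le _ _).trans (by rw [card_product]; exact Nat.mul_le_mul this this)
          rw [← mul_pow, ← sq] at b1
          exact_mod_cast b1
        refine (sum_le_card_nsmul _ _ _ a1).trans ?_
        rw [nsmul_eq_mul]
        refine (mul_le_mul_of_nonneg_right a2 (by positivity)).trans ?_
        rw [← mul_pow, show (D : ℝ) ^ 2 * (1 / (2 * D ^ 2)) = 1 / 2 by field_simp]
        exact (pow_le_pow_of_le_one (by norm_num) (by norm_num) hL).trans (by norm_num)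
      refine le_trans (add_le_add (le_trans (le_of_eq ?_) s1) s2) (by norm_num)
      exact sum_congr rfl fun i _ => by congr)
  refine ⟨a, fun x u y h1 h2 h3 h4 => ?_, fun x u y x' u' y' h1 h2 h3 h4 h5 h6 h7 => ?_⟩
  · have h5 : 0 < u.length := List.length_pos_iff.2 h3
    have := ha (Sum.inl ⟨u.length - 1, u⟩) (inl_mem_disjSum.2 (mem_sigma.2 ⟨by simp; omega,
      mem_filter.2 ⟨mem_awds.2 ⟨by simp; omega, x, y, h1⟩, h2⟩⟩))
    simpa only [Sum.elim_inl, Nat.sub_add_cancel h5] using this
  · have := ha (Sum.inr (u, u')) (inr_mem_disjSum.2 (mem_filter.2 ⟨mem_product.2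
      ⟨mem_awds.2 ⟨h5, x, y, h1⟩, mem_awds.2 ⟨h6, x', y', h2⟩⟩, h3, h4, h7⟩))
    simpa only [Sum.elim_inr, not_forall, exists_prop] using this

end Vale.Agent.P089.LB
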