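import Vale.Agent.P089.Limit
import Vale.Agent.P089.Base

/-! The group with its levels. -/

namespace Vale.Agent.P089

open Vale.Agent.P194 Classical

namespace Dat

variable (F : Dat)

/-- the disjoint union of the graphs -/
def GV (x : Σ n, Fin (F.N n)) (a : Ltr F.k) (y : Σ n, Fin (F.N n)) : Prop :=
  ∃ n u u', x = ⟨n, u⟩ ∧ y = ⟨n, u'⟩ ∧ F.Γ n u a u'

variable {F}

theorem gv_iff {n : ℕ} {u : Fin (F.N n)} {a : Ltr F.k} {y : Σ n, Fin (F.N n)} :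
    F.GV ⟨n, u⟩ a y ↔ ∃ u', y = ⟨n, u'⟩ ∧ F.Γ n u a u' := by
  constructor
  · rintro ⟨n', v, u', h, rfl, e⟩
    cases h
    exact ⟨u', rfl, e⟩
  · rintro ⟨u', rfl, e⟩
    exact ⟨n, u, u', rfl, rfl, e⟩

theorem path_gv {n : ℕ} {w : List (Ltr F.k)} : ∀ {u : Fin (F.N n)} {y : Σ n, Fin (F.N n)},
    Path F.GV ⟨n, u⟩ w y ↔ ∃ u', y = ⟨n, u'⟩ ∧ Path (F.Γ n) u w u' := by
  induction w with
  | nil =>
    intro u y
    simp only [path_nil_iff]
    exact ⟨fun h => ⟨u, h.symm, rfl⟩, fun ⟨_, h, e⟩ => by rw [h, e]⟩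
  | cons a w ih =>
    intro u y
    simp only [path_cons_iff, gv_iff]
    constructor
    · rintro ⟨_, ⟨u1, rfl, e⟩, p⟩
      obtain ⟨u', rfl, p'⟩ := ih.1 p
      exact ⟨u', rfl, u1, e, p'⟩
    · rintro ⟨u', rfl, u1, e, p⟩
      exact ⟨_, ⟨u1, rfl, e⟩, ih.2 ⟨u', rfl, p⟩⟩

theorem sig_inj {n : ℕ} {u u' : Fin (F.N n)}
    (h : (⟨n, u⟩ : Σ n, Fin (F.N n)) = ⟨n, u'⟩) : u = u' := eq_of_heq (Sigma.mk.inj h).2

theorem gd (F : Dat) : Gd flp F.GV fun x => F.P x.1 where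
  invol := flp_flp
  symm := by
    rintro _ a _ ⟨n, u, u', rfl, rfl, e⟩
    exact ⟨n, u', u, rfl, rfl, (F.xg n).symm _ _ _ e⟩
  det := by
    rintro ⟨n, u⟩ a y y' h h'
    obtain ⟨u1, rfl, e⟩ := gv_iff.1 h
    obtain ⟨u2, rfl, e'⟩ := gv_iff.1 h'
    rw [(F.xg n).det _ _ _ _ e e']
  sc := by
    rintro _ a _ ⟨n, u, u', rfl, rfl, e⟩
    rfl
  girth := by
    rintro ⟨n, u⟩ w hr p hl
    obtain ⟨u', e, p⟩ := path_gv.1 p
    rw [← sig_inj e] at p
    exact (F.xg n).girth _ _ hr p hl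
  piece := by
    rintro w ⟨n, v⟩ ⟨n', v'⟩ y y' hr hl q q'
    obtain ⟨u, -, p⟩ := path_gv.1 q
    obtain ⟨u', -, p'⟩ := path_gv.1 q'
    rcases lt_trichotomy n n' with h | rfl | h
    · exact (F.cross _ _ h _ _ _ _ _ hr hl p p').elim
    · rw [(F.xg n).piece _ _ _ _ _ hr hl p p']
    · exact (F.cross _ _ h _ _ _ _ _ hr ((F.mono h.le).trans_lt hl) p' p).elim
  pos := fun x => F.pos x.1

theorem Used.flp {a : Ltr F.k} : F.Used a → F.Used (flp a) :=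
  fun ⟨n, u, u', e⟩ => ⟨n, u', u, (F.xg n).symm _ _ _ e⟩

end Dat

open Dat in
theorem levStmt : LevStmt := by
  intro F
  obtain ⟨Z, E, lev, z0, L⟩ := exists_levZ F.gd (by
    rintro ⟨n, v⟩
    obtain ⟨w, u, h1, h2, h3, -⟩ := F.long n (2 * F.P n + 1) v
    exact ⟨w, ⟨n, u⟩, h1, by simp [h2], path_gv.2 ⟨u, rfl, h3⟩⟩)
  let nx : Ltr F.k → Z → Z := fun a z => if h : ∃ z', E z a z' then h.choose else z
  have nxE : ∀ z a z', E z a z' → nx a z = z' := by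
    intro z a z' h
    have h' : ∃ z', E z a z' := ⟨z', h⟩
    simp only [nx, dif_pos h']
    exact L.det _ _ _ _ h'.choose_spec h
  have tot : ∀ a z, F.Used a → E z a (nx a z) := by
    rintro a z ⟨n, u, u', e⟩
    obtain ⟨z', h⟩ := (L.full z ⟨n, u⟩).path (Path.single (gv_iff.2 ⟨u', rfl, e⟩))
    obtain ⟨y, h1, -⟩ := path_cons_iff.1 h
    rw [nxE _ _ _ h1]
    exact h1
  have unu : ∀ a z, ¬ F.Used a → nx a z = z := by
    intro a z h
    simp only [nx]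
    rw [dif_neg]
    rintro ⟨z', e⟩
    obtain ⟨_, _, n, u, u', -, -, e⟩ := L.used _ _ _ e
    exact h ⟨n, u, u', e⟩
  have hinv : ∀ a z, nx (flp a) (nx a z) = z := by
    intro a z
    by_cases h : F.Used a
    · exact nxE _ _ _ (L.symm _ _ _ (tot a z h))
    · rw [unu a z h, unu _ _ fun c => h (by simpa [flp_flp] using c.flp)]
  let pm : Fin F.k → Equiv.Perm Z := fun s =>
    ⟨nx (s, true), nx (s, false), hinv (s, true), hinv (s, false)⟩
  let H := (FreeGroup.lift pm).range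
  let g0 : Fin F.k → H := fun s => ⟨pm s, FreeGroup.of s, by simp⟩
  let gl : Ltr F.k → H := fun a => if a.2 then g0 a.1 else (g0 a.1)⁻¹
  have glE : ∀ a z, (gl a).1 z = nx a z := by
    rintro ⟨s, b⟩ z
    cases b <;> rfl
  have act : ∀ w y y', Path E y w y' → (ev gl w).1 y = y' := by
    intro w y y' p
    induction p with
    | nil x => rfl
    | cons h _ ih =>
      rw [ev, Subgroup.coe_mul, Equiv.Perm.mul_apply, glE, nxE _ _ _ h, ih]
  have cpE : ∀ {n φ}, F.Cp gl n φ → ∀ {u w u'}, Path (F.Γ n) u w u' →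
      Path E ((φ u).1 z0) w ((φ u').1 z0) := fun {n φ} h {u w u'} p =>
    p.map (fun u => (φ u).1 z0) fun u a u' e => by
      rw [h _ _ _ e, Subgroup.coe_mul, Equiv.Perm.mul_apply, glE]
      exact tot _ _ ⟨n, u, u', e⟩
  have hex : ∀ n v z, ∃ φ, F.Cp gl n φ ∧ φ v = z := by
    intro n v z
    choose wd hwd using F.conn n v
    have key : ∀ y, ∃ f : Fin (F.N n) → Z, f v = y ∧ (∀ u a u', F.Γ n u a u' → E (f u) a (f u')) ∧
        ∀ u, (ev gl (wd u)).1 y = f u := by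
      intro y
      obtain ⟨f, h1, h2, -⟩ := L.full y ⟨n, v⟩
      have h3 : ∀ u a u', F.Γ n u a u' → E (f ⟨n, u⟩) a (f ⟨n, u'⟩) := fun u a u' e =>
        h2 _ _ _ ⟨_, path_gv.2 ⟨u, rfl, hwd u⟩⟩ (gv_iff.2 ⟨u', rfl, e⟩)
      refine ⟨fun u => f ⟨n, u⟩, h1, h3, fun u => act _ _ _ ?_⟩
      rw [← h1]
      exact (hwd u).map (fun u => f ⟨n, u⟩) h3
    refine ⟨fun u => ev gl (wd u) * z, fun u a u' e => ?_, ?_⟩
    · simp only
      rw [← mul_assoc]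
      congr 1
      refine Subtype.ext (Equiv.ext fun y => ?_)
      obtain ⟨f, -, h2, h3⟩ := key y
      rw [Subgroup.coe_mul, Equiv.Perm.mul_apply, glE, h3, h3, nxE _ _ _ (h2 _ _ _ e)]
    · have : ev gl (wd v) = 1 := by
        refine Subtype.ext (Equiv.ext fun y => ?_)
        obtain ⟨f, h1, -, h3⟩ := key y
        rw [h3, h1]
        rfl
      simp [this]
  have low : ∀ {n φ}, F.Cp gl n φ → ∀ v, Low F.GV E lev ((φ v).1 z0) ⟨n, v⟩ ↔
      ∃ u, lev ((φ u).1 z0) < lev ((φ v).1 z0) := by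
    intro n φ h v
    constructor
    · rintro ⟨w, z1, y, p, q0, hl⟩
      obtain ⟨u, -, q⟩ := path_gv.1 q0
      exact ⟨u, by rw [← p.det L.det (cpE h q)]; exact hl⟩
    · rintro ⟨u, hl⟩
      obtain ⟨w, q⟩ := F.conn n v u
      exact ⟨w, _, _, cpE h q, path_gv.2 ⟨u, rfl, q⟩, hl⟩
  refine ⟨H, inferInstance, gl, fun g => lev (g.1 z0),
    (MonoidHom.rangeRestrict_surjective _).countable, Group.fg_range _, ?_, hex, ?_, L.base, ?_, ?_, ?_, ?_⟩
  · rintro ⟨s, b⟩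
    cases b <;> simp [gl, flp]
  · intro n φ h u u' e
    obtain ⟨w, q⟩ := F.conn n u u'
    have p := cpE h q
    rw [← e] at p
    exact sig_inj ((L.full _ _).inj L.det p (path_gv.2 ⟨u', rfl, q⟩))
  · intro n φ u u' h
    obtain ⟨w, q⟩ := F.conn n u' u
    exact L.top _ _ _ _ _ (cpE h q) (path_gv.2 ⟨u, rfl, q⟩)
  · intro z a ha hl
    simp only [Subgroup.coe_mul, Equiv.Perm.mul_apply, glE] at hl
    obtain ⟨_, _, ⟨n, v, v', rfl, rfl, e⟩, h⟩ := L.edge _ _ _ (tot a _ ha) hl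
    obtain ⟨φ, c, rfl⟩ := hex n v z
    obtain ⟨u, hu⟩ := (low c v).1 h
    exact ⟨n, φ, v, v', u, c, rfl, e, hu⟩
  · intro n φ v u n' φ' v' u' c c' e h h'
    have l' := (low c' v').2 ⟨u', by rw [← e]; exact h'⟩
    rw [← e] at l'
    rcases L.shared _ _ _ ((low c v).2 ⟨u, h⟩) l' with h | ⟨w, z1, _, _, hr, l1, l2, q0, q1, p, hl⟩
    · cases h
      exact Or.inl (by rw [c.ext c' e])
    · obtain ⟨y, -, q⟩ := path_gv.1 q0
      obtain ⟨y', -, q'⟩ := path_gv.1 q1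
      exact Or.inr ⟨w, y, y', hr, l1, l2, q, q', by rw [← p.det L.det (cpE c q)]; exact hl⟩
  · intro n φ v u c h hu
    obtain ⟨w, q⟩ := F.conn n v u
    obtain ⟨r, hr, hl, p⟩ := L.root _ ⟨n, v⟩ w _ _ (fun l => by
      obtain ⟨y, hy⟩ := (low c v).1 l
      exact absurd (h y) (not_le.2 hy)) (cpE c q) (path_gv.2 ⟨u, rfl, q⟩) hu
    refine ⟨r, hr, hl, ?_⟩
    generalize lev ((φ v).1 z0) = K at p ⊢
    clear hr hl q h hu
    induction r generalizing v with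
    | nil =>
      have := path_nil_iff.1 p
      rw [sig_inj (Prod.ext_iff.1 this).2]
      exact Path.nil _
    | cons a r ih =>
      obtain ⟨⟨z1, y⟩, ⟨h1, h2⟩, p⟩ := path_cons_iff.1 p
      obtain ⟨y, rfl, e⟩ := gv_iff.1 h2
      obtain rfl : z1 = (φ y).1 z0 := (Path.single h1.1).det L.det (cpE c (Path.single e))
      exact Path.cons ⟨e, h1.2.1, h1.2.2⟩ (ih y p)

end Vale.Agent.P089
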