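import Vale.Agent.P089.Step
import Vale.Agent.P194.Limit

/-! The limit of the level-wise construction. -/

namespace Vale.Agent.P089

open Vale.Agent.P194 Classical

variable {Λ V : Type}

/-- A level of the construction. -/
structure Stg (ι : Λ → Λ) (Γ : V → Λ → V → Prop) (P : V → ℕ) : Type 1 where
  X : Type
  E : X → Λ → X → Prop
  good : GdX ι Γ P E

/-- The tower of levels. -/
noncomputable def twr {ι : Λ → Λ} {Γ : V → Λ → V → Prop} {P : V → ℕ} (hΓ : Gd ι Γ P) :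
    ℕ → Stg ι Γ P
  | 0 => ⟨Unit, fun _ _ _ => False, fun _ _ _ h => h, fun _ _ _ _ h => h.elim, fun _ _ =>
      Or.inr fun w _ _ _ h _ => by
        cases h with
        | nil => simp
        | cons h _ => exact h.elim⟩
  | n + 1 => ⟨Nxt (twr hΓ n).X Λ V, nE ι Γ P (twr hΓ n).E, nxt_gd hΓ (twr hΓ n).good⟩

/-- The copy through `(z, v)` reaches a lower level. -/
def Low {Z : Type} (Γ : V → Λ → V → Prop) (E : Z → Λ → Z → Prop) (lev : Z → ℕ) (z : Z) (v : V) :
    Prop := ∃ w z0 v0, Path E z w z0 ∧ Path Γ v w v0 ∧ lev z0 < lev z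

/-- The properties of the limit graph. -/
structure LevZ {Z : Type} (ι : Λ → Λ) (Γ : V → Λ → V → Prop) (P : V → ℕ)
    (E : Z → Λ → Z → Prop) (lev : Z → ℕ) (z0 : Z) : Prop where
  symm : Symm ι E
  det : Det E
  full : ∀ z v, Ful Γ E z v
  base : lev z0 = 0
  used : ∀ z a z', E z a z' → ∃ v v', Γ v a v'
  top : ∀ z w z' v v', Path E z w z' → Path Γ v w v' → lev z' ≤ lev z + 1
  edge : ∀ z a z', E z a z' → lev z' ≤ lev z → ∃ v v', Γ v a v' ∧ Low Γ E lev z v
  shared : ∀ z v v', Low Γ E lev z v → Low Γ E lev z v' → v = v' ∨ ∃ w z1 y y', Red ι w ∧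
    w.length ≤ P v ∧ w.length ≤ P v' ∧ Path Γ v w y ∧ Path Γ v' w y' ∧ Path E z w z1 ∧
    lev z1 < lev z
  root : ∀ z v w z' v', ¬ Low Γ E lev z v → Path E z w z' → Path Γ v w v' → lev z' ≤ lev z →
    ∃ r, Red ι r ∧ r.length ≤ 2 * P v ∧
      Path (Prod2 (Res E (lev · ≤ lev z)) Γ) (z, v) r (z', v')

theorem exists_levZ {ι : Λ → Λ} {Γ : V → Λ → V → Prop} {P : V → ℕ} (hΓ : Gd ι Γ P)
    (long : ∀ v, ∃ w u, Red ι w ∧ 2 * P v < w.length ∧ Path Γ v w u) :
    ∃ (Z : Type) (E : Z → Λ → Z → Prop) (lev : Z → ℕ) (z0 : Z), LevZ ι Γ P E lev z0 := by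
  let T := twr hΓ
  let X : ℕ → Type := fun n => (T n).X
  let En : ∀ n, X n → Λ → X n → Prop := fun n => (T n).E
  have good : ∀ n, GdX ι Γ P (En n) := fun n => (T n).good
  let e : ∀ n, X n → X (n + 1) := fun n => emb V Λ
  have he : ∀ n, Function.Injective (e n) := fun n => emb_inj
  obtain ⟨Z, j, jinj, jc, jsurj⟩ := exists_colim X e he
  let E : Z → Λ → Z → Prop := fun z a z' => ∃ n x x', En n x a x' ∧ z = j n x ∧ z' = j n x'
  have jmor : ∀ n, Mor (En n) E (j n) := fun n x a x' h => ⟨n, x, x', h, rfl, rfl⟩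
  have emor : ∀ n, Mor (En n) (En (n + 1)) (e n) := fun n => emb_mor'
  have eind : ∀ n x a y, En (n + 1) (e n x) a (e n y) → En n x a y :=
    fun n x a y h => emb_ind' hΓ (good n) h
  have efull : ∀ n x v, Ful Γ (En (n + 1)) (e n x) v := fun n x v => nxt_ful hΓ (good n) x v
  have rmono : ∀ n m, n ≤ m → ∀ x, ∃ y, j m y = j n x := by
    intro n m h x
    induction h with
    | refl => exact ⟨x, rfl⟩
    | step _ ih =>
      obtain ⟨y, hy⟩ := ih
      exact ⟨e _ y, by rw [jc, hy]⟩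
  have up : ∀ n m, n ≤ m → ∀ x a x', En n x a x' →
      ∃ y y', En m y a y' ∧ j m y = j n x ∧ j m y' = j n x' := by
    intro n m h x a x' hx
    induction h with
    | refl => exact ⟨x, x', hx, rfl, rfl⟩
    | step _ ih =>
      obtain ⟨y, y', h1, h2, h3⟩ := ih
      exact ⟨e _ y, e _ y', emor _ _ _ _ h1, by rw [jc, h2], by rw [jc, h3]⟩
  have down : ∀ n m, n ≤ m → ∀ x a x' y y', En m y a y' → j m y = j n x → j m y' = j n x' →
      En n x a x' := by
    intro n m h x a x'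
    induction h with
    | refl =>
      intro y y' h1 h2 h3
      rw [← jinj _ h2, ← jinj _ h3]
      exact h1
    | @step m hm ih =>
      intro y y' h1 h2 h3
      obtain ⟨y1, hy1⟩ := rmono n m hm x
      obtain ⟨y2, hy2⟩ := rmono n m hm x'
      have e1 : y = e m y1 := jinj _ (by rw [jc, hy1, h2])
      have e2 : y' = e m y2 := jinj _ (by rw [jc, hy2, h3])
      rw [e1, e2] at h1
      exact ih y1 y2 (eind _ _ _ _ h1) hy1 hy2
  have jind : ∀ n x a x', E (j n x) a (j n x') → En n x a x' := by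
    rintro n x a x' ⟨m, y, y', h1, h2, h3⟩
    obtain ⟨y1, y2, h4, h5, h6⟩ := up m (max m n) (le_max_left _ _) _ _ _ h1
    exact down n (max m n) (le_max_right _ _) _ _ _ y1 y2 h4 (by rw [h5, h2]) (by rw [h6, h3])
  have hex : ∀ z, ∃ n, z ∈ Set.range (j n) := fun z => by
    obtain ⟨n, x, rfl⟩ := jsurj z
    exact ⟨n, x, rfl⟩
  let lev : Z → ℕ := fun z => Nat.find (hex z)
  have lev_le : ∀ z n, lev z ≤ n ↔ z ∈ Set.range (j n) := by
    intro z n
    constructor
    · intro h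
      obtain ⟨x, hx⟩ := Nat.find_spec (hex z)
      obtain ⟨y, hy⟩ := rmono _ n h x
      exact ⟨y, hy.trans hx⟩
    · intro h
      exact Nat.find_min' _ h
  have lev_j : ∀ n x, lev (j n x) ≤ n := fun n x => (lev_le _ _).2 ⟨x, rfl⟩
  have hsymm : Symm ι E := by
    rintro z a z' ⟨n, x, x', h, rfl, rfl⟩
    exact ⟨n, x', x, (good n).symm _ _ _ h, rfl, rfl⟩
  have hdet : Det E := by
    intro z a z1 z2 h1 h2
    obtain ⟨M, h3, h4, h5⟩ : ∃ M, lev z ≤ M ∧ lev z1 ≤ M ∧ lev z2 ≤ M :=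
      ⟨lev z + lev z1 + lev z2, by omega, by omega, by omega⟩
    obtain ⟨x1, rfl⟩ := (lev_le _ _).1 h3
    obtain ⟨x2, rfl⟩ := (lev_le _ _).1 h4
    obtain ⟨x3, rfl⟩ := (lev_le _ _).1 h5
    rw [(good M).det _ _ _ _ (jind _ _ _ _ h1) (jind _ _ _ _ h2)]
  have stay : ∀ n x v w v' z', Ful Γ (En n) x v → Path Γ v w v' → Path E (j n x) w z' →
      lev z' ≤ n := by
    intro n x v w v' z' h p q
    obtain ⟨x', hx⟩ := h.path p
    rw [q.det hdet (hx.map _ (jmor n))]
    exact lev_j _ _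
  have htop : ∀ z w z' v v', Path E z w z' → Path Γ v w v' → lev z' ≤ lev z + 1 := by
    intro z w z' v v' p q
    obtain ⟨x, hx⟩ := (lev_le z (lev z)).1 le_rfl
    exact stay _ _ _ _ _ _ (efull _ x v) q (by rw [jc, hx]; exact p)
  have cpath : ∀ n Y u u' w, Cell Γ (En n) Y → InC Γ Y u → Path Γ u w u' →
      Path E (j (n + 1) (cm ι Γ P (En n) Y u)) w (j (n + 1) (cm ι Γ P (En n) Y u')) :=
    fun n Y u u' w hY c p => (cm_path hY c p).map (E := En (n + 1)) _ (jmor (n + 1))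
  have croot : ∀ n Y x v, Cell Γ (En n) Y → (x, v) ∈ Y →
      j (n + 1) (cm ι Γ P (En n) Y v) = j n x := fun n Y x v hY h => by
    rw [cm_root hΓ (good n) hY h]
    exact jc n x
  have cellOf : ∀ n z v, lev z = n + 1 → Low Γ E lev z v →
      ∃ Y, Cell Γ (En n) Y ∧ InC Γ Y v ∧ z = j (n + 1) (cm ι Γ P (En n) Y v) := by
    rintro n z v hz ⟨w, z0, v0, p, q, hl⟩
    obtain ⟨x0, rfl⟩ := (lev_le z0 n).1 (by omega)
    have hn : ¬ Ful Γ (En n) x0 v0 := fun h => by
      have := stay _ _ _ _ _ _ h (q.inv hΓ.symm) (p.inv hsymm)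
      omega
    obtain ⟨Y, hY, hx⟩ := exists_cel hn
    refine ⟨Y, hY, ⟨x0, v0, hx, _, q.inv hΓ.symm⟩, ?_⟩
    have := cpath n Y _ _ _ hY ⟨x0, v0, hx, .rfl' _⟩ (q.inv hΓ.symm)
    rw [croot n Y x0 v0 hY hx] at this
    exact (p.inv hsymm).det hdet this
  refine ⟨Z, E, lev, j 0 (), hsymm, hdet, ?_, Nat.le_zero.1 (lev_j 0 _), ?_, htop, ?_, ?_, ?_⟩
  · intro z v
    obtain ⟨n, x, rfl⟩ := jsurj z
    rw [← jc]
    exact (efull n x v).map (jinj _) (jmor _)
  · rintro z a z' ⟨n, x, x', h, -, -⟩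
    induction n with
    | zero => exact h.elim
    | succ n ih =>
      rcases h with ⟨y, y', h, -, -⟩ | ⟨Y, u, u', -, -, h, -, -⟩
      · exact ih y y' h
      · exact ⟨u, u', h⟩
  · intro z a z' h hl
    obtain ⟨n, hn⟩ : ∃ n, lev z = n := ⟨_, rfl⟩
    obtain ⟨x, rfl⟩ := (lev_le z n).1 hn.le
    obtain ⟨x', rfl⟩ := (lev_le z' n).1 (by omega)
    have h1 := jind _ _ _ _ h
    cases n with
    | zero => exact h1.elim
    | succ n =>
      obtain ⟨Y, u, u', hY, c, h2, rfl⟩ := cell_of_edge h1 (by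
        rintro ⟨y, rfl⟩
        have := lev_j n y
        rw [← jc] at this
        exact absurd (hn.symm.le.trans this) (by omega))
      obtain ⟨x0, v0, hx, w, hw⟩ := id c
      refine ⟨u, u', h2, _, j n x0, v0, ?_, hw.inv hΓ.symm, ?_⟩
      · rw [← croot n Y x0 v0 hY hx]
        exact cpath n Y _ _ _ hY c (hw.inv hΓ.symm)
      · have := lev_j n x0
        omega
  · intro z v v' h h'
    obtain ⟨n, hn⟩ : ∃ n, lev z = n + 1 := by
      obtain ⟨_, z0, -, -, -, hl⟩ := h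
      exact ⟨lev z - 1, by omega⟩
    obtain ⟨Y, hY, c, e1⟩ := cellOf n z v hn h
    obtain ⟨Y', hY', c', e2⟩ := cellOf n z v' hn h'
    have e3 := jinj _ (e1.symm.trans e2)
    rcases hc : cm ι Γ P (En n) Y' v' with ⟨x, w⟩ | ⟨Y2, u⟩
    · obtain ⟨n1, l1⟩ := cm_eq_inl (e3.trans hc)
      obtain ⟨n2, l2⟩ := cm_eq_inl hc
      obtain ⟨hr, -, y, hy, p⟩ := n1.spec
      obtain ⟨-, -, y', -, p'⟩ := n2.spec
      refine Or.inr ⟨w, j n x, y, y', hr, l1, l2, p, p', ?_, ?_⟩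
      · rw [e1, ← croot n Y x y hY hy]
        exact cpath n Y _ _ _ hY c p
      · have := lev_j n x
        omega
    · exact Or.inl ((cm_eq_inr (e3.trans hc)).2.trans (cm_eq_inr hc).2.symm)
  · intro z v w z' v' hl p q hz
    obtain ⟨n, hn⟩ : ∃ n, lev z = n := ⟨_, rfl⟩
    obtain ⟨x, rfl⟩ := (lev_le z n).1 hn.le
    obtain ⟨x', rfl⟩ := (lev_le z' n).1 (by omega)
    have hf : ¬ Ful Γ (En n) x v := by
      intro h
      obtain ⟨r, u, hr, hlen, hp⟩ := long v
      obtain ⟨y, hy⟩ := h.path hp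
      cases n with
      | zero =>
        cases hy with
        | nil => simp at hlen
        | cons h _ => exact h.elim
      | succ n =>
        have := (nl_short hΓ (good n) (z := x) (v := v) (fun r y u p q => hl ⟨r, j n y, u, by
          rw [← jc n y]; exact p.map (E := En (n + 1)) _ (jmor (n + 1)), q, by
            have := lev_j n y; omega⟩) r y u hr hy hp).1
        omega
    obtain ⟨Y, hY, hx⟩ := exists_cel hf
    have h1 := cpath n Y _ _ _ hY ⟨x, v, hx, .rfl' _⟩ q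
    rw [croot n Y x v hY hx] at h1
    have h2 : cm ι Γ P (En n) Y v' = Sum.inl (x', []) :=
      jinj (n + 1) ((h1.det hdet p).trans (jc n x').symm)
    have h3 : (x', v') ∈ Y := by
      have := (cm_eq_inl h2).1
      cases this with
      | root h => exact h
    obtain ⟨r, hr, ⟨hlen, -⟩, hp⟩ := hY.short hΓ (good n) hx h3
    refine ⟨r, hr, hlen, ?_⟩
    rw [hn]
    exact hp.map (E' := Prod2 (Res E (lev · ≤ n)) Γ) (fun q => (j n q.1, q.2))
      fun a b c h => ⟨⟨jmor _ _ _ _ h.1, lev_j _ _, lev_j _ _⟩, h.2⟩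

end Vale.Agent.P089
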