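import Vale.Agent.P194.Group

/-! Finite combinatorial input: labelled expanders of logarithmic girth with codes. -/

namespace Vale.Agent.P089

open Vale.Agent.P194

/-- letters -/
abbrev Ltr (k : ℕ) : Type := Fin k × Bool

/-- labelled expander with girth `100 P`, pieces at most `P`, out-degree `m`, degree at most `d` -/
structure XG {k N : ℕ} (m d P : ℕ) (Γ : Fin N → Ltr k → Fin N → Prop) : Prop where
  pos : 0 < N
  symm : Symm flp Γ
  det : Det Γ
  girth : Girth flp Γ (100 * P)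
  piece : Piece flp Γ P
  out : ∀ v, {s : Fin k | ∃ u, Γ v (s, true) u}.ncard = m
  deg : ∀ v, {a : Ltr k | ∃ u, Γ v a u}.ncard ≤ d
  exp : ∀ U : Finset (Fin N), 4 * U.card ≤ 3 * N →
    10 * {p : Fin N × Fin k | p.1 ∈ U ∧ ∃ u ∈ U, Γ p.1 (p.2, true) u}.ncard ≤ 9 * m * U.card

open Classical in
/-- the pattern of letters of a labelled graph -/
noncomputable def pat {V Λ : Type} (Γ : V → Λ → V → Prop) : V × Λ → ZMod 2 :=
  fun p => if ∃ u, Γ p.1 p.2 u then 1 else 0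

/-- a binary code containing the pattern, of large distance on the out-darts, free on balls -/
structure Code {k N : ℕ} (m P : ℕ) (Γ : Fin N → Ltr k → Fin N → Prop)
    (C : Submodule (ZMod 2) (Fin N × Ltr k → ZMod 2)) : Prop where
  pat : pat Γ ∈ C
  dist : ∀ c ∈ C, 3 * {p : Fin N × Fin k | (∃ u, Γ p.1 (p.2, true) u) ∧
    c (p.1, (p.2, true)) ≠ 0}.ncard ≤ m * N → c = 0
  ext : ∀ (v : Fin N) (f : Fin N × Ltr k → ZMod 2), ∃ c ∈ C, ∀ u w a, Path Γ v w u →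
    w.length ≤ 3 * P → c (u, a) = f (u, a)

/-- final finite input -/
def FamStmt : Prop :=
  ∃ (k m d : ℕ) (N P : ℕ → ℕ) (Γ : ∀ n, Fin (N n) → Ltr k → Fin (N n) → Prop)
    (C : ∀ n, Submodule (ZMod 2) (Fin (N n) × Ltr k → ZMod 2)),
    100 ≤ m ∧ d ≤ m ^ 2 ∧ Monotone P ∧ (∀ n, 1 ≤ P n ∧ XG m d (P n) (Γ n) ∧ Code m (P n) (Γ n) (C n)) ∧
    (∀ n n', n < n' → ∀ w v u v' u', Red flp w → P n < w.length → Path (Γ n) v w u →
      Path (Γ n') v' w u' → False) ∧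
    ∀ n, 2 ^ (n + 1) * ∏ i ∈ Finset.range (n + 1), Nat.card (C i) ≤ Nat.card (C (n + 1))

/-- the multigraph with edges `e = (x, i) : x → f e`, every edge carrying its own label -/
def G0 {N m : ℕ} (f : Fin N × Fin m → Fin N) : Fin N → (Fin N × Fin m) × Bool → Fin N → Prop :=
  fun x a y => if a.2 then x = a.1.1 ∧ y = f a.1 else x = f a.1 ∧ y = a.1.1

/-- module G: expanders of logarithmic girth -/
def GraphStmt : Prop :=
  ∃ m : ℕ, 101 ≤ m ∧ ∀ g N : ℕ, 1000 * (101 * m) ^ (g + 1) ≤ N →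
    ∃ f : Fin N × Fin m → Fin N, (∀ y, (Finset.univ.filter fun e => f e = y).card ≤ 100 * m) ∧
      Girth flp (G0 f) g ∧ ∀ U : Finset (Fin N), 4 * U.card ≤ 3 * N →
        10 * (Finset.univ.filter fun e => e.1 ∈ U ∧ f e ∈ U).card ≤ 9 * m * U.card

/-- module C: random binary codes -/
def CodeStmt : Prop :=
  ∀ (B J : Type) [Fintype B] [DecidableEq B] [Fintype J] (D : Finset B) (π : B → ZMod 2)
    (T : J → Finset B) (t : ℕ), (∀ b ∈ D, π b = 1) → (∀ j, (T j).card ≤ t) →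
    Fintype.card J ≤ 2 ^ t → 100 * (t + 1) ≤ D.card →
    ∃ C : Submodule (ZMod 2) (B → ZMod 2), π ∈ C ∧
      (∀ c ∈ C, 3 * (D.filter fun b => c b ≠ 0).card ≤ D.card → c = 0) ∧
      ∀ j (f : B → ZMod 2), ∃ c ∈ C, ∀ b ∈ T j, c b = f b

end Vale.Agent.P089
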