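import Vale.Agent.P089.Spec
import Vale.Agent.P089.Stmt

/-! Interfaces between the infinite parts of the construction. -/

namespace Vale.Agent.P089

open Vale.Agent.P194 Classical

/-- The reduced group C-star algebra: norm closure of the linear span of `leftReg G`. -/
def cstarRed (G : Type) [Group G] : Set (L2 G →L[ℂ] L2 G) :=
  closure (Submodule.span ℂ (leftReg G) : Set (L2 G →L[ℂ] L2 G))

/-- The canonical trace: the vector state of the Dirac mass at the unit. -/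
noncomputable def canTrace (G : Type) [Group G] (T : L2 G →L[ℂ] L2 G) : ℂ :=
  inner ℂ (lp.single 2 (1 : G) (1 : ℂ) : L2 G) (T (lp.single 2 (1 : G) (1 : ℂ)))

/-- some countable group has a projection of trace `t` in its reduced algebra -/
def TrProj (t : ℝ) : Prop :=
  ∃ (G : Type) (_ : Group G), Countable G ∧ Group.FG G ∧
    ∃ p ∈ cstarRed G, IsStarProjection p ∧ canTrace G p = (t : ℂ)

/-- configurations -/
abbrev Cfg (H Λ : Type) : Type := H × Λ → ZMod 2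

/-- right shift of configurations -/
def sh {H Λ : Type} [Group H] (g : H) (ω : Cfg H Λ) : Cfg H Λ := fun p => ω (p.1 * g, p.2)

/-- the operator field with steps `s i` and local coefficients `t i` -/
def Bop {H Λ I : Type} [Group H] [Fintype I] (s : I → H) (t : I → Cfg H Λ → ℝ) (ω : Cfg H Λ)
    (f : H → ℝ) : H → ℝ := fun g => ∑ i, t i (sh g ω) * f (s i * g)

/-- the iterates of `B` form a geometric Cauchy sequence in operator norm -/
def Contr {X : Type} (β : ℝ) (B : (X → ℝ) → X → ℝ) : Prop :=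
  ∀ (U W : Finset X) (f : X → ℝ) (j : ℕ), (∀ x ∉ U, f x = 0) →
    ∑ x ∈ W, (B^[j + 1] f x - B^[j] f x) ^ 2 ≤ (2 * β ^ j) ^ 2 * ∑ x ∈ U, f x ^ 2

/-- the diagonal entries at `x` of the iterates of `B` converge to `c` geometrically -/
def Diag {X : Type} (β : ℝ) (B : (X → ℝ) → X → ℝ) (x : X) (c : ℝ) : Prop :=
  ∀ j : ℕ, |B^[j] (fun y => if y = x then 1 else 0) x - c| ≤ β ^ j

/-- module A: from a field of operators over a linear subshift to a projection -/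
def AnaStmt : Prop :=
  ∀ (H Λ I J : Type) [Group H] [Countable H] [Group.FG H] [Finite Λ] [Fintype I] [Countable J]
    (Ω : AddSubgroup (Cfg H Λ)) (s : I → H) (t : I → Cfg H Λ → ℝ) (r : I → I)
    (F : Finset (H × Λ)) (β : ℝ) (B : J → Type) [∀ j, Finite (B j)] (φ : ∀ j, B j → H × Λ)
    (C : ∀ j, Submodule (ZMod 2) (B j → ZMod 2)) (π : ∀ j, B j → ZMod 2) (x : J → ℝ),
    IsClosed (Ω : Set (Cfg H Λ)) → (∀ g, ∀ ω ∈ Ω, sh g ω ∈ Ω) →
    (∀ i ω ω', (∀ p ∈ F, ω p = ω' p) → t i ω = t i ω') →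
    (∀ i, r (r i) = i) → (∀ i, s (r i) = (s i)⁻¹) → (∀ i ω, t (r i) (sh (s i) ω) = t i ω) →
    0 ≤ β → β < 1 → (∀ ω ∈ Ω, Contr β (Bop s t ω)) →
    (∀ j c, c ∈ C j ↔ ∃ ω ∈ Ω, ω ∘ φ j = c) → (∀ j, π j ∈ C j) →
    (∀ ω ∈ Ω, ∀ j j', ω ∘ φ j = π j → ω ∘ φ j' = π j' → j = j') →
    (∀ ω ∈ Ω, ∀ j, ω ∘ φ j = π j → Diag β (Bop s t ω) 1 (x j)) →
    (∀ ω ∈ Ω, (∀ j, ω ∘ φ j ≠ π j) → Diag β (Bop s t ω) 1 0) →
    ∃ T : ℝ, HasSum (fun j => x j / Nat.card (C j)) T ∧ TrProj T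

/-- lazy walk with killing -/
noncomputable def Sop {X Λ : Type} [Fintype Λ] (σ : Λ → X → X) (O : X → Λ → Prop) (deg : X → ℕ)
    (D : ℕ) (f : X → ℝ) : X → ℝ :=
  fun x => f x - (deg x * f x - ∑ a, if O x a then f (σ a x) else 0) / (2 * D)

/-- the isoperimetric inequality for the set `U` -/
def Chg {X Λ : Type} (σ : Λ → X → X) (O : X → Λ → Prop) (deg : X → ℕ) (U : Finset X) : Prop :=
  U.card + 100 * ∑ x ∈ U, {a | O x a ∧ σ a x ∈ U}.ncard ≤ 100 * ∑ x ∈ U, deg x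

/-- module S: isoperimetric inequality implies spectral gap -/
def GapStmt : Prop :=
  ∀ D : ℕ, 1 ≤ D → ∃ β : ℝ, 0 ≤ β ∧ β < 1 ∧ ∀ (X Λ : Type) [Fintype Λ] (ι : Λ → Λ)
    (σ : Λ → X → X) (O : X → Λ → Prop) (deg : X → ℕ) (blk : Set (Finset X)),
    (∀ a, ι (ι a) = a) → (∀ a x, σ (ι a) (σ a x) = x) → (∀ x a, O x a → O (σ a x) (ι a)) →
    (∀ x, {a | O x a}.ncard ≤ deg x ∧ deg x ≤ D) →
    (∀ Y ∈ blk, ∀ Y' ∈ blk, ∀ x ∈ Y, x ∈ Y' → Y = Y') →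
    (∀ Y ∈ blk, ∀ x ∈ Y, deg x = {a | O x a}.ncard ∧ ∀ a, O x a → σ a x ∈ Y) →
    (∀ U : Finset X, (∀ Y ∈ blk, Disjoint U Y) → Chg σ O deg U) →
    (∀ Y ∈ blk, ∀ U ⊆ Y, 2 * U.card ≤ Y.card → Chg σ O deg U) →
    Contr β (Sop σ O deg D) ∧ (∀ Y ∈ blk, ∀ x ∈ Y, Diag β (Sop σ O deg D) x (1 / Y.card)) ∧
      ∀ x, (∀ Y ∈ blk, x ∉ Y) → Diag β (Sop σ O deg D) x 0

/-- the finite input, bundled -/
structure Dat : Type where
  k : ℕ
  m : ℕ
  d : ℕ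
  N : ℕ → ℕ
  P : ℕ → ℕ
  Γ : ∀ n, Fin (N n) → Ltr k → Fin (N n) → Prop
  C : ∀ n, Submodule (ZMod 2) (Fin (N n) × Ltr k → ZMod 2)
  hm : 100 ≤ m
  hd : d ≤ m ^ 2
  mono : Monotone P
  pos : ∀ n, 1 ≤ P n
  xg : ∀ n, XG m d (P n) (Γ n)
  code : ∀ n, Code m (P n) (Γ n) (C n)
  cross : ∀ n n', n < n' → ∀ w v u v' u', Red flp w → P n < w.length → Path (Γ n) v w u →
    Path (Γ n') v' w u' → False
  grow : ∀ n, 2 ^ (n + 1) * ∏ i ∈ Finset.range (n + 1), Nat.card (C i) ≤ Nat.card (C (n + 1))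

namespace Dat

variable (F : Dat) {H : Type} [Group H] (gl : Ltr F.k → H)

/-- letters which occur -/
def Used (a : Ltr F.k) : Prop := ∃ n u u', F.Γ n u a u'

/-- copies of the `n`-th graph in the Cayley graph -/
def Cp (n : ℕ) (φ : Fin (F.N n) → H) : Prop := ∀ u a u', F.Γ n u a u' → φ u' = gl a * φ u

/-- the level structure of the Cayley graph -/
structure Lev (lev : H → ℕ) : Prop where
  inv : ∀ a, gl (flp a) = (gl a)⁻¹
  ex : ∀ n v z, ∃ φ, F.Cp gl n φ ∧ φ v = z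
  inj : ∀ n φ, F.Cp gl n φ → Function.Injective φ
  one : lev 1 = 0
  top : ∀ n φ u u', F.Cp gl n φ → lev (φ u) ≤ lev (φ u') + 1
  edge : ∀ z a, F.Used a → lev (gl a * z) ≤ lev z →
    ∃ n φ v v' u, F.Cp gl n φ ∧ φ v = z ∧ F.Γ n v a v' ∧ lev (φ u) < lev z
  shared : ∀ n φ v u n' φ' v' u', F.Cp gl n φ → F.Cp gl n' φ' → φ v = φ' v' →
    lev (φ u) < lev (φ v) → lev (φ' u') < lev (φ v) →
    (⟨n, φ⟩ : Σ n, Fin (F.N n) → H) = ⟨n', φ'⟩ ∨ ∃ w y y', Red flp w ∧ w.length ≤ F.P n ∧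
      w.length ≤ F.P n' ∧ Path (F.Γ n) v w y ∧ Path (F.Γ n') v' w y' ∧ lev (φ y) < lev (φ v)
  root : ∀ n φ v u, F.Cp gl n φ → (∀ u', lev (φ v) ≤ lev (φ u')) → lev (φ u) ≤ lev (φ v) →
    ∃ r, Red flp r ∧ r.length ≤ 2 * F.P n ∧
      Path (Res (F.Γ n) fun y => lev (φ y) ≤ lev (φ v)) v r u

/-- restriction of a configuration to a copy -/
def rs {n : ℕ} (φ : Fin (F.N n) → H) (ω : Cfg H (Ltr F.k)) : Fin (F.N n) × Ltr F.k → ZMod 2 :=
  fun p => ω (φ p.1, p.2)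

/-- the linear subshift -/
def Om : AddSubgroup (Cfg H (Ltr F.k)) where
  carrier := {ω | ∀ n φ, F.Cp gl n φ → F.rs φ ω ∈ F.C n}
  add_mem' := fun h h' n φ c => (F.C n).add_mem (h n φ c) (h' n φ c)
  zero_mem' := fun n _ _ => (F.C n).zero_mem
  neg_mem' := fun h n φ c => (F.C n).neg_mem (h n φ c)

/-- proposals -/
def Prp (ω : Cfg H (Ltr F.k)) (g : H) (a : Ltr F.k) : Prop := F.Used a ∧ ω (g, a) ≠ 0

/-- good vertices make at least `m` outgoing proposals -/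
def Good (ω : Cfg H (Ltr F.k)) (g : H) : Prop := F.m ≤ {s | F.Prp ω g (s, true)}.ncard

/-- open edges -/
def Opn (ω : Cfg H (Ltr F.k)) (g : H) (a : Ltr F.k) : Prop :=
  F.Prp ω g a ∧ F.Prp ω (gl a * g) (flp a) ∧ F.Good ω g ∧ F.Good ω (gl a * g)

/-- degree with penalty -/
noncomputable def dg (ω : Cfg H (Ltr F.k)) (g : H) : ℕ :=
  {a | F.Prp ω g a}.ncard + if F.Good ω g then 0 else 1

end Dat

/-- module V: the group with its levels -/
def LevStmt : Prop :=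
  ∀ F : Dat, ∃ (H : Type) (_ : Group H) (gl : Ltr F.k → H) (lev : H → ℕ),
    Countable H ∧ Group.FG H ∧ F.Lev gl lev

/-- module X: codewords on a copy through the unit extend -/
def ExtStmt : Prop :=
  ∀ (F : Dat) (H : Type) [Group H] (gl : Ltr F.k → H) (lev : H → ℕ), F.Lev gl lev →
    ∀ n φ v, F.Cp gl n φ → φ v = 1 → ∀ c ∈ F.C n, ∃ ω ∈ F.Om gl, F.rs φ ω = c

/-- module K: isoperimetric inequality away from the full copies -/
def ChgStmt : Prop :=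
  ∀ (F : Dat) (H : Type) [Group H] (gl : Ltr F.k → H) (lev : H → ℕ), F.Lev gl lev →
    ∀ ω ∈ F.Om gl, ∀ U : Finset H,
      (∀ n φ u, F.Cp gl n φ → F.rs φ ω = pat (F.Γ n) → φ u ∉ U) →
      Chg (fun a g => gl a * g) (F.Opn gl ω) (F.dg ω) U

end Vale.Agent.P089
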