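import Vale.Agent.P194.Step

/-! One step of the level-wise gluing construction, with a scale depending on the component. -/

namespace Vale.Agent.P089

open Vale.Agent.P194 Classical

section Defs
variable {X Λ V : Type}

/-- same component -/
def Conn (Γ : V → Λ → V → Prop) (v u : V) : Prop := ∃ w, Path Γ v w u

/-- An embedded copy of the component of `v` passes through `x` at position `v`. -/
def Ful (Γ : V → Λ → V → Prop) (E : X → Λ → X → Prop) (x : X) (v : V) : Prop :=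
  ∃ f : V → X, f v = x ∧ (∀ u a u', Conn Γ v u → Γ u a u' → E (f u) a (f u')) ∧
    ∀ u u', Conn Γ v u → Conn Γ v u' → f u = f u' → u = u'

/-- Hypotheses on the relator graph. -/
structure Gd (ι : Λ → Λ) (Γ : V → Λ → V → Prop) (P : V → ℕ) : Prop where
  invol : ∀ a, ι (ι a) = a
  symm : Symm ι Γ
  det : Det Γ
  sc : ∀ u a u', Γ u a u' → P u' = P u
  girth : ∀ x w, Red ι w → Path Γ x w x → w.length < 100 * P x → w = []
  piece : ∀ w v v' u u', Red ι w → P v < w.length → Path Γ v w u → Path Γ v' w u' → v = v'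
  pos : ∀ v, 1 ≤ P v

/-- The invariant of the construction. -/
structure GdX (ι : Λ → Λ) (Γ : V → Λ → V → Prop) (P : V → ℕ) (E : X → Λ → X → Prop) : Prop where
  symm : Symm ι E
  det : Det E
  inv : ∀ x v, Ful Γ E x v ∨ ∀ w x' v', Red ι w → Path E x w x' → Path Γ v w v' →
    w.length ≤ 2 * P v ∧ (x' = x → w = [])

variable {ι : Λ → Λ} {Γ : V → Λ → V → Prop} {P : V → ℕ} {E : X → Λ → X → Prop}

theorem Conn.step {v u u' : V} {w : List Λ} (h : Conn Γ v u) (h' : Path Γ u w u') :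
    Conn Γ v u' := let ⟨_, h⟩ := h; ⟨_, h.append h'⟩

theorem Conn.rfl' (v : V) : Conn Γ v v := ⟨[], Path.nil _⟩

theorem Gd.scp (hΓ : Gd ι Γ P) {u u' : V} {w : List Λ} (h : Path Γ u w u') : P u' = P u := by
  induction h with
  | nil x => rfl
  | cons h1 _ ih => rw [ih, hΓ.sc _ _ _ h1]

theorem Gd.uniq (hΓ : Gd ι Γ P) {x y : V} {w w' : List Λ} (hw : Red ι w) (hw' : Red ι w')
    (h : Path Γ x w y) (h' : Path Γ x w' y) (hl : w.length + w'.length < 100 * P x) : w = w' := by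
  have res : ∀ {u u' : V} {r : List Λ}, Path Γ u r u' → P u = P x →
      Path (Res Γ (P · = P x)) u r u' := by
    intro u u' r hp
    induction hp with
    | nil x => exact fun _ => Path.nil _
    | cons h1 _ ih =>
      intro e
      have e' := (hΓ.sc _ _ _ h1).trans e
      exact Path.cons ⟨h1, e, e'⟩ (ih e')
  refine Girth.eq_of_paths (g := 100 * P x) hΓ.invol (hΓ.symm.res _) (hΓ.det.res _) ?_ hw hw'
    (res h rfl) (res h' rfl) hl
  intro z r hr hp hz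
  cases r with
  | nil => rfl
  | cons a r =>
    obtain ⟨z1, h1, -⟩ := path_cons_iff.1 hp
    exact hΓ.girth z _ hr hp.of_res (by rw [h1.2.1]; exact hz)

theorem path_of_mor {f : V → X} {v : V}
    (hf : ∀ u a u', Conn Γ v u → Γ u a u' → E (f u) a (f u')) {u u' : V} {w : List Λ}
    (h : Path Γ u w u') : Conn Γ v u → Path E (f u) w (f u') := by
  induction h with
  | nil x => exact fun _ => Path.nil _
  | cons h1 _ ih => exact fun c => Path.cons (hf _ _ _ c h1) (ih (c.step (Path.single h1)))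

theorem Ful.step (hs : Symm ι Γ) (hd : Det E) {x x' : X} {v v' : V} {w : List Λ}
    (h : Ful Γ E x v) (h1 : Path E x w x') (h2 : Path Γ v w v') : Ful Γ E x' v' := by
  obtain ⟨f, rfl, hf, hi⟩ := h
  have c : ∀ u, Conn Γ v' u → Conn Γ v u := fun u ⟨_, h⟩ => ⟨_, h2.append h⟩
  exact ⟨f, (path_of_mor hf h2 (.rfl' v)).det hd h1, fun u a u' h => hf u a u' (c u h),
    fun u u' h h' => hi u u' (c u h) (c u' h')⟩

theorem Ful.path {x : X} {v v' : V} {w : List Λ} (h : Ful Γ E x v) (h2 : Path Γ v w v') :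
    ∃ x', Path E x w x' := by
  obtain ⟨f, rfl, hf, -⟩ := h
  exact ⟨_, path_of_mor hf h2 (.rfl' v)⟩

theorem Ful.inj (hd : Det E) {x : X} {v v' : V} {w : List Λ} (h : Ful Γ E x v)
    (h1 : Path E x w x) (h2 : Path Γ v w v') : v = v' := by
  obtain ⟨f, rfl, hf, hi⟩ := h
  exact hi _ _ (.rfl' v) ⟨_, h2⟩ (h1.det hd (path_of_mor hf h2 (.rfl' v)))

theorem Ful.map {Z : Type} {E' : Z → Λ → Z → Prop} {j : X → Z} (hj : Function.Injective j)
    (hm : Mor E E' j) {x : X} {v : V} (h : Ful Γ E x v) : Ful Γ E' (j x) v := by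
  obtain ⟨f, rfl, hf, hi⟩ := h
  exact ⟨fun u => j (f u), rfl, fun u a u' c h => hm _ _ _ (hf u a u' c h),
    fun u u' c c' e => hi u u' c c' (hj e)⟩

end Defs

section Construction
variable {X Λ V : Type} (ι : Λ → Λ) (Γ : V → Λ → V → Prop) (P : V → ℕ) (E : X → Λ → X → Prop)

/-- A component of the part of the product graph which is not full. -/
def Cell (Y : Set (X × V)) : Prop :=
  ∃ p : X × V, ¬ Ful Γ E p.1 p.2 ∧ Y = {q | ∃ w, Path (Prod2 E Γ) p w q}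

/-- vertices in the component of the cell -/
def InC (Y : Set (X × V)) (u : V) : Prop := ∃ x v, (x, v) ∈ Y ∧ Conn Γ v u

/-- The gluing map of a cell. -/
noncomputable def cm (Y : Set (X × V)) (u : V) : Nxt X Λ V :=
  if h : ∃ n : X × List Λ, Nm ι Γ E Y n.1 u n.2 ∧ n.2.length ≤ P u then Sum.inl h.choose
  else Sum.inr (Y, u)

/-- The edges of the next level. -/
def nE (z : Nxt X Λ V) (a : Λ) (z' : Nxt X Λ V) : Prop :=
  (∃ x x', E x a x' ∧ z = emb V Λ x ∧ z' = emb V Λ x') ∨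
    ∃ Y u u', Cell Γ E Y ∧ InC Γ Y u ∧ Γ u a u' ∧ z = cm ι Γ P E Y u ∧ z' = cm ι Γ P E Y u'

/-- No common path leads from `(z, v)` to the old level. -/
def NL (z : Nxt X Λ V) (v : V) : Prop :=
  ∀ w x v', Path (nE ι Γ P E) z w (emb V Λ x) → Path Γ v w v' → False

variable {ι Γ P E}
variable (hΓ : Gd ι Γ P) (hE : GdX ι Γ P E)
include hΓ hE

theorem Cell.conn {Y : Set (X × V)} (hY : Cell Γ E Y) {q q' : X × V} (hq : q ∈ Y)
    (hq' : q' ∈ Y) : ∃ w, Path (Prod2 E Γ) q w q' := by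
  obtain ⟨p, -, rfl⟩ := hY
  obtain ⟨w, hw⟩ := hq
  obtain ⟨w', hw'⟩ := hq'
  exact ⟨_, (hw.inv (hE.symm.prod2 hΓ.symm)).append hw'⟩

theorem Cell.notFul {Y : Set (X × V)} (hY : Cell Γ E Y) {q : X × V} (hq : q ∈ Y) :
    ¬ Ful Γ E q.1 q.2 := by
  obtain ⟨p, hp, rfl⟩ := hY
  obtain ⟨w, hw⟩ := hq
  intro h
  have := path_prod2_iff.1 (hw.inv (hE.symm.prod2 hΓ.symm))
  exact hp (h.step hΓ.symm hE.det this.1 this.2)

omit hΓ hE in
theorem Cell.closed {Y : Set (X × V)} (hY : Cell Γ E Y) {q q' : X × V} (hq : q ∈ Y)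
    {w : List Λ} (h : Path (Prod2 E Γ) q w q') : q' ∈ Y := by
  obtain ⟨p, -, rfl⟩ := hY
  obtain ⟨w', hw'⟩ := hq
  exact ⟨_, hw'.append h⟩

theorem Cell.eq {Y Y' : Set (X × V)} (hY : Cell Γ E Y) (hY' : Cell Γ E Y') {q : X × V}
    (hq : q ∈ Y) (hq' : q ∈ Y') : Y = Y' := by
  ext r
  constructor
  · intro hr
    obtain ⟨w, hw⟩ := hY.conn hΓ hE hq hr
    exact hY'.closed hq' hw
  · intro hr
    obtain ⟨w, hw⟩ := hY'.conn hΓ hE hq' hr
    exact hY.closed hq hw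

omit hΓ hE in
theorem exists_cel {x : X} {v : V} (h : ¬ Ful Γ E x v) : ∃ Y, Cell Γ E Y ∧ (x, v) ∈ Y :=
  ⟨_, ⟨(x, v), h, rfl⟩, [], Path.nil _⟩

theorem Cell.short {Y : Set (X × V)} (hY : Cell Γ E Y) {q q' : X × V} (hq : q ∈ Y)
    (hq' : q' ∈ Y) : ∃ w, Red ι w ∧ (w.length ≤ 2 * P q.2 ∧ (q'.1 = q.1 → w = [])) ∧
      Path (Prod2 E Γ) q w q' := by
  obtain ⟨w, hw⟩ := hY.conn hΓ hE hq hq'
  obtain ⟨w', hr, -, hp⟩ := hw.exists_red (hE.symm.prod2 hΓ.symm) (hE.det.prod2 hΓ.det)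
  refine ⟨w', hr, ?_, hp⟩
  rcases hE.inv q.1 q.2 with h | h
  · exact absurd h (hY.notFul hΓ hE hq)
  · have := path_prod2_iff.1 hp
    exact h _ _ _ hr this.1 this.2

theorem Cell.inj {Y : Set (X × V)} (hY : Cell Γ E Y) {x : X} {v v' : V} (h : (x, v) ∈ Y)
    (h' : (x, v') ∈ Y) : v = v' := by
  obtain ⟨w, -, ⟨-, h1⟩, h2⟩ := hY.short hΓ hE h h'
  rw [h1 rfl] at h2
  exact congrArg Prod.snd (path_nil_iff.1 h2)

theorem nm_unique {Y : Set (X × V)} (hY : Cell Γ E Y) {x x' : X} {u : V} {w w' : List Λ}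
    (h : Nm ι Γ E Y x u w) (h' : Nm ι Γ E Y x' u w') (hl : w.length + w'.length < 98 * P u) :
    x = x' ∧ w = w' := by
  obtain ⟨hr, hlast, v, hv, hp⟩ := h.spec
  obtain ⟨hr', hlast', v', hv', hp'⟩ := h'.spec
  obtain ⟨r, hrr, ⟨hrl, -⟩, hrp⟩ := hY.short hΓ hE hv hv'
  obtain ⟨hr1, hr2⟩ := path_prod2_iff.1 hrp
  simp only at hr1 hr2 hrl
  have hred : Red ι (w ++ r) := by
    refine red_append_iff.2 ⟨hr, hrr, ?_⟩
    intro a ha b hb hab
    cases r with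
    | nil => simp at hb
    | cons c r =>
      simp at hb
      obtain ⟨y, hy, -⟩ := path_cons_iff.1 hr1
      apply hlast a ha
      rw [← hab, ← hb]
      exact ⟨y, hy⟩
  have e := hΓ.scp hp
  have heq : w ++ r = w' := hΓ.uniq hred hr' (hp.append hr2) hp' (by simp; omega)
  rcases List.eq_nil_or_concat r with rfl | ⟨r', b, rfl⟩
  · exact ⟨path_nil_iff.1 hr1, by simpa using heq⟩
  · exfalso
    rw [List.concat_eq_append] at hr1 heq
    obtain ⟨y, -, hy⟩ := path_append_iff.1 hr1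
    obtain ⟨y', hy', hy''⟩ := path_cons_iff.1 hy
    rw [path_nil_iff.1 hy''] at hy'
    apply hlast' b
    · rw [← heq, ← List.append_assoc]
      simp
    · exact ⟨y, hE.symm _ _ _ hy'⟩

omit hE in
theorem nm_le {Y Y' : Set (X × V)} {x : X} {u u' : V} {w : List Λ} (h : Nm ι Γ E Y x u w)
    (h' : Nm ι Γ E Y' x u' w) (hl : w.length ≤ P u) : w.length ≤ P u' := by
  by_contra hlt
  obtain ⟨hr, -, v, -, hp⟩ := h.spec
  obtain ⟨-, -, v', -, hp'⟩ := h'.spec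
  have := hΓ.piece _ _ _ _ _ hr (not_le.1 hlt) hp' hp
  rw [this] at hlt
  exact hlt hl

omit hΓ hE in
theorem nm_drop {Y : Set (X × V)} {x : X} {t w : List Λ} :
    ∀ {u : V}, Nm ι Γ E Y x u (t ++ w) → ∃ u1, Path Γ u t u1 ∧ Nm ι Γ E Y x u1 w := by
  induction t with
  | nil => exact fun h => ⟨_, Path.nil _, h⟩
  | cons a t ih =>
    intro u h
    cases h with
    | cons h1 h2 _ =>
      obtain ⟨u1, h3, h4⟩ := ih h1
      exact ⟨u1, Path.cons h2 h3, h4⟩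

omit hE in
theorem nm_inC {Y : Set (X × V)} {x : X} {u : V} {w : List Λ} (h : Nm ι Γ E Y x u w) :
    InC Γ Y u := by
  obtain ⟨-, -, v, hv, hp⟩ := h.spec
  exact ⟨x, v, hv, _, hp.inv hΓ.symm⟩

theorem nm_inj {Y : Set (X × V)} (hY : Cell Γ E Y) {x : X} {u u' : V} {w : List Λ}
    (h : Nm ι Γ E Y x u w) (h' : Nm ι Γ E Y x u' w) : u = u' := by
  obtain ⟨-, -, v, hv, hp⟩ := h.spec
  obtain ⟨-, -, v', hv', hp'⟩ := h'.spec
  rw [← hY.inj hΓ hE hv hv'] at hp'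
  exact (hp.inv hΓ.symm).det hΓ.det (hp'.inv hΓ.symm)

theorem cm_low {Y : Set (X × V)} (hY : Cell Γ E Y) {x : X} {u : V} {w : List Λ}
    (h : Nm ι Γ E Y x u w) (hl : w.length ≤ P u) : cm ι Γ P E Y u = Sum.inl (x, w) := by
  have hex : ∃ n : X × List Λ, Nm ι Γ E Y n.1 u n.2 ∧ n.2.length ≤ P u := ⟨(x, w), h, hl⟩
  unfold cm
  rw [dif_pos hex]
  obtain ⟨h1, h2⟩ := hex.choose_spec
  have := nm_unique hΓ hE hY h1 h (by have := hΓ.pos u; omega)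
  congr 1
  exact Prod.ext this.1 this.2

theorem cm_high {Y : Set (X × V)} (hY : Cell Γ E Y) {x : X} {u : V} {w : List Λ}
    (h : Nm ι Γ E Y x u w) (hl : P u < w.length) (hl' : w.length < 97 * P u) :
    cm ι Γ P E Y u = Sum.inr (Y, u) := by
  unfold cm
  rw [dif_neg]
  rintro ⟨n, h1, h2⟩
  have := nm_unique hΓ hE hY h1 h (by omega)
  rw [this.2] at h2
  omega

omit hΓ hE in
theorem cm_eq_inl {Y : Set (X × V)} {x : X} {u : V} {w : List Λ}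
    (h : cm ι Γ P E Y u = Sum.inl (x, w)) : Nm ι Γ E Y x u w ∧ w.length ≤ P u := by
  unfold cm at h
  split_ifs at h with hex
  have h1 := hex.choose_spec
  have : hex.choose = (x, w) := Sum.inl.inj h
  rw [this] at h1
  exact h1

omit hΓ hE in
theorem cm_eq_inr {Y Y' : Set (X × V)} {u u' : V}
    (h : cm ι Γ P E Y u = Sum.inr (Y', u')) : Y = Y' ∧ u = u' := by
  unfold cm at h
  split_ifs at h with hex
  have := Sum.inr.inj h
  exact ⟨congrArg Prod.fst this, congrArg Prod.snd this⟩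

theorem cm_inj {Y : Set (X × V)} (hY : Cell Γ E Y) {u u' : V}
    (h : cm ι Γ P E Y u = cm ι Γ P E Y u') : u = u' := by
  rcases hc : cm ι Γ P E Y u' with ⟨x, w⟩ | ⟨Y', u0⟩
  · exact nm_inj hΓ hE hY (cm_eq_inl (h.trans hc)).1 (cm_eq_inl hc).1
  · exact (cm_eq_inr (h.trans hc)).2.trans (cm_eq_inr hc).2.symm

omit hΓ hE in
theorem InC.step {Y : Set (X × V)} {u u' : V} {w : List Λ} (h : InC Γ Y u) (h' : Path Γ u w u') :
    InC Γ Y u' := let ⟨x, v, h1, h2⟩ := h; ⟨x, v, h1, h2.step h'⟩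

omit hΓ hE in
theorem cm_edge {Y : Set (X × V)} (hY : Cell Γ E Y) {u u' : V} {a : Λ} (h : InC Γ Y u)
    (h' : Γ u a u') : nE ι Γ P E (cm ι Γ P E Y u) a (cm ι Γ P E Y u') :=
  Or.inr ⟨Y, u, u', hY, h, h', rfl, rfl⟩

omit hΓ hE in
theorem cm_path {Y : Set (X × V)} (hY : Cell Γ E Y) {u u' : V} {w : List Λ} (h : InC Γ Y u)
    (h' : Path Γ u w u') : Path (nE ι Γ P E) (cm ι Γ P E Y u) w (cm ι Γ P E Y u') :=
  path_of_mor (v := u) (fun _ _ _ ⟨_, c⟩ e => cm_edge hY (h.step c) e) h' (.rfl' u)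

theorem cm_ful {Y : Set (X × V)} (hY : Cell Γ E Y) {u : V} (h : InC Γ Y u) :
    Ful Γ (nE ι Γ P E) (cm ι Γ P E Y u) u :=
  ⟨_, rfl, fun _ _ _ ⟨_, c⟩ e => cm_edge hY (h.step c) e, fun _ _ _ _ => cm_inj hΓ hE hY⟩

omit hΓ hE in
theorem emb_mor' : Mor E (nE ι Γ P E) (emb V Λ) :=
  fun x _ x' h => Or.inl ⟨x, x', h, rfl, rfl⟩

omit hΓ hE in
theorem emb_inj : Function.Injective (emb (X := X) V Λ) := fun _ _ h =>
  congrArg Prod.fst (Sum.inl.inj h)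

theorem cm_root {Y : Set (X × V)} (hY : Cell Γ E Y) {x : X} {v : V} (h : (x, v) ∈ Y) :
    cm ι Γ P E Y v = emb V Λ x :=
  cm_low hΓ hE hY (Nm.root h) (Nat.zero_le _)

omit hE in
theorem nm_step {Y : Set (X × V)} (hY : Cell Γ E Y) {x : X} {u u1 : V} {w : List Λ} {a : Λ}
    (h : Nm ι Γ E Y x u w) (h1 : Γ u a u1) :
    (w = [] ∧ ∃ x1, E x a x1 ∧ Nm ι Γ E Y x1 u1 []) ∨
      (∃ w', w = a :: w' ∧ Nm ι Γ E Y x u1 w') ∨
      (Up E x w a ∧ Nm ι Γ E Y x u1 (ι a :: w)) := by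
  have hup : Up E x w a → Nm ι Γ E Y x u1 (ι a :: w) := fun hu =>
    Nm.cons h (hΓ.symm _ _ _ h1) (by rw [hΓ.invol]; exact hu)
  cases h with
  | root hv =>
    by_cases hx : ∃ x', E x a x'
    · obtain ⟨x1, hx1⟩ := hx
      exact Or.inl ⟨rfl, x1, hx1, Nm.root (hY.closed hv (Path.single (y := (x1, u1)) ⟨hx1, h1⟩))⟩
    · exact Or.inr (Or.inr ⟨hx, hup hx⟩)
  | @cons _ v b w' h2 h3 h4 =>
    by_cases hb : b = a
    · subst hb
      rw [← hΓ.det _ _ _ _ h3 h1]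
      exact Or.inr (Or.inl ⟨w', rfl, h2⟩)
    · exact Or.inr (Or.inr ⟨hb, hup hb⟩)

theorem nE_symm : Symm ι (nE ι Γ P E) := by
  rintro z a z' (⟨x, x', h, rfl, rfl⟩ | ⟨Y, u, u', hY, c, h, rfl, rfl⟩)
  · exact Or.inl ⟨x', x, hE.symm _ _ _ h, rfl, rfl⟩
  · exact cm_edge hY (c.step (Path.single h)) (hΓ.symm _ _ _ h)

omit hΓ hE in
theorem nE_high {Y : Set (X × V)} {u : V} {a : Λ} {z' : Nxt X Λ V}
    (h : nE ι Γ P E (Sum.inr (Y, u)) a z') : ∃ u', Γ u a u' ∧ z' = cm ι Γ P E Y u' := by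
  rcases h with ⟨x, x', h, h1, -⟩ | ⟨Y', u0, u', hY, -, h, h1, rfl⟩
  · simp [emb] at h1
  · obtain ⟨rfl, rfl⟩ := cm_eq_inr h1.symm
    exact ⟨u', h, rfl⟩

theorem nE_low {x : X} {w : List Λ} {a : Λ} {z' : Nxt X Λ V}
    (h : nE ι Γ P E (Sum.inl (x, w)) a z') :
    (w = [] ∧ ∃ x1, E x a x1 ∧ z' = emb V Λ x1) ∨
      (∃ w', w = a :: w' ∧ z' = Sum.inl (x, w')) ∨
      (Up E x w a ∧ ∃ Y u', Cell Γ E Y ∧ z' = cm ι Γ P E Y u' ∧
        Nm ι Γ E Y x u' (ι a :: w)) := by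
  rcases h with ⟨x0, x', h, h1, rfl⟩ | ⟨Y, u, u', hY, -, h, h1, rfl⟩
  · simp [emb] at h1
    obtain ⟨rfl, rfl⟩ := h1
    exact Or.inl ⟨rfl, x', h, rfl⟩
  · obtain ⟨hn, hl⟩ := cm_eq_inl h1.symm
    rcases nm_step hΓ hY hn h with ⟨rfl, x1, h2, h3⟩ | ⟨w', rfl, h3⟩ | ⟨h2, h3⟩
    · exact Or.inl ⟨rfl, x1, h2, cm_low hΓ hE hY h3 (Nat.zero_le _)⟩
    · exact Or.inr (Or.inl ⟨w', rfl, cm_low hΓ hE hY h3 (by
        rw [hΓ.sc _ _ _ h]; simp at hl; omega)⟩)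
    · exact Or.inr (Or.inr ⟨h2, Y, u', hY, rfl, h3⟩)

theorem cm_eq_of_nm {Y1 Y2 : Set (X × V)} (hY1 : Cell Γ E Y1) (hY2 : Cell Γ E Y2) {x : X}
    {u1 u2 : V} {w : List Λ} (n1 : Nm ι Γ E Y1 x u1 w) (n2 : Nm ι Γ E Y2 x u2 w) :
    cm ι Γ P E Y1 u1 = cm ι Γ P E Y2 u2 := by
  by_cases hlt : w.length ≤ P u1
  · rw [cm_low hΓ hE hY1 n1 hlt, cm_low hΓ hE hY2 n2 (nm_le hΓ n1 n2 hlt)]
  · obtain ⟨hr, -, v1, hv1, p1⟩ := n1.spec
    obtain ⟨-, -, v2, hv2, p2⟩ := n2.spec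
    have hu : u1 = u2 := hΓ.piece _ _ _ _ _ hr (by omega) p1 p2
    subst hu
    have hv : v1 = v2 := p1.det hΓ.det p2
    subst hv
    rw [hY1.eq hΓ hE hY2 hv1 hv2]

theorem nE_det : Det (nE ι Γ P E) := by
  rintro (⟨x, w⟩ | ⟨Y, u⟩) a z1 z2 h1 h2
  · rcases nE_low hΓ hE h1 with ⟨rfl, x1, e1, rfl⟩ | ⟨w1, rfl, rfl⟩ |
      ⟨hu1, Y1, u1, hY1, rfl, n1⟩
    · rcases nE_low hΓ hE h2 with ⟨-, x2, e2, rfl⟩ | ⟨w2, e2, -⟩ | ⟨hu2, -⟩
      · rw [hE.det _ _ _ _ e1 e2]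
      · simp at e2
      · exact absurd ⟨x1, e1⟩ hu2
    · rcases nE_low hΓ hE h2 with ⟨e2, -⟩ | ⟨w2, e2, rfl⟩ | ⟨hu2, -⟩
      · simp at e2
      · simp at e2
        rw [e2]
      · exact absurd rfl hu2
    · rcases nE_low hΓ hE h2 with ⟨rfl, x2, e2, rfl⟩ | ⟨w2, rfl, rfl⟩ |
        ⟨-, Y2, u2, hY2, rfl, n2⟩
      · exact absurd ⟨x2, e2⟩ hu1
      · exact absurd rfl hu1
      · exact cm_eq_of_nm hΓ hE hY1 hY2 n1 n2
  · obtain ⟨u1, e1, rfl⟩ := nE_high h1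
    obtain ⟨u2, e2, rfl⟩ := nE_high h2
    rw [hΓ.det _ _ _ _ e1 e2]

theorem nxt_ful (x : X) (v : V) : Ful Γ (nE ι Γ P E) (emb V Λ x) v := by
  by_cases h : Ful Γ E x v
  · exact h.map emb_inj emb_mor'
  · obtain ⟨Y, hY, hx⟩ := exists_cel h
    rw [← cm_root hΓ hE hY hx]
    exact cm_ful hΓ hE hY ⟨x, v, hx, .rfl' v⟩

theorem emb_ind' {x y : X} {a : Λ} (h : nE ι Γ P E (emb V Λ x) a (emb V Λ y)) : E x a y := by
  rcases nE_low hΓ hE h with ⟨-, x1, e1, e2⟩ | ⟨w1, e1, -⟩ | ⟨-, Y, u, hY, e, n⟩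
  · simp [emb] at e2
    rw [e2]
    exact e1
  · simp at e1
  · rw [cm_low hΓ hE hY n (by simpa using hΓ.pos u)] at e
    simp [emb] at e

theorem not_nl {Y : Set (X × V)} (hY : Cell Γ E Y) {u : V} (h : InC Γ Y u) :
    ¬ NL ι Γ P E (cm ι Γ P E Y u) u := by
  obtain ⟨x, v, hv, w, hw⟩ := id h
  intro c
  refine c _ x v ?_ (hw.inv hΓ.symm)
  rw [← cm_root hΓ hE hY hv]
  exact cm_path hY h (hw.inv hΓ.symm)

/-- Going up along a path which is also readable in a copy which is not yet attached. -/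
theorem up_path' {x : X} {w0 : List Λ} {Y0 : Set (X × V)} {u0 v : V}
    (n0 : Nm ι Γ E Y0 x u0 w0) (l0 : w0.length ≤ P u0)
    (hv : NL ι Γ P E (Sum.inl (x, w0)) v) (a : Λ) (ha : Up E x w0 a) (r : List Λ) :
    ∀ {z' : Nxt X Λ V} {v' : V}, Path (nE ι Γ P E) (Sum.inl (x, w0)) (a :: r) z' →
      Path Γ v (a :: r) v' → Red ι (a :: r) →
      ∃ Y' u', Cell Γ E Y' ∧ z' = cm ι Γ P E Y' u' ∧ Nm ι Γ E Y' x u' (winv ι (a :: r) ++ w0) ∧
        (a :: r).length ≤ P u' ∧ w0.length ≤ P u' ∧ (a :: r).length ≤ P v := by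
  have bd : ∀ {t : List Λ} {Y' : Set (X × V)} {u' v' : V}, Cell Γ E Y' →
      Nm ι Γ E Y' x u' (winv ι t ++ w0) → Path Γ v t v' → Red ι t →
      t.length ≤ P u' ∧ w0.length ≤ P u' ∧ t.length ≤ P v := by
    intro t Y' u' v' hY' n p hr
    obtain ⟨u1, p1, n1⟩ := nm_drop n
    have l1 := nm_le hΓ n0 n1 l0
    have p2 := p1.inv hΓ.symm
    rw [winv_winv hΓ.invol] at p2
    have hne : u1 ≠ v := by
      rintro rfl
      rw [← cm_low hΓ hE hY' n1 l1] at hv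
      exact not_nl hΓ hE hY' (nm_inC hΓ n1) hv
    rw [hΓ.scp p2]
    exact ⟨not_lt.1 fun h => hne (hΓ.piece _ _ _ _ _ hr h p2 p), l1,
      not_lt.1 fun h => hne (hΓ.piece _ _ _ _ _ hr h p p2).symm⟩
  induction r using List.reverseRecOn with
  | nil =>
    intro z' v' hp hq hr
    obtain ⟨z1, h1, h2⟩ := path_cons_iff.1 hp
    rw [← path_nil_iff.1 h2]
    rcases nE_low hΓ hE h1 with ⟨rfl, x1, e, -⟩ | ⟨w', rfl, -⟩ | ⟨-, Y, u, hY, rfl, n⟩
    · exact absurd ⟨x1, e⟩ ha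
    · exact absurd rfl ha
    · exact ⟨Y, u, hY, rfl, n, bd hY n hq hr⟩
  | append_singleton r c ih =>
    intro z' v' hp hq hr
    rw [← List.cons_append] at hp hq hr ⊢
    obtain ⟨z1, p1, p2⟩ := path_append_iff.1 hp
    obtain ⟨v1, q1, -⟩ := path_append_iff.1 hq
    obtain ⟨z2, p3, p4⟩ := path_cons_iff.1 p2
    rw [← path_nil_iff.1 p4]
    obtain ⟨Y1, u1, hY1, rfl, n1, l1, l2, -⟩ := ih p1 q1 hr.left
    obtain ⟨t, b, e⟩ : ∃ t b, a :: r = t ++ [b] := by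
      rcases List.eq_nil_or_concat (a :: r) with h | ⟨t, b, h⟩
      · simp at h
      · exact ⟨t, b, by simpa using h⟩
    have hbc : ι b ≠ c := fun h =>
      (red_append_iff.1 hr).2.2 b (by rw [e]; simp) c (by simp) h.symm
    have e2 : winv ι (a :: r) ++ w0 = ι b :: (winv ι t ++ w0) := by rw [e]; simp
    have key : ∃ Y' u', Cell Γ E Y' ∧ z2 = cm ι Γ P E Y' u' ∧
        Nm ι Γ E Y' x u' (ι c :: (winv ι (a :: r) ++ w0)) := by
      by_cases hlt : (winv ι (a :: r) ++ w0).length ≤ P u1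
      · rw [cm_low hΓ hE hY1 n1 hlt] at p3
        rcases nE_low hΓ hE p3 with ⟨e', -⟩ | ⟨w', e', -⟩ | ⟨-, h⟩
        · simp at e'
        · rw [e2] at e'
          exact absurd (List.cons.inj e').1 hbc
        · exact h
      · rw [cm_high hΓ hE hY1 n1 (by omega) (by
          have := hΓ.pos u1; simp at l1 ⊢; omega)] at p3
        obtain ⟨u2, e1, rfl⟩ := nE_high p3
        refine ⟨Y1, u2, hY1, rfl, Nm.cons n1 (hΓ.symm _ _ _ e1) ?_⟩
        rw [hΓ.invol, e2]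
        exact hbc
    obtain ⟨Y', u', hY', rfl, n'⟩ := key
    have n'' : Nm ι Γ E Y' x u' (winv ι (a :: r ++ [c]) ++ w0) := by simpa using n'
    exact ⟨Y', u', hY', rfl, n'', bd hY' n'' hq hr⟩

omit hΓ hE in
theorem NL.step {z z' : Nxt X Λ V} {v v' : V} {w : List Λ}
    (h : NL ι Γ P E z v) (p : Path (nE ι Γ P E) z w z') (q : Path Γ v w v') :
    NL ι Γ P E z' v' := fun _ _ _ p' q' => h _ _ _ (p.append p') (q.append q')

/-- A path readable in a copy which is not attached lies in two cells. -/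
theorem two_cells' {w : List Λ} :
    ∀ {Y : Set (X × V)} {u v v' : V} {z' : Nxt X Λ V}, Cell Γ E Y → InC Γ Y u →
      NL ι Γ P E (cm ι Γ P E Y u) v → Path (nE ι Γ P E) (cm ι Γ P E Y u) w z' →
      Path Γ v w v' → Red ι w →
      ∃ w1 w2 u1, w = w1 ++ w2 ∧ Path Γ u w1 u1 ∧ w2.length ≤ P v ∧
        ((w2 = [] ∧ z' = cm ι Γ P E Y u1) ∨ ∃ x w0 Y' u', Nm ι Γ E Y x u1 w0 ∧ Cell Γ E Y' ∧
          z' = cm ι Γ P E Y' u' ∧ Nm ι Γ E Y' x u' (winv ι w2 ++ w0) ∧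
          w2.length + w0.length ≤ 2 * P u') := by
  induction w with
  | nil =>
    intro Y u v v' z' _ _ _ hp _ _
    exact ⟨[], [], u, rfl, Path.nil _, Nat.zero_le _, .inl ⟨rfl, (path_nil_iff.1 hp).symm⟩⟩
  | cons a w ih =>
    intro Y u v v' z' hY hc hv hp hq hr
    obtain ⟨z1, h1, h2⟩ := path_cons_iff.1 hp
    obtain ⟨v1, q1, q2⟩ := path_cons_iff.1 hq
    by_cases lifted : ∃ u1, Γ u a u1
    · obtain ⟨u1, e⟩ := lifted
      obtain rfl := nE_det hΓ hE _ _ _ _ h1 (cm_edge hY hc e)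
      obtain ⟨w1, w2, u2, rfl, r1, r2, r3⟩ := ih hY (hc.step (Path.single e))
        (hv.step (Path.single h1) (Path.single q1)) h2 q2 hr.tail
      exact ⟨a :: w1, w2, u2, rfl, Path.cons e r1, by rw [← hΓ.sc _ _ _ q1]; exact r2, r3⟩
    rcases hcm : cm ι Γ P E Y u with ⟨x, w0⟩ | ⟨Y', u'⟩
    · obtain ⟨hn, hl0⟩ := cm_eq_inl hcm
      rw [hcm] at hv hp
      have hu : Up E x w0 a := by
        cases hn with
        | root _ => exact (hv [] x v (Path.nil _) (Path.nil _)).elim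
        | @cons _ v2 b w1 _ e0 _ =>
          rintro rfl
          exact lifted ⟨_, e0⟩
      obtain ⟨Y', u', hY', e', n', l1, l2, l3⟩ := up_path' hΓ hE hn hl0 hv a hu w hp hq hr
      exact ⟨[], a :: w, u, rfl, Path.nil _, l3, .inr ⟨x, w0, Y', u', hn, hY', e', n', by omega⟩⟩
    · obtain ⟨rfl, rfl⟩ := cm_eq_inr hcm
      rw [hcm] at h1
      obtain ⟨u1, e, -⟩ := nE_high h1
      exact absurd ⟨u1, e⟩ lifted

omit hΓ hE in
theorem cell_of_edge {z z' : Nxt X Λ V} {a : Λ} (h : nE ι Γ P E z a z')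
    (hz : z ∉ Set.range (emb (X := X) V Λ)) :
    ∃ Y u u', Cell Γ E Y ∧ InC Γ Y u ∧ Γ u a u' ∧ z = cm ι Γ P E Y u := by
  rcases h with ⟨x, x', -, rfl, -⟩ | ⟨Y, u, u', hY, c, e, rfl, -⟩
  · exact absurd ⟨x, rfl⟩ hz
  · exact ⟨Y, u, u', hY, c, e, rfl⟩

theorem nm_transfer {Y Y' : Set (X × V)} (hY' : Cell Γ E Y') {x : X} {u u' : V} {n : List Λ}
    (e : cm ι Γ P E Y u = cm ι Γ P E Y' u') (h : Nm ι Γ E Y' x u' n) (hl : n.length ≤ 2 * P u') :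
    Nm ι Γ E Y x u n := by
  rcases hc : cm ι Γ P E Y' u' with ⟨x1, w⟩ | ⟨Y2, u2⟩
  · obtain ⟨n1, l1⟩ := cm_eq_inl hc
    obtain ⟨rfl, rfl⟩ := nm_unique hΓ hE hY' n1 h (by have := hΓ.pos u'; omega)
    exact (cm_eq_inl (e.trans hc)).1
  · obtain ⟨rfl, rfl⟩ := cm_eq_inr hc
    obtain ⟨rfl, rfl⟩ := cm_eq_inr (e.trans hc)
    exact h

theorem nl_short {z : Nxt X Λ V} {v : V} (hf : NL ι Γ P E z v) : ∀ w z' v', Red ι w →
    Path (nE ι Γ P E) z w z' → Path Γ v w v' → w.length ≤ 2 * P v ∧ (z' = z → w = []) := by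
  intro w z' v' hr hp hq
  rcases w with _ | ⟨a, w⟩
  · simp
  obtain ⟨z1, h1, -⟩ := path_cons_iff.1 hp
  obtain ⟨Y, u, -, hY, hc, -, rfl⟩ := cell_of_edge h1 (by
    rintro ⟨x, rfl⟩; exact hf [] x v (Path.nil _) (Path.nil _))
  generalize a :: w = r at hr hp hq
  obtain ⟨w1, w2, u1, rfl, s1, l2, h⟩ := two_cells' hΓ hE hY hc hf hp hq hr
  obtain ⟨v2, q2, -⟩ := path_append_iff.1 hq
  have hne : u ≠ v := by rintro rfl; exact not_nl hΓ hE hY hc hf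
  have l1 : w1.length ≤ P v := not_lt.1 fun h => hne (hΓ.piece _ _ _ _ _ hr.left h q2 s1).symm
  refine ⟨by simp; omega, fun e => ?_⟩
  have hcl : Path Γ u (w1 ++ w2) u := by
    rcases h with ⟨rfl, rfl⟩ | ⟨x, w0, Y', u', n0, hY', rfl, n', l⟩
    · rw [cm_inj hΓ hE hY e] at s1
      simpa using s1
    · obtain ⟨u2, p2, n2⟩ := nm_drop (nm_transfer hΓ hE hY' e.symm n' (by simpa using l))
      rw [nm_inj hΓ hE hY n2 n0] at p2
      have := p2.inv hΓ.symm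
      rw [winv_winv hΓ.invol] at this
      exact s1.append this
  refine hΓ.girth u _ hr hcl (lt_of_le_of_lt (not_lt.1 fun h => hne
    (hΓ.piece _ _ _ _ _ hr h hcl hq)) (by have := hΓ.pos u; omega))

theorem nxt_gd : GdX ι Γ P (nE ι Γ P E) := by
  refine ⟨nE_symm hΓ hE, nE_det hΓ hE, fun z v => ?_⟩
  by_cases hf : Ful Γ (nE ι Γ P E) z v
  · exact Or.inl hf
  · exact Or.inr (nl_short hΓ hE fun w x v' p q => hf ((nxt_ful hΓ hE x v').step hΓ.symm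
      (nE_det hΓ hE) (p.inv (nE_symm hΓ hE)) (q.inv hΓ.symm)))

end Construction

end Vale.Agent.P089
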